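import Vale.Agent.P234.Cin

open scoped ContDiff Manifold Topology
open Set Filter

noncomputable section

namespace Vale.Agent.P234

open Vale.Agent.P255

variable {E : Type} [NormedAddCommGroup E] [NormedSpace ℝ E] [FiniteDimensional ℝ E]
variable {M : Type} [TopologicalSpace M] [ChartedSpace E M] [IsManifold 𝓘(ℝ, E) ∞ M] [T2Space M]
  [CompactSpace M] [ConnectedSpace M]
variable {g : RMetric E M} {e e' : OpenPartialHomeomorph M E}

theorem aa1 (hc : CCp g) {x : M} {a b u w : E} (hs : segment ℝ a b ⊆ Ib g x) (ha : NF g x a)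
    (hb : NF g x b) (hu : u ∈ segment ℝ a b) (hk : Ker g x u w) {ξ : E}
    (hξ : g.inner x ξ (b - a) = 0) : g.inner x w ξ = 0 := by
  obtain ⟨r, hr, he⟩ := eh g
  have nu := N_nonneg g x u
  obtain ⟨τ, h0, h1, h2⟩ : ∃ τ : ℝ, 0 < τ ∧ τ < 1 ∧ τ ^ 2 * g.inner x u u ≤ r ^ 2 := by
    refine ⟨min (1 / 2) (r / (√(g.inner x u u) + 1)), by positivity,
      (min_le_left _ _).trans_lt (by norm_num), ?_⟩
    nth_rewrite 2 [← Real.sq_sqrt nu]
    rw [← mul_pow]
    refine pow_le_pow_left₀ (by positivity) ?_ 2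
    have h3 : r / (√(g.inner x u u) + 1) * √(g.inner x u u) ≤ r := by
      rw [div_mul_eq_mul_div, div_le_iff₀ (by positivity)]
      nlinarith
    exact (mul_le_mul_of_nonneg_right (min_le_right _ _) (Real.sqrt_nonneg _)).trans h3
  have hE := he x u w τ h0 h1 h2 hk
  obtain ⟨C, hC⟩ := cin h0 h1 hE
  obtain ⟨Ca, hCa⟩ := ss_low (hs (left_mem_segment ℝ a b)) ha
  obtain ⟨Cb, hCb⟩ := ss_low (hs (right_mem_segment ℝ a b)) hb
  have hl : Tendsto (fun t : ℝ => t • u) (𝓝[<] 1) (𝓝 u) := by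
    have : Continuous fun t : ℝ => t • u := by fun_prop
    simpa using (this.tendsto 1).mono_left nhdsWithin_le_nhds
  have nξ := N_nonneg g x ξ
  obtain ⟨θ, hθ, hu'⟩ := (segment_eq_image ℝ a b ▸ hu :
    u ∈ (fun θ : ℝ => (1 - θ) • a + θ • b) '' Icc 0 1)
  have key : ∀ κ : ℝ, 2 * κ * g.inner x w ξ ≤ (|Ca| + |Cb| + C) * g.inner x ξ ξ := by
    intro κ
    have t1 : Tendsto (fun t : ℝ => κ ^ 2 * HH g x τ w (t • u) + (|Ca| + |Cb| + C) * g.inner x ξ ξ)
        (𝓝[<] 1) (𝓝 (κ ^ 2 * HH g x τ w u + (|Ca| + |Cb| + C) * g.inner x ξ ξ)) :=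
      ((hE.2.1.continuousAt.tendsto.comp hl).const_mul _).add_const _
    rw [hE.2.2, mul_zero, zero_add] at t1
    refine ge_of_tendsto t1 ?_
    filter_upwards [hl.eventually hC, hCa, hCb, Ioo_mem_nhdsLT (zero_lt_one' ℝ)]
      with t b1 b2 b3 b4
    have c1 : segment ℝ (t • a) (t • b) ⊆ II g x := by
      rintro _ ⟨p, q, hp, hq, hpq, rfl⟩
      rw [smul_comm p, smul_comm q, ← smul_add]
      exact II_smul (hs ⟨p, q, hp, hq, hpq, rfl⟩) b4.1.le b4.2
    have c2 := hc x (t • a) (t • b) ξ c1 (by rw [← smul_sub, map_smul, hξ, smul_zero]) θ hθ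
    rw [smul_comm (1 - θ), smul_comm θ, ← smul_add, show (1 - θ) • a + θ • b = u from hu'] at c2
    have c3 := b1 (II_smul (hs hu) b4.1.le b4.2) κ ξ
    have c4 := mul_le_mul_of_nonneg_left (b2 ξ) (sub_nonneg.2 hθ.2)
    have c5 := mul_le_mul_of_nonneg_left (b3 ξ) hθ.1
    have c6 : (1 - θ) * Ca ≤ |Ca| := (mul_le_mul_of_nonneg_left (le_abs_self Ca)
      (sub_nonneg.2 hθ.2)).trans (mul_le_of_le_one_left (abs_nonneg _) (by linarith [hθ.1]))
    have c7 : θ * Cb ≤ |Cb| := (mul_le_mul_of_nonneg_left (le_abs_self Cb) hθ.1).trans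
      (mul_le_of_le_one_left (abs_nonneg _) hθ.2)
    linarith [mul_le_mul_of_nonneg_right c6 nξ, mul_le_mul_of_nonneg_right c7 nξ]
  by_contra hne
  have := key ((((|Ca| + |Cb| + C) * g.inner x ξ ξ) + 1) / (2 * g.inner x w ξ))
  rw [show ∀ y : ℝ, 2 * (y / (2 * g.inner x w ξ)) * g.inner x w ξ = y from fun y => by
    field_simp] at this
  linarith

end Vale.Agent.P234
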