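import Vale.Agent.P234.AA

open scoped ContDiff Manifold Topology
open Set Filter

noncomputable section

namespace Vale.Agent.P234

open Vale.Agent.P255

variable {E : Type} [NormedAddCommGroup E] [NormedSpace ℝ E] [FiniteDimensional ℝ E]
variable {M : Type} [TopologicalSpace M] [ChartedSpace E M] [IsManifold 𝓘(ℝ, E) ∞ M] [T2Space M]
  [CompactSpace M] [ConnectedSpace M]
variable {g : RMetric E M} {e e' : OpenPartialHomeomorph M E}

theorem aa2 (hc : CCp g) {x : M} {u w : E} {α β : ℝ} (hα : 0 < α) (hβ : 0 < β)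
    (hs : ∀ σ ∈ Icc (-α) β, u + σ • w ∈ Ib g x) (hb : NF g x (u + β • w)) (hk : Ker g x u w) :
    w = 0 := by
  by_contra hw
  have Nw := g.pos x w hw
  have Nu := N_nonneg g x u
  have ho : g.inner x u w = 0 := ker_orth (kb.2 hk)
  obtain ⟨r, r0, hr⟩ := eh g
  obtain ⟨τ, ⟨τ0, τ1⟩, τ2⟩ : ∃ τ : ℝ, τ ∈ Ioo (0 : ℝ) 1 ∧ τ ^ 2 * g.inner x u u ≤ r ^ 2 := by
    have h1 : Tendsto (fun τ : ℝ => τ ^ 2 * g.inner x u u) (𝓝[>] 0) (𝓝 0) :=
      (((continuous_pow 2).mul continuous_const).tendsto' 0 0 (by simp)).mono_left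
        nhdsWithin_le_nhds
    have h2 : ∀ᶠ τ in 𝓝[>] (0 : ℝ), τ ∈ Ioo (0 : ℝ) 1 := Ioo_mem_nhdsGT (zero_lt_one' ℝ)
    exact (h2.and (h1.eventually (ge_mem_nhds (pow_pos r0 2)))).exists
  have hE := hr x u w τ τ0 τ1 τ2 hk
  obtain ⟨C', hC'⟩ := cin τ0 τ1 hE
  obtain ⟨C, hC⟩ := ss_low (hs β ⟨by linarith, le_rfl⟩) hb
  have d1 : HasDerivAt (fun σ : ℝ => u + σ • w) w 0 := by
    simpa using ((hasDerivAt_id (0 : ℝ)).smul_const w).const_add u
  have d2 : HasDerivAt (fun σ : ℝ => (1 - σ ^ 2) • (u + σ • w)) w 0 := by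
    exact (((hasDerivAt_pow 2 (0 : ℝ)).const_sub 1).smul d1).congr_deriv (by simp)
  have t1 : Tendsto (fun σ : ℝ => u + σ • w) (𝓝 0) (𝓝 u) := by
    simpa using d1.continuousAt.tendsto
  have t2 : Tendsto (fun σ : ℝ => (1 - σ ^ 2) • (u + σ • w)) (𝓝[>] 0) (𝓝 u) := by
    simpa using d2.continuousAt.tendsto.mono_left nhdsWithin_le_nhds
  have dH := hE.2.1.hasFDerivAt
  have z1 : fderiv ℝ (HH g x τ w) u w = 0 := by
    refine IsLocalMin.hasDerivAt_eq_zero (f := fun σ : ℝ => HH g x τ w (u + σ • w)) (a := 0) ?_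
      (dH.comp_hasDerivAt_of_eq 0 d1 (by simp))
    filter_upwards [t1.eventually hE.1, Icc_mem_nhds (neg_lt_zero.2 hα) hβ] with σ h1 h2
    simp only [zero_smul, add_zero, hE.2.2]
    exact (hh_tay τ0 τ1 (hs σ h2) h1).1
  have d3 := dH.comp_hasDerivAt_of_eq 0 d2 (by simp)
  rw [z1] at d3
  set A := (|(1 + C) * g.inner x u u / β| + 3) / (2 * g.inner x w w) with hA
  have A0 : 0 < A := by positivity
  have e1 : ∀ᶠ σ in 𝓝[>] (0 : ℝ), A ^ 2 * HH g x τ w ((1 - σ ^ 2) • (u + σ • w)) ≤ σ := by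
    have h1 := (hasDerivAt_iff_isLittleO.1 d3).def (c := (A ^ 2)⁻¹) (by positivity)
    filter_upwards [nhdsWithin_le_nhds h1, self_mem_nhdsWithin] with σ h2 h3
    simp only [Function.comp, ne_eq, OfNat.ofNat_ne_zero, not_false_eq_true, zero_pow, sub_zero,
      zero_smul, add_zero, one_smul, hE.2.2, smul_zero, Real.norm_eq_abs] at h2
    rw [abs_of_pos (show 0 < σ from h3), inv_mul_eq_div, le_div_iff₀' (by positivity)] at h2
    exact (mul_le_mul_of_nonneg_left (le_abs_self _) (by positivity)).trans h2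
  have t3 : Tendsto (fun σ : ℝ => 1 - σ ^ 2) (𝓝[>] 0) (𝓝[<] 1) := by
    refine tendsto_nhdsWithin_iff.2 ⟨((continuous_const.sub (continuous_pow 2)).tendsto' 0 1
      (by simp)).mono_left nhdsWithin_le_nhds, eventually_mem_nhdsWithin.mono fun σ h => ?_⟩
    exact sub_lt_self (1 : ℝ) (pow_pos (show 0 < σ from h) 2)
  have t4 : Tendsto (fun σ : ℝ => C' * σ * g.inner x w w) (𝓝[>] 0) (𝓝 0) :=
    (((continuous_const_mul C').mul continuous_const).tendsto' 0 0 (by simp)).mono_left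
      nhdsWithin_le_nhds
  obtain ⟨σ, ⟨⟨⟨⟨⟨a1, a2⟩, a3⟩, a4⟩, a5, a6⟩, -, a7⟩⟩ := (((((e1.and (t2.eventually hC')).and
    (t3.eventually hC)).and (t4.eventually (ge_mem_nhds one_pos))).and
    (Ioo_mem_nhdsGT hβ)).and (Ioo_mem_nhdsGT (zero_lt_one' ℝ))).exists
  have p0 : 0 < σ ^ 2 := pow_pos a5 2
  have p1 : 0 < 1 - σ ^ 2 := by nlinarith
  generalize ht : 1 - σ ^ 2 = t at *
  have p2 : t < 1 := by linarith
  have hI : ∀ c ∈ Icc 0 β, t • (u + c • w) ∈ II g x := fun c hc' =>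
    II_smul (hs c ⟨by linarith [hc'.1], hc'.2⟩) p1.le p2
  have hrad : ∀ c ∈ Icc 0 β, ∀ ξ, SS g x (t • (u + c • w)) (u + c • w) ξ
      = g.inner x (u + c • w) ξ := fun c hc' ξ => by
    have := ss_rad (hI c hc') ξ
    rw [map_smul, map_smul, smul_apply, smul_apply, smul_eq_mul, smul_eq_mul] at this
    exact mul_left_cancel₀ p1.ne' this
  have e2 : ∀ θ : ℝ, (1 - θ) • t • u + θ • t • (u + β • w) = t • (u + (θ * β) • w) :=
    fun θ => by module
  have b1 := hc x (t • u) (t • (u + β • w)) u (by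
      rw [segment_eq_image]
      rintro _ ⟨θ, hθ, rfl⟩
      dsimp only
      rw [e2]
      exact hI _ ⟨mul_nonneg hθ.1 hβ.le, mul_le_of_le_one_left hβ.le hθ.2⟩)
    (by
      rw [show t • (u + β • w) - t • u = (t * β) • w by module, map_smul, ho, smul_zero])
    (σ / β) ⟨by positivity, div_le_one_of_le₀ a6.le hβ.le⟩
  rw [e2, div_mul_cancel₀ _ hβ.ne'] at b1
  have b2 := hrad 0 ⟨le_rfl, hβ.le⟩ u
  rw [zero_smul, add_zero] at b2
  have hσ : σ ∈ Icc 0 β := ⟨a5.le, a6.le⟩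
  have b3 := hrad σ hσ u
  have b4 := hrad σ hσ w
  have b5 := ss_symm (hI σ hσ) u w
  have b6 := a2 (hI σ hσ) (A / σ) w
  have b7 := mul_le_mul_of_nonneg_left (a3 u) (div_pos a5 hβ).le
  have ho' : g.inner x w u = 0 := (g.symm x w u).trans ho
  rw [map_add, map_add, map_smul, map_smul, add_apply, add_apply, smul_apply, smul_apply,
    smul_eq_mul, smul_eq_mul] at b3 b4
  rw [ho'] at b3
  rw [ho, b5] at b4
  rw [b2] at b1
  generalize SS g x (t • (u + σ • w)) = S at *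
  generalize HH g x τ w (t • (u + σ • w)) = H at *
  generalize SS g x (t • (u + β • w)) u u = S' at *
  have b8 := mul_le_mul_of_nonneg_left b6 p0.le
  have b9 : σ ^ 2 * ((A / σ) ^ 2 * H - 2 * (A / σ) * g.inner x w w + C' * g.inner x w w)
      = A ^ 2 * H - σ * (|(1 + C) * g.inner x u u / β| + 3) + σ * (C' * σ * g.inner x w w) := by
    rw [hA]
    field_simp
  have c1 := mul_le_mul_of_nonneg_left a4 a5.le
  have c2 := mul_le_mul_of_nonneg_left (le_abs_self ((1 + C) * g.inner x u u / β)) a5.le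
  have c3 : σ * ((1 + C) * g.inner x u u / β) = σ / β * g.inner x u u
      + σ / β * (C * g.inner x u u) := by ring
  have c4 : σ * S w u + σ ^ 2 * S w w = σ ^ 2 * g.inner x w w := by
    linear_combination σ * b4
  have c5 := mul_pos p0 Nw
  linarith

end Vale.Agent.P234
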