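import Vale.Agent.P234.AA2

open scoped ContDiff Manifold Topology
open Set Filter

noncomputable section

namespace Vale.Agent.P234

open Vale.Agent.P255

variable {E : Type} [NormedAddCommGroup E] [NormedSpace ℝ E] [FiniteDimensional ℝ E]
variable {M : Type} [TopologicalSpace M] [ChartedSpace E M] [IsManifold 𝓘(ℝ, E) ∞ M] [T2Space M]
  [CompactSpace M] [ConnectedSpace M]
variable {g : RMetric E M} {e e' : OpenPartialHomeomorph M E}

theorem aa (hc : CCp g) {x : M} {a b : E} (hs : segment ℝ a b ⊆ Ib g x) (ha : NF g x a)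
    (hb : NF g x b) : ∀ u ∈ segment ℝ a b, NF g x u := by
  intro u hu
  rw [nf_iff]
  intro w hw
  obtain ⟨θ, hθ, hu'⟩ := (segment_eq_image' ℝ a b ▸ hu :
    u ∈ (fun θ : ℝ => a + θ • (b - a)) '' Icc 0 1)
  replace hu' : u = a + θ • (b - a) := hu'.symm
  have hseg : ∀ t ∈ Icc (0 : ℝ) 1, a + t • (b - a) ∈ Ib g x := fun t ht =>
    hs (segment_eq_image' ℝ a b ▸ ⟨t, ht, rfl⟩)
  rcases eq_or_ne (b - a) 0 with h0 | h0
  · rw [h0, smul_zero, add_zero] at hu'
    exact nf_iff.1 ha w (hu' ▸ hw)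
  rcases hθ.1.eq_or_lt with h1 | h1
  · rw [← h1, zero_smul, add_zero] at hu'
    exact nf_iff.1 ha w (hu' ▸ hw)
  rcases hθ.2.eq_or_lt with h2 | h2
  · rw [h2, one_smul, add_sub_cancel] at hu'
    exact nf_iff.1 hb w (hu' ▸ hw)
  have hη := g.pos x _ h0
  obtain ⟨c, hc'⟩ : ∃ c : ℝ, w = c • (b - a) := by
    refine ⟨g.inner x w (b - a) / g.inner x (b - a) (b - a), sub_eq_zero.1 (N_eq_zero (g := g)
      (x := x) ?_)⟩
    have a1 : g.inner x (w - (g.inner x w (b - a) / g.inner x (b - a) (b - a)) • (b - a))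
        (b - a) = 0 := by
      rw [map_sub (g.inner x) w, map_smul, sub_apply, smul_apply, smul_eq_mul,
        div_mul_cancel₀ _ hη.ne', sub_self]
    have a2 := aa1 hc hs ha hb hu hw a1
    rw [g.symm] at a2
    generalize g.inner x w (b - a) / g.inner x (b - a) (b - a) = c at a1 a2
    rw [map_sub (g.inner x (w - c • (b - a))), map_smul, a1, a2, smul_zero, sub_self]
  have e : ∀ σ : ℝ, u + σ • w = a + (θ + σ * c) • (b - a) := fun σ => by
    rw [hu', hc', smul_smul, add_smul, add_assoc]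
  rcases lt_trichotomy c 0 with h3 | h3 | h3
  · refine aa2 hc (α := (1 - θ) / -c) (β := θ / -c) (div_pos (by linarith) (by linarith))
      (div_pos h1 (by linarith)) (fun σ hσ => ?_) ?_ hw
    · rw [e]
      have b1 := (le_div_iff₀ (neg_pos.2 h3)).1 hσ.2
      have b2 := (le_div_iff₀ (neg_pos.2 h3)).1 (neg_le.1 hσ.1)
      exact hseg _ ⟨by linarith, by linarith⟩
    · rwa [e, show θ + θ / -c * c = 0 by have := h3.ne; field_simp; ring, zero_smul, add_zero]
  · rw [hc', h3, zero_smul]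
  · refine aa2 hc (α := θ / c) (β := (1 - θ) / c) (div_pos h1 h3) (div_pos (by linarith) h3)
      (fun σ hσ => ?_) ?_ hw
    · rw [e]
      have b1 := (le_div_iff₀ h3).1 hσ.2
      have b2 := (le_div_iff₀ h3).1 (neg_le.1 hσ.1)
      exact hseg _ ⟨by linarith, by linarith⟩
    · rwa [e, div_mul_cancel₀ _ h3.ne', add_sub_cancel, one_smul, add_sub_cancel]

end Vale.Agent.P234
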