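import Vale.Agent.P234.Base

open scoped ContDiff Manifold Topology
open Set Filter

noncomputable section

namespace Vale.Agent.P234

open Vale.Agent.P255

variable {E : Type} [NormedAddCommGroup E] [NormedSpace ℝ E] [FiniteDimensional ℝ E]
variable {M : Type} [TopologicalSpace M] [ChartedSpace E M] [IsManifold 𝓘(ℝ, E) ∞ M] [T2Space M]
  [CompactSpace M] [ConnectedSpace M]
variable {g : RMetric E M} {e e' : OpenPartialHomeomorph M E}

theorem N_nonneg (g : RMetric E M) (x : M) (v : E) : 0 ≤ g.inner x v v := by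
  by_cases hv : v = 0
  · simp [hv]
  · exact (g.pos x v hv).le

theorem N_eq_zero {x : M} {v : E} (h : g.inner x v v = 0) : v = 0 := by
  by_contra hv
  exact (g.pos x v hv).ne' h

theorem N_smul (g : RMetric E M) (x : M) (c : ℝ) (v : E) :
    g.inner x (c • v) (c • v) = c ^ 2 * g.inner x v v := by
  simp only [map_smul, smul_apply, smul_eq_mul]
  ring

theorem sqrt_smul (g : RMetric E M) (x : M) (c : ℝ) (v : E) :
    √(g.inner x (c • v) (c • v)) = |c| * √(g.inner x v v) := by
  rw [N_smul, Real.sqrt_mul (sq_nonneg c), Real.sqrt_sq_eq_abs]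

theorem N_add (g : RMetric E M) (x : M) (a b : E) :
    g.inner x (a + b) (a + b) = g.inner x a a + 2 * g.inner x a b + g.inner x b b := by
  simp only [map_add, ContinuousLinearMap.add_apply]
  rw [g.symm x b a]
  ring

theorem N_sub (g : RMetric E M) (x : M) (a b : E) :
    g.inner x (a - b) (a - b) = g.inner x a a - 2 * g.inner x a b + g.inner x b b := by
  simp only [map_sub, ContinuousLinearMap.sub_apply]
  rw [g.symm x b a]
  ring

theorem cs_abs (g : RMetric E M) (x : M) (a b : E) :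
    |g.inner x a b| ≤ √(g.inner x a a) * √(g.inner x b b) := by
  rw [← Real.sqrt_mul (N_nonneg g x a)]
  exact Real.abs_le_sqrt (cauchy_schwarz (g.inner x) (g.symm x) (g.pos x) a b)

theorem sqrt_tri (g : RMetric E M) (x : M) (a b : E) :
    √(g.inner x (a + b) (a + b)) ≤ √(g.inner x a a) + √(g.inner x b b) := by
  have h1 := Real.sq_sqrt (N_nonneg g x a)
  have h2 := Real.sq_sqrt (N_nonneg g x b)
  have h3 := (abs_le.1 (cs_abs g x a b)).2
  refine Real.sqrt_le_iff.2 ⟨by positivity, ?_⟩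
  rw [N_add]
  nlinarith

/-- equality case of Cauchy-Schwarz -/
theorem cs_eq {x : M} {a b : E} (h : √(g.inner x a a) * √(g.inner x b b) ≤ -g.inner x a b) :
    √(g.inner x a a) • b = -(√(g.inner x b b) • a) := by
  have h1 := Real.sq_sqrt (N_nonneg g x a)
  have h2 := Real.sq_sqrt (N_nonneg g x b)
  obtain ⟨A, hA⟩ : ∃ A, A = √(g.inner x a a) := ⟨_, rfl⟩
  obtain ⟨B, hB⟩ : ∃ B, B = √(g.inner x b b) := ⟨_, rfl⟩
  have hA0 : 0 ≤ A := hA ▸ Real.sqrt_nonneg _
  have hB0 : 0 ≤ B := hB ▸ Real.sqrt_nonneg _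
  rw [← hA, ← hB] at h ⊢
  rw [← hA] at h1
  rw [← hB] at h2
  rw [eq_neg_iff_add_eq_zero]
  refine N_eq_zero (g := g) (x := x) (le_antisymm ?_ (N_nonneg g x _))
  have h4 : g.inner x (A • b) (B • a) = A * B * g.inner x a b := by
    simp only [map_smul, smul_apply, smul_eq_mul]
    rw [g.symm x b a]
    ring
  rw [N_add, N_smul, N_smul, h4, ← h1, ← h2]
  have h5 := mul_le_mul_of_nonneg_left h (mul_nonneg hA0 hB0)
  nlinarith

end Vale.Agent.P234
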