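import Vale.Agent.P234.Coer

open scoped ContDiff Manifold Topology
open Set Filter

noncomputable section

namespace Vale.Agent.P234

open Vale.Agent.P255

variable {E : Type} [NormedAddCommGroup E] [NormedSpace ℝ E] [FiniteDimensional ℝ E]
variable {M : Type} [TopologicalSpace M] [ChartedSpace E M] [IsManifold 𝓘(ℝ, E) ∞ M] [T2Space M]
  [CompactSpace M] [ConnectedSpace M]
variable {g : RMetric E M} {e e' : OpenPartialHomeomorph M E}

namespace ArcX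

omit [FiniteDimensional ℝ E] [IsManifold 𝓘(ℝ, E) ∞ M] [T2Space M] [CompactSpace M]
  [ConnectedSpace M]

theorem iff_chart {σ : ℝ → M} {t : ℝ} : ContMDiffAt 𝓘(ℝ, ℝ) 𝓘(ℝ, E) 1 σ t ↔
    ContinuousAt σ t ∧ ContDiffAt ℝ 1 (chartAt E (σ t) ∘ σ) t := by
  rw [contMDiffAt_iff]
  simp only [mfld_simps, contDiffWithinAt_univ, chartAt_self_eq]

theorem ev_eq {σ : ℝ → M} {t : ℝ} (hc : ContinuousAt σ t) (hs : σ t ∈ e.source) :
    e' ∘ σ =ᶠ[𝓝 t] (e' ∘ e.symm) ∘ (e ∘ σ) := by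
  filter_upwards [hc.eventually (e.open_source.mem_nhds hs)] with s h
  simp only [Function.comp_apply, e.left_inv h]

end ArcX

open ArcX

theorem ArcX.change {σ : ℝ → M} {t : ℝ} (he : e ∈ atlas E M) (he' : e' ∈ atlas E M)
    (hc : ContinuousAt σ t) (hs : σ t ∈ e.source) (hs' : σ t ∈ e'.source)
    (h : ContDiffAt ℝ 1 (e ∘ σ) t) : ContDiffAt ℝ 1 (e' ∘ σ) t := by
  have h1 : ContDiffAt ℝ 1 (e' ∘ e.symm) (e (σ t)) :=
    ((contDiffOn_trans he he').contDiffAt ((isOpen_trans e e').mem_nhds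
      (Lam_mem_trans (s := (σ t, (0 : E))) hs hs'))).of_le (by simp)
  exact (h1.comp t h).congr_of_eventuallyEq (ev_eq hc hs)

theorem arc_chart {σ : ℝ → M} {t : ℝ} (h : ContMDiffAt 𝓘(ℝ, ℝ) 𝓘(ℝ, E) 1 σ t)
    (he : e ∈ atlas E M) (hs : σ t ∈ e.source) : ContinuousAt σ t ∧ ContDiffAt ℝ 1 (e ∘ σ) t ∧
      HasDerivAt (e ∘ σ) (toChart e (σ t) (vel E σ t)) t := by
  obtain ⟨h1, h2⟩ := iff_chart.1 h
  have c1 := chart_mem_atlas E (σ t)
  have c2 := mem_chart_source E (σ t)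
  refine ⟨h1, change c1 he h1 c2 hs h2, ?_⟩
  exact ((ChartA.diffAt c1 he c2 hs).hasFDerivAt.comp_hasDerivAt t
    (h2.differentiableAt (by simp)).hasDerivAt).congr_of_eventuallyEq (ev_eq h1 c2)

theorem arc_of_chart {σ : ℝ → M} {t : ℝ} (he : e ∈ atlas E M) (hc : ContinuousAt σ t)
    (hs : σ t ∈ e.source) (h : ContDiffAt ℝ 1 (e ∘ σ) t) :
    ContMDiffAt 𝓘(ℝ, ℝ) 𝓘(ℝ, E) 1 σ t :=
  iff_chart.2 ⟨hc, change he (chart_mem_atlas E _) hc hs (mem_chart_source E _) h⟩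

theorem spd_chart (g : RMetric E M) {σ : ℝ → M} {t : ℝ}
    (h : ContMDiffAt 𝓘(ℝ, ℝ) 𝓘(ℝ, E) 1 σ t) (he : e ∈ atlas E M) (hs : σ t ∈ e.source) :
    spd g σ t = √(loc g.inner e (e (σ t)) (deriv (e ∘ σ) t) (deriv (e ∘ σ) t)) := by
  rw [(arc_chart h he hs).2.2.deriv, loc_toChart g.inner he hs, spd]

theorem spd_cont (g : RMetric E M) {σ : ℝ → M} {t : ℝ}
    (h : ContMDiffAt 𝓘(ℝ, ℝ) 𝓘(ℝ, E) 1 σ t) : ContinuousAt (spd g σ) t := by
  have he := chart_mem_atlas E (σ t)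
  have hs := mem_chart_source E (σ t)
  generalize chartAt E (σ t) = e at he hs
  obtain ⟨h1, h2, -⟩ := arc_chart h he hs
  have h3 : ContinuousAt (deriv (e ∘ σ)) t :=
    (h2.derivWithin (m := 0) (by simp)).continuousAt
  have h4 : ContinuousAt (fun s => loc g.inner e (e (σ s))) t :=
    ContinuousAt.comp (f := e ∘ σ) ((g.smooth e he).continuousOn.continuousAt
      (e.open_target.mem_nhds (e.map_source hs))) h2.continuousAt
  refine ((h4.clm_apply h3).clm_apply h3).sqrt.congr ?_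
  have : IsManifold 𝓘(ℝ, E) 1 M := IsManifold.of_le (n := ∞) (by simp)
  filter_upwards [h1.eventually_mem (e.open_source.mem_nhds hs),
    (contMDiffAt_iff_contMDiffAt_nhds (by simp)).1 h] with s a b
  exact (spd_chart g b he a).symm

end Vale.Agent.P234
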