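import Vale.Agent.P234.HR

open scoped ContDiff Manifold Topology
open Set Filter

noncomputable section

namespace Vale.Agent.P234

open Vale.Agent.P255

variable {E : Type} [NormedAddCommGroup E] [NormedSpace ℝ E] [FiniteDimensional ℝ E]
variable {M : Type} [TopologicalSpace M] [ChartedSpace E M] [IsManifold 𝓘(ℝ, E) ∞ M] [T2Space M]
  [CompactSpace M] [ConnectedSpace M]
variable {g : RMetric E M} {e e' : OpenPartialHomeomorph M E}

theorem BDp.mono {C C' : ℝ} {s : M × E} (h : BDp g C s) (hC : C ≤ C') : BDp g C' s := by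
  filter_upwards [h] with p hp
  have a := N_nonneg g s.1 p.1
  have b := N_nonneg g (Phi g 1 s).1 p.2
  have c : 0 ≤ √(g.inner s.1 p.1 p.1) * √(g.inner (Phi g 1 s).1 p.2 p.2) := by positivity
  have a' := mul_le_mul_of_nonneg_right hC a
  have b' := mul_le_mul_of_nonneg_right hC b
  have c' := mul_le_mul_of_nonneg_right hC c
  exact ⟨by linarith [hp.1], by linarith [hp.2]⟩

namespace BDX

theorem der {x : M} {u : E} (hu : u ∈ Ib g x) {A : E →L[ℝ] E} {F : E → ℝ}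
    (hF : ContDiffAt ℝ 1 F 0)
    (h : ∀ᶠ ξ in 𝓝 (0 : E), dst g (ex g x ξ) (ex g x u) ^ 2 / 2 = F (A ξ)) (ξ : E) :
    fderiv ℝ F 0 (A ξ) = -g.inner x u ξ := by
  have h0 : ContDiffAt ℝ 1 F (A 0) := by rwa [map_zero]
  have h1 : (fun ξ => dst g (ex g x ξ) (ex g x u) ^ 2) =ᶠ[𝓝 0] fun ξ => (2 : ℝ) * F (A ξ) := by
    filter_upwards [h] with ξ hξ
    linarith
  have h2 := gr0 hu ((contDiffAt_const.mul (h0.comp 0 A.contDiff.contDiffAt)).congr_of_eventuallyEq h1)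
  have h3 := (((h0.differentiableAt one_ne_zero).hasFDerivAt.comp 0 A.hasFDerivAt).const_mul
    (2 : ℝ)).fderiv
  rw [h1.fderiv_eq] at h2
  have h4 := congrArg (fun L : E →L[ℝ] ℝ => L ξ) (h3.symm.trans h2)
  simp only [map_zero, ContinuousLinearMap.smul_apply, ContinuousLinearMap.comp_apply,
    smul_eq_mul] at h4
  linarith

theorem key {x : M} {u : E} (hu : u ∈ Ib g x) {A B : E →L[ℝ] E} {F : E × E → ℝ} {C k : ℝ}
    (hC : 0 ≤ C) (hk : 0 ≤ k) (hF : ContDiffAt ℝ 1 F (0, 0))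
    (hΓ : ∀ᶠ p : E × E in 𝓝 (0, 0),
      dst g (ex g x p.1) (ex g (ex g x u) p.2) ^ 2 / 2 = F (A p.1, B p.2))
    (hb : ∀ᶠ r : E × E in 𝓝 (0, 0),
      |F r - F (r.1, 0) - fderiv ℝ (fun ζ => F (0, ζ)) 0 r.2| ≤ C * (‖r.1‖ + ‖r.2‖) * ‖r.2‖ ∧
      |F (r.1, 0) - F (0, 0) - fderiv ℝ (fun ξ => F (ξ, 0)) 0 r.1| ≤ C * ‖r.1‖ ^ 2)
    (hA : ∀ ξ, ‖A ξ‖ ≤ k * √(g.inner x ξ ξ)) (hB : ∀ ζ, ‖B ζ‖ ≤ k * √(g.inner (ex g x u) ζ ζ)) :
    BDp g (C * k ^ 2) (x, u) := by
  have t1 : Tendsto (fun ξ : E => (ξ, (0 : E))) (𝓝 0) (𝓝 (0, 0)) :=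
    (by fun_prop : Continuous fun ξ : E => (ξ, (0 : E))).tendsto 0
  have t2 : Tendsto (fun ζ : E => ((0 : E), ζ)) (𝓝 0) (𝓝 (0, 0)) :=
    (by fun_prop : Continuous fun ξ : E => ((0 : E), ξ)).tendsto 0
  have g1 : ∀ᶠ ξ in 𝓝 (0 : E), dst g (ex g x ξ) (ex g x u) ^ 2 / 2 = F (A ξ, 0) := by
    filter_upwards [t1.eventually hΓ] with ξ hξ
    simpa only [ex_zero, map_zero] using hξ
  obtain ⟨b1, b2⟩ := Ib_back hu
  have d1 := der hu (A := A) (F := fun ξ => F (ξ, 0))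
    (ContDiffAt.comp (f := fun ξ : E => (ξ, (0 : E))) 0 hF (by fun_prop)) g1
  have d2 := der b1 (A := B) (F := fun ζ => F (0, ζ))
    (ContDiffAt.comp (f := fun ξ : E => ((0 : E), ξ)) 0 hF (by fun_prop)) (by
      filter_upwards [t2.eventually hΓ] with ζ hζ
      rw [b2, dst_symm]
      simp only [ex_zero, map_zero] at hζ
      exact hζ)
  have t3 : Tendsto (fun p : E × E => (A p.1, B p.2)) (𝓝 (0, 0)) (𝓝 (0, 0)) := by
    have := (by fun_prop : Continuous fun p : E × E => (A p.1, B p.2)).tendsto (0, 0)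
    simpa only [map_zero] using this
  have g0 : F (0, 0) = g.inner x u u / 2 := by
    have := g1.self_of_nhds
    rw [map_zero, ex_zero] at this
    rw [← this, show dst g x (ex g x u) ^ 2 = g.inner x u u from hu]
  filter_upwards [hΓ, t3.eventually hb, (continuous_fst.tendsto ((0 : E), (0 : E))).eventually g1]
    with p p1 p2 p3
  obtain ⟨q1, q2⟩ := p2
  rw [d2, ← p1, ← p3] at q1
  rw [d1, g0, ← p3] at q2
  have sX := Real.sq_sqrt (N_nonneg g x p.1)
  have sY := Real.sq_sqrt (N_nonneg g (ex g x u) p.2)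
  have a := hA p.1
  have b := hB p.2
  have r1 : C * (‖A p.1‖ + ‖B p.2‖) * ‖B p.2‖ ≤ C * (k * √(g.inner x p.1 p.1) +
      k * √(g.inner (ex g x u) p.2 p.2)) * (k * √(g.inner (ex g x u) p.2 p.2)) := by gcongr
  have r2 : C * ‖A p.1‖ ^ 2 ≤ C * (k * √(g.inner x p.1 p.1)) ^ 2 := by gcongr
  have q1' := (abs_le.1 (q1.trans r1)).1
  have q2' := (abs_le.1 (q2.trans r2)).1
  simp only [map_neg, ContinuousLinearMap.neg_apply, neg_neg] at q1'
  change GG g x u p.1 + g.inner (ex g x u) (Phi g 1 (x, u)).2 p.2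
        - C * k ^ 2 * √(g.inner x p.1 p.1) * √(g.inner (ex g x u) p.2 p.2)
        - C * k ^ 2 * g.inner (ex g x u) p.2 p.2
      ≤ dst g (ex g x p.1) (ex g (ex g x u) p.2) ^ 2 / 2 ∧
    g.inner x u u / 2 - g.inner x u p.1 - C * k ^ 2 * g.inner x p.1 p.1 ≤ GG g x u p.1
  change _ ≤ _ - _ - g.inner (ex g x u) (Phi g 1 (x, u)).2 p.2 at q1'
  unfold GG
  generalize √(g.inner x p.1 p.1) = X at *
  generalize √(g.inner (ex g x u) p.2 p.2) = Y at *
  rw [← sX, ← sY]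
  constructor
  · nlinarith
  · nlinarith

theorem nrm (he : e ∈ atlas E M) {x : M} (hx : x ∈ e.source) {C k : ℝ} (hk : C ≤ k)
    (h : ∀ a, ‖a‖ ^ 2 ≤ C * loc g.inner e (e x) a a) (ξ : E) :
    ‖toChart e x ξ‖ ≤ √k * √(g.inner x ξ ξ) := by
  rw [← Real.sqrt_mul' _ (N_nonneg g x ξ)]
  refine Real.le_sqrt_of_sq_le ((h _).trans ?_)
  rw [loc_toChart g.inner he hx]
  exact mul_le_mul_of_nonneg_right hk (N_nonneg g x ξ)

end BDX

theorem bd {s₀ : M × E} (h : NF g s₀.1 s₀.2) :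
    ∃ C : ℝ, ∀ᶠ s in nhT s₀, s.2 ∈ II g s.1 → BDp g C s := by
  have he := chart_mem_atlas E s₀.1
  have he' := chart_mem_atlas E (ex g s₀.1 s₀.2)
  have hs := mem_chart_source E s₀.1
  have hs' := mem_chart_source E (ex g s₀.1 s₀.2)
  obtain ⟨c, hc, hc'⟩ := smu g he he' hs hs' h
  generalize chartAt E s₀.1 = e at he hs hc hc'
  generalize chartAt E (ex g s₀.1 s₀.2) = e' at he' hs' hc hc'
  have z1 : exL g e (e s₀.1, 0) = s₀.1 := by
    have := exL_Lam g he hs 0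
    rwa [map_zero, ex_zero] at this
  have z2 : exL g e' (e' (ex g s₀.1 s₀.2), 0) = ex g s₀.1 s₀.2 := by
    have := exL_Lam g he' hs' 0
    rwa [map_zero, ex_zero] at this
  let F : (E × E) × E × E → ℝ := fun q =>
    c (e (exL g e (q.1.1, q.2.1)), e' (exL g e' (q.1.2, q.2.2))) / 2
  have hF : ContDiffAt ℝ 4 F ((e s₀.1, e' (ex g s₀.1 s₀.2)), 0, 0) := by
    have a := (exL_sm g he he (z := (e s₀.1, 0)) (e.map_source hs) (by rwa [z1])).2
    have b := (exL_sm g he' he' (z := (e' (ex g s₀.1 s₀.2), 0)) (e'.map_source hs')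
      (by rwa [z2])).2
    have a' := ContDiffAt.comp (f := fun q : (E × E) × E × E => (q.1.1, q.2.1))
      ((e s₀.1, e' (ex g s₀.1 s₀.2)), 0, 0) a (by fun_prop)
    have b' := ContDiffAt.comp (f := fun q : (E × E) × E × E => (q.1.2, q.2.2))
      ((e s₀.1, e' (ex g s₀.1 s₀.2)), 0, 0) b (by fun_prop)
    refine (ContDiffAt.comp (g := c) _ ?_ (a'.prodMk b')).div_const 2
    simpa only [Function.comp_apply, z1, z2] using hc
  obtain ⟨C, hC, hT⟩ := tay_par (hF.of_le (by norm_num))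
  have hE := (hT.and ((hF.of_le (by norm_num : (1 : WithTop ℕ∞) ≤ 4)).eventually
    (by simp))).curry_nhds
  obtain ⟨C₁, hC₁, l1⟩ := loc_coer g he hs
  obtain ⟨C₂, hC₂, l2⟩ := loc_coer g he' hs'
  have t1 := (e.continuousAt hs).tendsto.comp (tendsto_base s₀)
  have t2 := (e'.continuousAt hs').tendsto.comp (tendsto_ex g s₀)
  refine ⟨C * √(C₁ + C₂) ^ 2, ?_⟩
  filter_upwards [hc', (t1.prodMk_nhds t2).eventually hE, t1.eventually l1, t2.eventually l2,
    (tendsto_base s₀).eventually (e.open_source.mem_nhds hs),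
    (tendsto_ex g s₀).eventually (e'.open_source.mem_nhds hs')] with s a b l1 l2 m1 m2 hu
  refine BDX.key (x := s.1) (u := s.2) (II_sub hu) (A := toChart e s.1)
    (B := toChart e' (ex g s.1 s.2)) (F := fun r => F ((e s.1, e' (ex g s.1 s.2)), r)) hC
    (Real.sqrt_nonneg _) ?_ ?_ (b.mono fun r hr => hr.1)
    (BDX.nrm he m1 (by linarith) fun w => (l1.2 w).2)
    (BDX.nrm he' m2 (by linarith) fun w => (l2.2 w).2)
  · exact ContDiffAt.comp (f := fun r : E × E => ((e s.1, e' (ex g s.1 s.2)), r)) (0, 0)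
      b.self_of_nhds.2 (by fun_prop)
  · have u1 : Tendsto (fun p : E × E => ex g s.1 p.1) (𝓝 (0, 0)) (𝓝 s.1) := by
      have := ((ex_cont g s.1).comp continuous_fst).tendsto ((0 : E), (0 : E))
      simpa only [Function.comp_def, ex_zero] using this
    have u2 : Tendsto (fun p : E × E => ex g (ex g s.1 s.2) p.2) (𝓝 (0, 0))
        (𝓝 (ex g s.1 s.2)) := by
      have := ((ex_cont g (ex g s.1 s.2)).comp continuous_snd).tendsto ((0 : E), (0 : E))
      simpa only [Function.comp_def, ex_zero] using this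
    filter_upwards [(((e.continuousAt m1).tendsto.comp u1).prodMk_nhds
      ((e'.continuousAt m2).tendsto.comp u2)).eventually (a (um_of_II hu)),
      u1.eventually (e.open_source.mem_nhds m1), u2.eventually (e'.open_source.mem_nhds m2)]
      with p p1 p2 p3
    simp only [Function.comp_apply, e.left_inv p2, e'.left_inv p3] at p1
    simp only [F, exL_Lam g he m1, exL_Lam g he' m2, p1]

end Vale.Agent.P234
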