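import Vale.Agent.P255.Rauch
import Vale.Agent.P234.Flow4

open scoped ContDiff Manifold Topology
open Set Filter

noncomputable section

namespace Vale.Agent.P234

open Vale.Agent.P255

variable {E : Type} [NormedAddCommGroup E] [NormedSpace ℝ E] [FiniteDimensional ℝ E]
variable {M : Type} [TopologicalSpace M] [ChartedSpace E M] [IsManifold 𝓘(ℝ, E) ∞ M] [T2Space M] [CompactSpace M]

variable {P : Type} [NormedAddCommGroup P] [NormedSpace ℝ P]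

/-- `ι` is C^4 at `x₀` as a map to the tangent bundle -/
def Sm4 (ι : P → M × E) (x₀ : P) : Prop :=
  ContinuousAt (fun x => (ι x).1) x₀ ∧ ∀ e' ∈ atlas E M, (ι x₀).1 ∈ e'.source →
    ContDiffAt ℝ 4 (fun x => Lam e' (ι x)) x₀

omit [FiniteDimensional ℝ E] [IsManifold 𝓘(ℝ, E) ∞ M] [T2Space M] [CompactSpace M] in
theorem Sm4.congr {ι ι' : P → M × E} {x₀ : P} (h : Sm4 ι x₀) (he : ι' =ᶠ[𝓝 x₀] ι) :
    Sm4 ι' x₀ := by
  have h0 : ι' x₀ = ι x₀ := he.eq_of_nhds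
  refine ⟨h.1.congr (he.mono fun s hs => by simp only [hs]), fun e he' hs => ?_⟩
  rw [h0] at hs
  exact (h.2 e he' hs).congr_of_eventuallyEq (he.mono fun s hs => by simp only [hs])

omit [T2Space M] [CompactSpace M] in
theorem Sm4.of_Lami {z : P → E × E} {x₀ : P} {e : OpenPartialHomeomorph M E}
    (he : e ∈ atlas E M) (hz : (z x₀).1 ∈ e.target) (hd : ContDiffAt ℝ 4 z x₀) :
    Sm4 (fun x => Lami e (z x)) x₀ := by
  have h1 : ContinuousAt (fun s => (z s).1) x₀ := hd.continuousAt.fst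
  have h2 : ContinuousAt (fun s => e.symm (z s).1) x₀ :=
    ContinuousAt.comp (f := fun s => (z s).1) (e.continuousAt_symm hz) h1
  refine ⟨h2, fun e' he' hs' => ?_⟩
  have h3 := ((contDiffAt_tmap_trans he he' (z := z x₀) ⟨hz, hs'⟩).of_le
    (WithTop.coe_le_coe.2 le_top : ((4 : ℕ∞) : WithTop ℕ∞) ≤ ∞)).comp x₀ hd
  refine h3.congr_of_eventuallyEq ?_
  filter_upwards [h1.preimage_mem_nhds (e.open_target.mem_nhds hz),
    h2.preimage_mem_nhds (e'.open_source.mem_nhds hs')] with x hx hx'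
  rw [Lam_trans he he' (s := Lami e (z x)) (e.map_target hx) hx', Lam_Lami he hx]
  rfl

/-- flow box -/
theorem exists_box4 (g : RMetric E M) (q : M × E) : ∃ ε > 0, ∃ e ∈ atlas E M, q.1 ∈ e.source ∧
    ∃ V : Set (E × E), IsOpen V ∧ Lam e q ∈ V ∧ ∀ (ι : P → M × E) (τ : P → ℝ) (x₀ : P),
      Sm4 ι x₀ → ContDiffAt ℝ 4 τ x₀ → (ι x₀).1 ∈ e.source → Lam e (ι x₀) ∈ V →
      τ x₀ ∈ Ioo (-ε) ε → Sm4 (fun x => Phi g (τ x) (ι x)) x₀ := by
  have he : chartAt E q.1 ∈ atlas E M := chart_mem_atlas E _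
  have hq : q.1 ∈ (chartAt E q.1).source := mem_chart_source E _
  generalize chartAt E q.1 = e at he hq
  obtain ⟨ε, hε, V, hV, hzV, φ, hsm, hφ⟩ := exists_flow4 (e.open_target.prod isOpen_univ)
    (contDiffOn_spray (lm_loc g he)) (z₀ := Lam e q) ⟨e.map_source hq, mem_univ _⟩
  refine ⟨ε, hε, e, he, hq, V, hV, hzV, fun ι τ x₀ hι hτ hs hsV ht => ?_⟩
  have key : ∀ q' : M × E, q'.1 ∈ e.source → Lam e q' ∈ V → ∀ u ∈ Ioo (-ε) ε,
      Phi g u q' = Lami e (φ (u, Lam e q')) := by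
    intro q' h1 h2
    refine GeoL.unique (c := fun u => Phi g u q') (c' := fun u => Lami e (φ (u, Lam e q')))
      isOpen_Ioo isPreconnected_Ioo (fun t _ => geoL_Phi g q' t) (fun t ht => ?_) (t₀ := 0)
      ⟨by linarith, hε⟩ ?_
    · obtain ⟨a, b⟩ := (hφ _ h2).2 t ht
      exact GeoL.of_Lami (z := fun u => φ (u, Lam e q')) he a.1 b
    · simp only [Phi_zero, (hφ _ h2).1, Lami_Lam he h1]
  have hL := hι.2 e he hs
  have h1 : ContDiffAt ℝ 4 (fun x => φ (τ x, Lam e (ι x))) x₀ :=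
    ContDiffAt.comp (f := fun x => (τ x, Lam e (ι x))) x₀
      (hsm.contDiffAt ((isOpen_Ioo.prod hV).mem_nhds ⟨ht, hsV⟩)) (hτ.prodMk hL)
  refine (Sm4.of_Lami (z := fun x => φ (τ x, Lam e (ι x))) he ((hφ _ hsV).2 _ ht).1.1 h1).congr ?_
  filter_upwards [hι.1.preimage_mem_nhds (e.open_source.mem_nhds hs),
    hL.continuousAt.preimage_mem_nhds (hV.mem_nhds hsV),
    hτ.continuousAt.preimage_mem_nhds (isOpen_Ioo.mem_nhds ht)] with x a b c
  exact key _ a b _ c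

theorem Sm4.Phi_const (g : RMetric E M) {ι : P → M × E} {x₀ : P} (h : Sm4 ι x₀) (t : ℝ) :
    Sm4 (fun x => Phi g t (ι x)) x₀ := by
  have key : ∀ t₀ : ℝ, ∃ N ∈ 𝓝 t₀, ∀ t₁ ∈ N, ∀ t ∈ N,
      Sm4 (fun x => Phi g t₁ (ι x)) x₀ → Sm4 (fun x => Phi g t (ι x)) x₀ := by
    intro t₀
    obtain ⟨ε, hε, e, he, hq, V, hV, hqV, hb⟩ := exists_box4 (P := P) g (Phi g t₀ (ι x₀))
    have hg := geoL_Phi g (ι x₀) t₀
    refine ⟨_, inter_mem (inter_mem (hg.1.preimage_mem_nhds (e.open_source.mem_nhds hq))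
      ((hg.2 e he hq).continuousAt.preimage_mem_nhds (hV.mem_nhds hqV)))
      (Ioo_mem_nhds (by linarith : t₀ - ε / 2 < t₀) (by linarith : t₀ < t₀ + ε / 2)), ?_⟩
    rintro t₁ ⟨⟨a, b⟩, c⟩ t ⟨-, d⟩ h1
    have h2 := hb _ (fun _ => t - t₁) x₀ h1 contDiffAt_const a b
      ⟨by linarith [c.2, d.1], by linarith [c.1, d.2]⟩
    simpa only [← Phi_add, sub_add_cancel] using h2
  have hc : IsClopen {t : ℝ | Sm4 (fun x => Phi g t (ι x)) x₀} := by
    refine ⟨isOpen_compl_iff.1 (isOpen_iff_mem_nhds.2 fun t₀ ht => ?_),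
      isOpen_iff_mem_nhds.2 fun t₀ ht => ?_⟩
    · obtain ⟨N, hN, h1⟩ := key t₀
      exact Filter.mem_of_superset hN fun t₁ h2 h3 => ht (h1 t₁ h2 t₀ (mem_of_mem_nhds hN) h3)
    · obtain ⟨N, hN, h1⟩ := key t₀
      exact Filter.mem_of_superset hN fun t₁ h2 => h1 t₀ (mem_of_mem_nhds hN) t₁ h2 ht
  have h0 : (0 : ℝ) ∈ {t : ℝ | Sm4 (fun x => Phi g t (ι x)) x₀} := by
    simpa only [mem_ofPred_eq, Phi_zero] using h
  have := hc.eq_univ ⟨0, h0⟩
  exact (this ▸ mem_univ t : t ∈ {t : ℝ | Sm4 (fun x => Phi g t (ι x)) x₀})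

theorem Sm4.Phi (g : RMetric E M) {ι : P → M × E} {τ : P → ℝ} {x₀ : P} (h : Sm4 ι x₀)
    (hτ : ContDiffAt ℝ 4 τ x₀) : Sm4 (fun x => Phi g (τ x) (ι x)) x₀ := by
  obtain ⟨ε, hε, e, he, hq, V, hV, hqV, hb⟩ :=
    exists_box4 (P := P) g (P255.Phi g (τ x₀) (ι x₀))
  have h2 := hb _ (fun x => τ x - τ x₀) x₀ (h.Phi_const g (τ x₀)) (hτ.sub contDiffAt_const) hq hqV
    ⟨by linarith, by linarith⟩
  simpa only [← Phi_add, sub_add_cancel] using h2

/-- the geodesic flow is continuous and C^4 in charts -/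
theorem Phi_smooth4 (g : RMetric E M) (s : M × E) (t : ℝ) {e : OpenPartialHomeomorph M E}
    (he : e ∈ atlas E M) (hs : s.1 ∈ e.source) :
    ContinuousAt (fun x : ℝ × (E × E) => (Phi g x.1 (Lami e x.2)).1) (t, Lam e s) ∧
    ∀ e' ∈ atlas E M, (Phi g t s).1 ∈ e'.source →
      ContDiffAt ℝ 4 (fun x : ℝ × (E × E) => Lam e' (Phi g x.1 (Lami e x.2))) (t, Lam e s) := by
  have h1 : Sm4 (fun x : ℝ × (E × E) => Lami e x.2) (t, Lam e s) :=
    Sm4.of_Lami (z := fun x : ℝ × (E × E) => x.2) he (e.map_source hs) contDiffAt_snd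
  have h2 := h1.Phi g (τ := fun x => x.1) contDiffAt_fst
  refine ⟨h2.1, fun e' he' hs' => h2.2 e' he' ?_⟩
  simpa only [Lami_Lam he hs] using hs'

theorem Phi_smooth4' (g : RMetric E M) (p : M) (t : ℝ) (v₀ : E) :
    ContinuousAt (fun x : ℝ × E => (Phi g x.1 (p, x.2)).1) (t, v₀) ∧
    ∀ e' ∈ atlas E M, (Phi g t (p, v₀)).1 ∈ e'.source →
      ContDiffAt ℝ 4 (fun x : ℝ × E => Lam e' (Phi g x.1 (p, x.2))) (t, v₀) := by
  have h1 : Sm4 (fun x : ℝ × E => (p, x.2)) (t, v₀) :=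
    ⟨continuousAt_const, fun e' _ _ => by
      change ContDiffAt ℝ 4 (fun x : ℝ × E => (e' p, toChart e' p x.2)) (t, v₀)
      fun_prop⟩
  exact h1.Phi g (τ := fun x => x.1) contDiffAt_fst

end Vale.Agent.P234
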