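import Vale.Agent.P234.Defs
import Vale.Agent.P234.Dep4

open scoped ContDiff Manifold Topology
open Set Filter

noncomputable section

namespace Vale.Agent.P234

open Vale.Agent.P255

variable {E : Type} [NormedAddCommGroup E] [NormedSpace ℝ E] [FiniteDimensional ℝ E]
variable {M : Type} [TopologicalSpace M] [ChartedSpace E M] [IsManifold 𝓘(ℝ, E) ∞ M] [T2Space M]
  [CompactSpace M] [ConnectedSpace M]
variable {g : RMetric E M} {e e' : OpenPartialHomeomorph M E}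

/-- minimizing vectors -/
def Ib (g : RMetric E M) (x : M) : Set E := {v | dst g x (ex g x v) ^ 2 = g.inner x v v}

/-- injectivity domain -/
def II (g : RMetric E M) (x : M) : Set E := {v | ∃ a : ℝ, 1 < a ∧ a • v ∈ Ib g x}

/-- neighbourhood filter of a point of the tangent bundle -/
def nhT (s : M × E) : Filter (M × E) :=
  comap Prod.fst (𝓝 s.1) ⊓ comap (Lam (chartAt E s.1)) (𝓝 (Lam (chartAt E s.1) s))

/-- exponential map read from the chart `e` -/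
def exL (g : RMetric E M) (e : OpenPartialHomeomorph M E) (z : E × E) : M :=
  ex g (Lami e z).1 (Lami e z).2

/-- `Ψ` is a local C^4 diffeomorphism representing `(x,v) ↦ (x, exp_x v)` in charts -/
structure Inv (g : RMetric E M) (e e' : OpenPartialHomeomorph M E)
    (Ψ : OpenPartialHomeomorph (E × E) (E × E)) : Prop where
  tg : ∀ z ∈ Ψ.source, z.1 ∈ e.target
  src : ∀ z ∈ Ψ.source, exL g e z ∈ e'.source
  eq : ∀ z ∈ Ψ.source, Ψ z = (z.1, e' (exL g e z))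
  sm : ContDiffOn ℝ 4 Ψ Ψ.source
  sm' : ContDiffOn ℝ 4 Ψ.symm Ψ.target

/-- pointwise 1-Lipschitz bound at `y` with respect to the bilinear form `B` -/
def PL (B : E →L[ℝ] E →L[ℝ] ℝ) (φ : E → ℝ) (y : E) : Prop :=
  ∀ ε > 0, ∀ᶠ y' in 𝓝 y, |φ y' - φ y| ≤ √(B (y' - y) (y' - y)) + ε * ‖y' - y‖

/-- `u` is the unique minimizer, and minimizers exist for nearby pairs -/
def UM (g : RMetric E M) (x : M) (u : E) : Prop :=
  u ∈ Ib g x ∧ (∀ v ∈ Ib g x, ex g x v = ex g x u → v = u) ∧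
    ∀ᶠ q : M × M in 𝓝 (x, ex g x u), ∃ v ∈ Ib g q.1, ex g q.1 v = q.2

/-- nonfocal vector -/
def NF (g : RMetric E M) (x : M) (u : E) : Prop :=
  Function.Injective (fderiv ℝ (chartAt E (ex g x u) ∘ ex g x) u)

/-- metric form of `d(exp_x)_u w = 0` -/
def Ker (g : RMetric E M) (x : M) (u w : E) : Prop :=
  ∀ ε > 0, ∀ᶠ σ in 𝓝 (0 : ℝ), dst g (ex g x (u + σ • w)) (ex g x u) ≤ ε * |σ|

def GG (g : RMetric E M) (x : M) (q ξ : E) : ℝ := dst g (ex g x ξ) (ex g x q) ^ 2 / 2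

def SS (g : RMetric E M) (x : M) (q : E) : E →L[ℝ] E →L[ℝ] ℝ :=
  fderiv ℝ (fderiv ℝ (GG g x q)) 0

/-- broken energy -/
def ff (g : RMetric E M) (x : M) (τ : ℝ) (a b : E) : ℝ :=
  (1 - τ) * g.inner x a a / 2 + dst g (ex g x ((1 - τ) • a)) (ex g x b) ^ 2 / (2 * τ)

def HH (g : RMetric E M) (x : M) (τ : ℝ) (w b : E) : ℝ :=
  iteratedDeriv 2 (fun h : ℝ => ff g x τ (b + h • w) b) 0

def EHp (g : RMetric E M) (x : M) (τ : ℝ) (u w : E) : Prop :=
  (∀ᶠ b in 𝓝 u, ContDiffAt ℝ 2 (fun h : ℝ => ff g x τ (b + h • w) b) 0) ∧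
    DifferentiableAt ℝ (HH g x τ w) u ∧ HH g x τ w u = 0

/-- second order lower bounds with constant `C` at `s = (x,u)` -/
def BDp (g : RMetric E M) (C : ℝ) (s : M × E) : Prop :=
  ∀ᶠ p : E × E in 𝓝 (0, 0),
    GG g s.1 s.2 p.1 + g.inner (Phi g 1 s).1 (Phi g 1 s).2 p.2
        - C * √(g.inner s.1 p.1 p.1) * √(g.inner (Phi g 1 s).1 p.2 p.2)
        - C * g.inner (Phi g 1 s).1 p.2 p.2
      ≤ dst g (ex g s.1 p.1) (ex g (Phi g 1 s).1 p.2) ^ 2 / 2 ∧
    g.inner s.1 s.2 s.2 / 2 - g.inner s.1 s.2 p.1 - C * g.inner s.1 p.1 p.1 ≤ GG g s.1 s.2 p.1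

/-- working form of the weak MTW condition -/
def WM (g : RMetric E M) : Prop :=
  ∀ x : M, ∀ v ∈ II g x, ∀ ξ η : E, g.inner x ξ η = 0 →
    iteratedDeriv 2 (fun s : ℝ => iteratedDeriv 2
      (fun t : ℝ => GG g x (v + s • η) (t • ξ)) 0) 0 ≤ 0

/-- concavity of the Hessian along segments of the injectivity domain -/
def CCp (g : RMetric E M) : Prop :=
  ∀ (x : M) (a b ξ : E), segment ℝ a b ⊆ II g x → g.inner x ξ (b - a) = 0 →
    ∀ θ ∈ Icc (0 : ℝ) 1,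
      (1 - θ) * SS g x a ξ ξ + θ * SS g x b ξ ξ ≤ SS g x ((1 - θ) • a + θ • b) ξ ξ

def phi (g : RMetric E M) (a : Bool → ℝ) (y : Bool → M) (x : M) : ℝ :=
  max (a false - dst g x (y false) ^ 2 / 2) (a true - dst g x (y true) ^ 2 / 2)

def VV (g : RMetric E M) (a : Bool → ℝ) (y : Bool → M) (x : M) : Set E :=
  {v | v ∈ Ib g x ∧ ∃ i, ex g x v = y i ∧ phi g a y x = a i - dst g x (y i) ^ 2 / 2}

def DD (g : RMetric E M) (a : Bool → ℝ) (y : Bool → M) (x : M) : Set E :=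
  convexHull ℝ (VV g a y x)

def PP (g : RMetric E M) (a : Bool → ℝ) (y : Bool → M) (t : ℝ) : Prop :=
  ∀ x, ∀ v ∈ DD g a y x, ∀ x', phi g a y x + t * g.inner x v v / 2 ≤
    phi g a y x' + dst g x' (ex g x (t • v)) ^ 2 / (2 * t)

/-- paraboloid inequality for the inf-convolution at time `s` -/
def Par (g : RMetric E M) (a : Bool → ℝ) (y : Bool → M) (s K : ℝ) (x : M) (v ζ : E) : Prop :=
  ∀ x', phi g a y x + s * g.inner x v v / 2
      + g.inner (Phi g s (x, v)).1 (Phi g s (x, v)).2 ζ - K * g.inner (Phi g s (x, v)).1 ζ ζ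
    ≤ phi g a y x' + dst g x' (ex g (Phi g s (x, v)).1 ζ) ^ 2 / (2 * s)

/-- local gap with constant `δ` -/
def LG (g : RMetric E M) (a : Bool → ℝ) (y : Bool → M) (s δ : ℝ) (x : M) (v : E) : Prop :=
  ∀ ε > 0, ∀ᶠ ξ in 𝓝 (0 : E), s * (phi g a y x - phi g a y (ex g x ξ)) + s * δ * g.inner x ξ ξ ≤
    GG g x (s • v) ξ - g.inner x (s • v) (s • v) / 2 + ε * g.inner x ξ ξ

end Vale.Agent.P234
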