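import Vale.Agent.P234.Tay

open scoped ContDiff Manifold Topology
open Set Filter

noncomputable section

namespace Vale.Agent.P234

open Vale.Agent.P255

variable {E : Type} [NormedAddCommGroup E] [NormedSpace ℝ E] [FiniteDimensional ℝ E]

theorem cc0 {F : E × E → ℝ} {a η ξ : E}
    (hF : ∀ σ ∈ Icc (0 : ℝ) 1, ContDiffAt ℝ 4 F (0, a + σ • η))
    (hm : ∀ σ ∈ Icc (0 : ℝ) 1, iteratedDeriv 2 (fun s : ℝ => iteratedDeriv 2
      (fun t : ℝ => F (t • ξ, a + σ • η + s • η)) 0) 0 ≤ 0) :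
    ConcaveOn ℝ (Icc 0 1)
      (fun σ : ℝ => fderiv ℝ (fderiv ℝ (fun ζ => F (ζ, a + σ • η))) 0 ξ ξ) := by
  obtain ⟨κ, hκ⟩ : ∃ κ : ℝ → ℝ, κ = fun σ : ℝ =>
    iteratedDeriv 2 (fun t : ℝ => F (t • ξ, a + σ • η)) 0 := ⟨_, rfl⟩
  have hit : ∀ q : E, ContDiffAt ℝ 2 F (0, q) → iteratedDeriv 2 (fun t : ℝ => F (t • ξ, q)) 0
      = fderiv ℝ (fderiv ℝ F) (0, q) (ξ, 0) (ξ, 0) := by
    intro q hq
    rw [← iter_line hq (ξ, 0)]
    congr 1
    funext t
    simp
  have hl : ∀ σ : ℝ, ContDiffAt ℝ 2 (fun σ : ℝ => ((0, a + σ • η) : E × E)) σ := fun σ => by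
    fun_prop
  have hsm : ∀ σ ∈ Icc (0 : ℝ) 1, ContDiffAt ℝ 2 κ σ := by
    intro σ hσ
    have h1 : ∀ᶠ s : ℝ in 𝓝 σ, ContDiffAt ℝ 2 F (0, a + s • η) :=
      (hl σ).continuousAt.tendsto.eventually
        (((hF σ hσ).of_le (m := 2) (by norm_num)).eventually (by simp))
    have h2 : κ =ᶠ[𝓝 σ] fun s : ℝ => fderiv ℝ (fderiv ℝ F) (0, a + s • η) (ξ, 0) (ξ, 0) := by
      filter_upwards [h1] with s hs
      rw [hκ]
      exact hit _ hs
    have hD : ContDiffAt ℝ 3 (fderiv ℝ F) (0, a + σ • η) := (hF σ hσ).fderiv_right (by norm_num)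
    have hDD : ContDiffAt ℝ 2 (fderiv ℝ (fderiv ℝ F)) (0, a + σ • η) :=
      hD.fderiv_right (by norm_num)
    have h3 : ContDiffAt ℝ 2 (fun s : ℝ => fderiv ℝ (fderiv ℝ F) (0, a + s • η)) σ :=
      ContDiffAt.comp (g := fderiv ℝ (fderiv ℝ F)) σ hDD (hl σ)
    exact ((h3.clm_apply contDiffAt_const).clm_apply contDiffAt_const).congr_of_eventuallyEq h2
  have hc : ConcaveOn ℝ (Icc 0 1) κ := by
    refine concaveOn_of_deriv2_nonpos' (convex_Icc 0 1)
      (fun σ hσ => ((hsm σ hσ).differentiableAt (by norm_num)).differentiableWithinAt)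
      (fun σ hσ => ?_) (fun σ hσ => ?_)
    · have h1 : ContDiffAt ℝ 1 (deriv κ) σ := (hsm σ hσ).derivWithin (by norm_num)
      exact (h1.differentiableAt (by norm_num)).differentiableWithinAt
    · have h1 := hm σ hσ
      have h2 : (fun s : ℝ => iteratedDeriv 2
          (fun t : ℝ => F (t • ξ, a + σ • η + s • η)) 0) = fun s => κ (σ + s) := by
        funext s
        rw [hκ]
        simp only [add_smul, add_assoc]
      rw [h2, iteratedDeriv_comp_const_add] at h1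
      simp only [add_zero] at h1
      rwa [iteratedDeriv_eq_iterate] at h1
  refine hc.congr fun σ hσ => ?_
  have h1 : ContDiffAt ℝ 2 (fun ζ => F (ζ, a + σ • η)) 0 :=
    ContDiffAt.comp (g := F) (f := fun ζ : E => ((ζ, a + σ • η) : E × E)) 0
      ((hF σ hσ).of_le (by norm_num)) (by fun_prop)
  have h2 := iter_line h1 ξ
  simp only [zero_add] at h2
  rw [hκ]
  exact h2

end Vale.Agent.P234
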