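import Vale.Agent.P234.Sec

open scoped ContDiff Manifold Topology
open Set Filter

noncomputable section

namespace Vale.Agent.P234

open Vale.Agent.P255

variable {E : Type} [NormedAddCommGroup E] [NormedSpace ℝ E] [FiniteDimensional ℝ E]
variable {M : Type} [TopologicalSpace M] [ChartedSpace E M] [IsManifold 𝓘(ℝ, E) ∞ M] [T2Space M]
  [CompactSpace M] [ConnectedSpace M]
variable {g : RMetric E M} {e e' : OpenPartialHomeomorph M E}

namespace CinX

theorem tl (w : E) : Tendsto (fun σ : ℝ => σ • w) (𝓝[>] 0) (𝓝 0) :=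
  ((continuous_id.smul continuous_const).tendsto' 0 0 (zero_smul _ _)).mono_left
    nhdsWithin_le_nhds

end CinX

theorem ss_low {x : M} {a : E} (ha : a ∈ Ib g x) (hn : NF g x a) :
    ∃ C : ℝ, ∀ᶠ t in 𝓝[<] (1 : ℝ), ∀ ξ, -C * g.inner x ξ ξ ≤ SS g x (t • a) ξ ξ := by
  obtain ⟨C, hC⟩ := bd (s₀ := (x, a)) hn
  have h1 : Tendsto (fun t : ℝ => t • a) (𝓝[<] 1) (𝓝 a) :=
    ((continuous_id.smul continuous_const).tendsto' 1 a (one_smul _ _)).mono_left
      nhdsWithin_le_nhds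
  refine ⟨2 * C + 2, ?_⟩
  filter_upwards [((tendsto_fiber x a).comp h1).eventually hC,
    Ioo_mem_nhdsLT (zero_lt_one' ℝ)] with t ht ht' ξ
  have hI := II_smul ha ht'.1.le ht'.2
  have h2 : Tendsto (fun ζ : E => (ζ, (0 : E))) (𝓝 0) (𝓝 (0, 0)) :=
    (Continuous.prodMk_left 0).tendsto 0
  have h3 := (h2.eventually (ht hI)).and (gg_peano hI 1 one_pos)
  obtain ⟨h, ⟨⟨-, h4⟩, h5⟩, h6⟩ := (((CinX.tl ξ).eventually h3).and self_mem_nhdsWithin).exists
  have h7 := (abs_le.1 h5).2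
  simp only [Function.comp, map_smul, smul_apply, smul_eq_mul] at h4 h7
  have h8 : 0 < h ^ 2 := pow_pos h6 2
  refine le_of_mul_le_mul_left ?_ h8
  linarith

theorem cin {x : M} {u w : E} {τ : ℝ} (h0 : 0 < τ) (h1 : τ < 1) (h : EHp g x τ u w) :
    ∃ C : ℝ, ∀ᶠ q in 𝓝 u, q ∈ II g x → ∀ (κ : ℝ) (ξ : E),
      SS g x q ξ ξ ≤ κ ^ 2 * HH g x τ w q - 2 * κ * g.inner x w ξ + C * g.inner x ξ ξ := by
  obtain ⟨C, -, hC⟩ := up g (g.inner x u u + 1)
  have Nc : Continuous fun v : E => g.inner x v v :=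
    (g.inner x).continuous₂.comp (continuous_id.prodMk continuous_id)
  have N0 := N_nonneg g x u
  have t0 : 0 < 1 - τ := by linarith
  refine ⟨C / (1 - τ), ?_⟩
  filter_upwards [h.1, Nc.continuousAt.eventually (gt_mem_nhds (lt_add_one (g.inner x u u)))]
    with q hd hq hI κ ξ
  obtain ⟨-, hh⟩ := hh_tay h0 h1 (II_sub hI) hd
  have key : ∀ ε > 0, SS g x q ξ ξ ≤ κ ^ 2 * HH g x τ w q - 2 * κ * g.inner x w ξ
      + C / (1 - τ) * g.inner x ξ ξ + ε * (2 * κ ^ 2 + 2 * g.inner x ξ ξ) := fun ε hε => by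
    have a1 : Tendsto (fun σ : ℝ => σ * κ) (𝓝[>] 0) (𝓝 0) :=
      ((continuous_mul_const κ).tendsto' 0 0 (zero_mul _)).mono_left nhdsWithin_le_nhds
    have a2 : Tendsto (fun σ : ℝ => q + σ • w) (𝓝 0) (𝓝 q) :=
      (continuous_const.add (continuous_id.smul continuous_const)).tendsto' 0 q (by simp)
    have a3 := (a2.comp a1).eventually (Nc.continuousAt.eventually (gt_mem_nhds hq))
    obtain ⟨σ, ⟨⟨b1, b2⟩, b3⟩, b4⟩ := (((((CinX.tl ξ).eventually (gg_peano hI ε hε)).and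
      (a1.eventually (hh ε hε))).and a3).and self_mem_nhdsWithin).exists
    simp only [Function.comp] at b3
    have b5 := hC x ((1 - τ) • (q + (σ * κ) • w)) (σ • ξ) (by
      rw [N_smul]
      have : (1 - τ) ^ 2 ≤ 1 := by nlinarith
      nlinarith [N_nonneg g x (q + (σ * κ) • w)])
    have b6 := wtri g (ex g x (σ • ξ)) (ex g x ((1 - τ) • (q + (σ * κ) • w))) (ex g x q) t0 h0
    have b7 := (abs_le.1 b1).1
    have b8 := div_le_div_of_nonneg_right b5 t0.le
    have b9 : (g.inner x ((1 - τ) • (q + (σ * κ) • w)) ((1 - τ) • (q + (σ * κ) • w))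
        - 2 * g.inner x ((1 - τ) • (q + (σ * κ) • w)) (σ • ξ) + C * g.inner x (σ • ξ) (σ • ξ))
          / (1 - τ) = (1 - τ) * g.inner x (q + (σ * κ) • w) (q + (σ * κ) • w)
            - 2 * (σ * g.inner x q ξ) - 2 * σ ^ 2 * κ * g.inner x w ξ
            + σ ^ 2 * (C / (1 - τ) * g.inner x ξ ξ) := by
      rw [N_smul, N_smul]
      simp only [map_smul, map_add, smul_apply,
        add_apply, smul_eq_mul]
      field_simp
      ring
    rw [b9] at b8
    rw [sub_add_cancel, div_one] at b6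
    unfold ff at b2
    rw [mul_comm 2 τ, ← div_div] at b2
    simp only [GG, map_smul, smul_apply, smul_eq_mul] at b7
    have h8 : 0 < σ ^ 2 := pow_pos b4 2
    refine le_of_mul_le_mul_left ?_ h8
    linarith
  have a1 : Tendsto (fun ε : ℝ => κ ^ 2 * HH g x τ w q - 2 * κ * g.inner x w ξ
      + C / (1 - τ) * g.inner x ξ ξ + ε * (2 * κ ^ 2 + 2 * g.inner x ξ ξ)) (𝓝[>] 0)
      (𝓝 (κ ^ 2 * HH g x τ w q - 2 * κ * g.inner x w ξ + C / (1 - τ) * g.inner x ξ ξ)) :=
    ((continuous_const.add (continuous_mul_const _)).tendsto' 0 _ (by simp)).mono_left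
      nhdsWithin_le_nhds
  exact ge_of_tendsto a1 (eventually_mem_nhdsWithin.mono key)

end Vale.Agent.P234
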