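import Vale.Agent.P234.Alg

open scoped ContDiff Manifold Topology
open Set Filter

noncomputable section

namespace Vale.Agent.P234

open Vale.Agent.P255

variable {E : Type} [NormedAddCommGroup E] [NormedSpace ℝ E] [FiniteDimensional ℝ E]
variable {M : Type} [TopologicalSpace M] [ChartedSpace E M] [IsManifold 𝓘(ℝ, E) ∞ M] [T2Space M]
  [CompactSpace M] [ConnectedSpace M]
variable {g : RMetric E M} {e e' : OpenPartialHomeomorph M E}

theorem convex_ball (g : RMetric E M) (x : M) (R : ℝ) : Convex ℝ {v | g.inner x v v ≤ R} := by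
  intro u hu v hv a b ha hb hab
  have h1 : g.inner x u u ≤ R := hu
  have h2 : g.inner x v v ≤ R := hv
  change g.inner x (a • u + b • v) (a • u + b • v) ≤ R
  have h3 := N_nonneg g x (u - v)
  have h4 : g.inner x (a • u) (b • v) = a * b * g.inner x u v := by
    simp only [map_smul, smul_apply, smul_eq_mul]
    ring
  rw [N_sub] at h3
  rw [N_add, N_smul, N_smul, h4]
  have hb' : b = 1 - a := by linarith
  subst hb'
  have h5 := mul_nonneg (mul_nonneg ha hb) h3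
  have h6 := mul_le_mul_of_nonneg_left h1 ha
  have h7 := mul_le_mul_of_nonneg_left h2 hb
  nlinarith

theorem cpt_ball (g : RMetric E M) (x : M) (R : ℝ) : IsCompact {v | g.inner x v v ≤ R} := by
  have : ProperSpace E := FiniteDimensional.proper ℝ E
  obtain ⟨c, hc, hco⟩ := exists_coercive (g.inner x) (g.pos x)
  have hcl : IsClosed {v | g.inner x v v ≤ R} :=
    isClosed_le (by fun_prop) continuous_const
  refine (isCompact_closedBall (0 : E) (R / c + 1)).of_isClosed_subset hcl fun v hv => ?_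
  have h1 : g.inner x v v ≤ R := hv
  rw [mem_closedBall_zero_iff]
  have h6 : ‖v‖ ^ 2 ≤ R / c := by
    rw [le_div_iff₀ hc]
    linarith [hco v]
  nlinarith [sq_nonneg (‖v‖ - 1), norm_nonneg v]

theorem N_le_norm (g : RMetric E M) (x : M) : ∃ C > 0, ∀ v,
    g.inner x v v ≤ C * ‖v‖ ^ 2 ∧ ‖v‖ ^ 2 ≤ C * g.inner x v v := by
  obtain ⟨c, hc, hco⟩ := exists_coercive (g.inner x) (g.pos x)
  refine ⟨‖g.inner x‖ + c⁻¹, by positivity, fun v => ⟨?_, ?_⟩⟩
  · have h1 := (le_abs_self _).trans ((g.inner x).le_opNorm₂ v v)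
    have h2 : 0 ≤ c⁻¹ * ‖v‖ ^ 2 := by positivity
    nlinarith
  · have h1 := mul_le_mul_of_nonneg_left (hco v) (inv_pos.2 hc).le
    rw [← mul_assoc, inv_mul_cancel₀ hc.ne', one_mul] at h1
    have h2 := mul_nonneg (norm_nonneg (g.inner x)) (N_nonneg g x v)
    nlinarith

theorem ball_sub (g : RMetric E M) (x : M) {A : Set E} (hA : A ∈ 𝓝 (0 : E)) :
    ∃ η > 0, ∀ v, g.inner x v v ≤ η ^ 2 → v ∈ A := by
  obtain ⟨C, hC, h⟩ := N_le_norm g x
  obtain ⟨δ, hδ, hb⟩ := Metric.mem_nhds_iff.1 hA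
  refine ⟨δ / (C + 1), by positivity, fun v hv => hb ?_⟩
  rw [mem_ball_zero_iff]
  have h1 := (h v).2.trans (mul_le_mul_of_nonneg_left hv hC.le)
  have h2 : C * (δ / (C + 1)) ^ 2 < δ ^ 2 := by
    rw [div_pow, ← mul_div_assoc, div_lt_iff₀ (by positivity)]
    have : C < (C + 1) ^ 2 := by nlinarith
    nlinarith [pow_pos hδ 2]
  exact lt_of_pow_lt_pow_left₀ 2 hδ.le (h1.trans_lt h2)

theorem ev_N_le (g : RMetric E M) (x : M) {η : ℝ} (hη : 0 < η) :
    ∀ᶠ v in 𝓝 (0 : E), g.inner x v v ≤ η := by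
  have hc : Continuous fun v : E => g.inner x v v := by fun_prop
  have h0 : g.inner x (0 : E) (0 : E) < η := by simpa using hη
  exact ((hc.tendsto 0).eventually (gt_mem_nhds h0)).mono fun v hv => hv.le

theorem sq_div_le {p q s t : ℝ} (hs : 0 < s) (ht : 0 < t) :
    (p + q) ^ 2 / (s + t) ≤ p ^ 2 / s + q ^ 2 / t := by
  rw [div_add_div _ _ hs.ne' ht.ne', div_le_div_iff₀ (by positivity) (by positivity)]
  nlinarith [sq_nonneg (p * t - q * s)]

theorem loc_coer (g : RMetric E M) (he : e ∈ atlas E M) {x : M} (hx : x ∈ e.source) :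
    ∃ C > 0, ∀ᶠ y in 𝓝 (e x), y ∈ e.target ∧ ∀ a,
      loc g.inner e y a a ≤ C * ‖a‖ ^ 2 ∧ ‖a‖ ^ 2 ≤ C * loc g.inner e y a a := by
  have hL := lm_loc g he
  have hy := e.map_source hx
  obtain ⟨κ, hκ, hco⟩ := exists_coercive (loc g.inner e (e x)) (hL.pos _ hy)
  have hcont : ContinuousAt (loc g.inner e) (e x) :=
    hL.sm.continuousOn.continuousAt (hL.op.mem_nhds hy)
  refine ⟨‖loc g.inner e (e x)‖ + κ / 2 + 2 / κ, by positivity, ?_⟩
  filter_upwards [hL.op.mem_nhds hy, hcont.tendsto.eventually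
    (Metric.ball_mem_nhds (loc g.inner e (e x)) (half_pos hκ))] with y hyt hb
  refine ⟨hyt, fun a => ?_⟩
  have h1 : ‖loc g.inner e y - loc g.inner e (e x)‖ < κ / 2 :=
    (mem_ball_iff_norm (b := loc g.inner e y) (a := loc g.inner e (e x))).1 hb
  have h2 := (loc g.inner e y - loc g.inner e (e x)).le_opNorm₂ a a
  have h3 := hco a
  have h4 : ‖loc g.inner e y - loc g.inner e (e x)‖ * ‖a‖ * ‖a‖ ≤ κ / 2 * ‖a‖ * ‖a‖ := by
    gcongr
  have h5 := abs_le.1 (h2.trans h4)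
  simp only [ContinuousLinearMap.sub_apply] at h5
  have h6 := (le_abs_self _).trans ((loc g.inner e (e x)).le_opNorm₂ a a)
  have h7 : 0 ≤ 2 / κ * ‖a‖ ^ 2 := by positivity
  have h8 : κ / 2 * ‖a‖ ^ 2 ≤ loc g.inner e y a a := by nlinarith [h5.1]
  have h9 : 0 ≤ loc g.inner e y a a := le_trans (by positivity) h8
  refine ⟨by nlinarith [h5.2], ?_⟩
  have h10 := mul_le_mul_of_nonneg_left h8 (by positivity : 0 ≤ 2 / κ)
  have h11 : 2 / κ * (κ / 2 * ‖a‖ ^ 2) = ‖a‖ ^ 2 := by field_simp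
  have h12 := mul_nonneg (by positivity : 0 ≤ ‖loc g.inner e (e x)‖ + κ / 2) h9
  nlinarith

theorem unifM {P : ℝ → M → Prop} (mono : ∀ r r' x, 0 < r → r ≤ r' → P r' x → P r x)
    (h : ∀ x, ∃ r > 0, ∀ᶠ x' in 𝓝 x, P r x') : ∃ r > 0, ∀ x, P r x := by
  suffices h' : ∃ r > 0, ∀ x ∈ (univ : Set M), P r x by
    obtain ⟨r, hr, h'⟩ := h'
    exact ⟨r, hr, fun x => h' x (mem_univ _)⟩
  refine isCompact_univ.induction_on (p := fun S : Set M => ∃ r > 0, ∀ x ∈ S, P r x)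
    ⟨1, one_pos, fun z hz => hz.elim⟩ ?_ ?_ ?_
  · rintro S S' hSS ⟨r, hr, h⟩
    exact ⟨r, hr, fun z hz => h z (hSS hz)⟩
  · rintro S S' ⟨r, hr, h⟩ ⟨r', hr', h'⟩
    refine ⟨min r r', lt_min hr hr', ?_⟩
    rintro z (hz | hz)
    · exact mono _ _ z (lt_min hr hr') (min_le_left _ _) (h z hz)
    · exact mono _ _ z (lt_min hr hr') (min_le_right _ _) (h' z hz)
  · intro p _
    obtain ⟨r, hr, hp⟩ := h p
    exact ⟨{x | P r x}, mem_nhdsWithin_of_mem_nhds hp, r, hr, fun z hz => hz⟩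

end Vale.Agent.P234
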