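import Vale.Agent.P234.DL

open scoped ContDiff Manifold Topology
open Set Filter

noncomputable section

namespace Vale.Agent.P234

open Vale.Agent.P255

variable {E : Type} [NormedAddCommGroup E] [NormedSpace ℝ E] [FiniteDimensional ℝ E]
variable {M : Type} [TopologicalSpace M] [ChartedSpace E M] [IsManifold 𝓘(ℝ, E) ∞ M] [T2Space M]
  [CompactSpace M] [ConnectedSpace M]
variable {g : RMetric E M} {e e' : OpenPartialHomeomorph M E}

namespace CutX

theorem abs_min (r a b : ℝ) : |min r a - min r b| ≤ |a - b| := by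
  have h1 := le_abs_self (a - b)
  have h2 := neg_abs_le (a - b)
  rw [abs_le]
  rcases le_total r a with h | h <;> rcases le_total r b with h' | h' <;>
    simp only [min_eq_left, min_eq_right, h, h'] <;> constructor <;> linarith

end CutX

/-- cut-off version -/
theorem cut (he : e ∈ atlas E M) {W K : Set E} (hW : IsOpen W) (hWe : W ⊆ e.target)
    (hK : IsCompact K) (hKW : K ⊆ W) {φ : E → ℝ} {r : ℝ} (hr : ∀ y ∈ W, y ∉ K → r ≤ φ y)
    (hφ : ∀ y ∈ W, PL (loc g.inner e y) φ y) {y₀ : E} (hy₀ : y₀ ∈ W) :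
    (∀ y ∈ W, min r (φ y) - min r (φ y₀) ≤ dst g (e.symm y₀) (e.symm y)) ∧
    ∀ q, q ∉ e.symm '' W → r - min r (φ y₀) ≤ dst g (e.symm y₀) q := by
  classical
  obtain ⟨f, hf⟩ : ∃ f : M → ℝ, f = fun p => if p ∈ e.symm '' W then min r (φ (e p)) else r :=
    ⟨_, rfl⟩
  have hfW : ∀ y ∈ W, f (e.symm y) = min r (φ y) := by
    intro y hy
    rw [hf]
    beta_reduce
    rw [if_pos (mem_image_of_mem _ hy), e.right_inv (hWe hy)]
  have hfn : ∀ q, q ∉ e.symm '' W → f q = r := by
    intro q hq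
    rw [hf]
    beta_reduce
    rw [if_neg hq]
  have hfK : ∀ q, q ∉ e.symm '' K → f q = r := by
    intro q hq
    by_cases h : q ∈ e.symm '' W
    · obtain ⟨y, hy, rfl⟩ := h
      rw [hfW y hy]
      exact min_eq_left (hr y hy fun hyK => hq (mem_image_of_mem _ hyK))
    · exact hfn q h
  have hKc : IsClosed (e.symm '' K) :=
    (hK.image_of_continuousOn (e.continuousOn_symm.mono (hKW.trans hWe))).isClosed
  have key : ∀ p, ∃ c ∈ atlas E M, p ∈ c.source ∧
      PL (loc g.inner c (c p)) (fun y => f (c.symm y)) (c p) := by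
    intro p
    by_cases hp : p ∈ e.symm '' W
    · obtain ⟨y, hy, rfl⟩ := hp
      refine ⟨e, he, e.map_target (hWe hy), ?_⟩
      rw [e.right_inv (hWe hy)]
      intro ε hε
      filter_upwards [hφ y hy ε hε, hW.mem_nhds hy] with y' h1 hy'
      rw [hfW y hy, hfW y' hy']
      exact (CutX.abs_min _ _ _).trans h1
    · have hpK : p ∉ e.symm '' K := fun h => hp (image_mono hKW h)
      refine ⟨chartAt E p, chart_mem_atlas E p, mem_chart_source E p, ?_⟩
      intro ε hε
      have hc : ContinuousAt (chartAt E p).symm (chartAt E p p) :=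
        (chartAt E p).continuousAt_symm (mem_chart_target E p)
      have hpp : (chartAt E p).symm (chartAt E p p) = p :=
        (chartAt E p).left_inv (mem_chart_source E p)
      have hn : (e.symm '' K)ᶜ ∈ 𝓝 ((chartAt E p).symm (chartAt E p p)) := by
        rw [hpp]
        exact hKc.isOpen_compl.mem_nhds hpK
      filter_upwards [hc.tendsto.eventually hn] with y' hy'
      rw [hfK _ hy', hpp, hfK p hpK, sub_self, abs_zero]
      positivity
  refine ⟨fun y hy => ?_, fun q hq => ?_⟩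
  · have := dl key (e.symm y₀) (e.symm y)
    rwa [hfW y hy, hfW y₀ hy₀] at this
  · have := dl key (e.symm y₀) q
    rwa [hfn q hq, hfW y₀ hy₀] at this

theorem dst_low (g : RMetric E M) (he : e ∈ atlas E M) {x : M} (hx : x ∈ e.source) :
    ∃ C > 0, ∀ᶠ q : M × M in 𝓝 (x, x), ‖e q.1 - e q.2‖ ≤ C * dst g q.1 q.2 := by
  have : ProperSpace E := FiniteDimensional.proper ℝ E
  obtain ⟨C, hC, hev⟩ := loc_coer g he hx
  obtain ⟨δ, hδ, hball⟩ := Metric.eventually_nhds_iff_ball.1 hev
  have hsC : 0 < √C := Real.sqrt_pos.2 hC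
  refine ⟨√C, hsC, ?_⟩
  have hn : ∀ᶠ p in 𝓝 x, p ∈ e.source ∧ e p ∈ Metric.ball (e x) (δ / 4) :=
    Filter.Eventually.and (e.open_source.mem_nhds hx)
      ((e.continuousAt hx).tendsto.eventually (Metric.ball_mem_nhds _ (by positivity)))
  have h1 : ∀ᶠ q : M × M in 𝓝 (x, x), q.1 ∈ e.source ∧ e q.1 ∈ Metric.ball (e x) (δ / 4) :=
    (continuous_fst.tendsto (x, x)).eventually hn
  have h2 : ∀ᶠ q : M × M in 𝓝 (x, x), q.2 ∈ e.source ∧ e q.2 ∈ Metric.ball (e x) (δ / 4) :=
    (continuous_snd.tendsto (x, x)).eventually hn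
  filter_upwards [h1, h2] with q h1 h2
  have hb1 := mem_ball_iff_norm.1 h1.2
  have hb2 := mem_ball_iff_norm.1 h2.2
  have hsub : Metric.ball (e x) (δ / 4) ⊆ Metric.ball (e x) δ :=
    Metric.ball_subset_ball (by linarith)
  have hcut := (cut (g := g) he (W := Metric.ball (e x) δ) (K := Metric.closedBall (e x) (3 * δ / 4))
    Metric.isOpen_ball (fun y hy => (hball y hy).1) (isCompact_closedBall _ _)
    (Metric.closedBall_subset_ball (by linarith)) (φ := fun y => ‖y - e q.1‖ / √C)
    (r := δ / 2 / √C) (fun y _ hy => ?_) (fun y hy ε hε => ?_) (hsub h1.2)).1 (e q.2) (hsub h2.2)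
  · rw [e.left_inv h1.1, e.left_inv h2.1, sub_self, norm_zero, zero_div] at hcut
    have h3 : ‖e q.2 - e q.1‖ ≤ δ / 2 := by
      have := norm_sub_le_norm_sub_add_norm_sub (e q.2) (e x) (e q.1)
      rw [norm_sub_rev (e x)] at this
      linarith
    rw [min_eq_right (div_le_div_of_nonneg_right h3 hsC.le), min_eq_right (by positivity),
      sub_zero, div_le_iff₀ hsC] at hcut
    rw [norm_sub_rev]
    linarith
  · have h3 : 3 * δ / 4 < ‖y - e x‖ := by
      by_contra hh
      exact hy (mem_closedBall_iff_norm.2 (not_lt.1 hh))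
    have := norm_sub_le_norm_sub_add_norm_sub y (e q.1) (e x)
    exact div_le_div_of_nonneg_right (by linarith) hsC.le
  · refine Eventually.of_forall fun y' => ?_
    have h3 : |‖y' - e q.1‖ - ‖y - e q.1‖| ≤ ‖y' - y‖ := by
      have := abs_norm_sub_norm_le (y' - e q.1) (y - e q.1)
      rwa [sub_sub_sub_cancel_right] at this
    have h4 : ‖y' - y‖ ≤ √C * √(loc g.inner e y (y' - y) (y' - y)) := by
      rw [← Real.sqrt_mul hC.le]
      exact Real.le_sqrt_of_sq_le ((hball y hy).2 (y' - y)).2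
    have h5 : 0 ≤ ε * ‖y' - y‖ := by positivity
    beta_reduce
    rw [← sub_div, abs_div, abs_of_pos hsC]
    have h6 : |‖y' - e q.1‖ - ‖y - e q.1‖| / √C ≤ √(loc g.inner e y (y' - y) (y' - y)) := by
      rw [div_le_iff₀ hsC]
      linarith
    linarith

end Vale.Agent.P234
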