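import Vale.Agent.P234.HR

open scoped ContDiff Manifold Topology
open Set Filter

noncomputable section

namespace Vale.Agent.P234

open Vale.Agent.P255

variable {E : Type} [NormedAddCommGroup E] [NormedSpace ℝ E] [FiniteDimensional ℝ E]
variable {M : Type} [TopologicalSpace M] [ChartedSpace E M] [IsManifold 𝓘(ℝ, E) ∞ M] [T2Space M]
  [CompactSpace M] [ConnectedSpace M]
variable {g : RMetric E M} {e e' : OpenPartialHomeomorph M E}

/-- upper bound for the directional derivative of `-c(.,y)` -/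
theorem dder {x y : M} {ξ : E} {l : ℝ} (h : ∀ w ∈ Ib g x, ex g x w = y → g.inner x w ξ < l) :
    ∀ᶠ t in 𝓝[>] (0 : ℝ), dst g x y ^ 2 / 2 - dst g (ex g x (t • ξ)) y ^ 2 / 2 ≤ t * l := by
  obtain ⟨r, hr0, hlc⟩ := lc g
  obtain ⟨R, hR0, hR⟩ := dst_bdd g
  obtain ⟨τ, hτ0, hτ1, hτR⟩ : ∃ τ : ℝ, 0 < τ ∧ τ < 1 ∧ τ * R ≤ r / 2 := by
    refine ⟨min (1 / 2) (r / 2 / R), by positivity, (min_le_left _ _).trans_lt (by norm_num), ?_⟩
    have := mul_le_mul_of_nonneg_right (min_le_right (1 / 2) (r / 2 / R)) hR0.le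
    rwa [div_mul_cancel₀ _ hR0.ne'] at this
  by_contra hcon
  rw [not_eventually] at hcon
  have hx : Continuous fun p : ℝ × E => ex g x (p.1 • ξ) :=
    (ex_cont g x).comp (by fun_prop)
  have hw : Continuous fun p : ℝ × E => ex g x p.2 := (ex_cont g x).comp continuous_snd
  have hd1 : Continuous fun p : ℝ × E => dst g (ex g x (p.1 • ξ)) (ex g x p.2) :=
    (dst_cont g).comp (hx.prodMk hw)
  have hd2 : Continuous fun p : ℝ × E => dst g (ex g x (p.1 • ξ)) y :=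
    (dst_cont g).comp (hx.prodMk continuous_const)
  have hd3 : Continuous fun p : ℝ × E => dst g (ex g x p.2) y :=
    (dst_cont g).comp (hw.prodMk continuous_const)
  obtain ⟨A, hA⟩ : ∃ A : Set (ℝ × E), A = (Icc (0 : ℝ) 1 ×ˢ {v | g.inner x v v ≤ r ^ 2}) ∩
      ({p | p.2 ∈ Ib g x} ∩ ({p | dst g (ex g x (p.1 • ξ)) (ex g x p.2) =
        τ * dst g (ex g x (p.1 • ξ)) y} ∩ ({p | dst g (ex g x p.2) y =
        (1 - τ) * dst g (ex g x (p.1 • ξ)) y} ∩ {p | τ * l ≤ g.inner x p.2 ξ}))) := ⟨_, rfl⟩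
  have hAc : IsCompact A := by
    rw [hA]
    refine (isCompact_Icc.prod (cpt_ball g x _)).inter_right ?_
    refine ((isClosed_Ib g x).preimage continuous_snd).inter
      ((isClosed_eq hd1 (continuous_const.mul hd2)).inter
      ((isClosed_eq hd3 (continuous_const.mul hd2)).inter (isClosed_le continuous_const ?_)))
    fun_prop
  have hs : Tendsto (fun t : ℝ => t * √(g.inner x ξ ξ)) (𝓝 0) (𝓝 0) := by
    have hc : Continuous fun t : ℝ => t * √(g.inner x ξ ξ) := by fun_prop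
    simpa using hc.tendsto 0
  have hev : ∀ᶠ t in 𝓝[>] (0 : ℝ), 0 < t ∧ t < 1 ∧ t * √(g.inner x ξ ξ) < r / 2 := by
    filter_upwards [self_mem_nhdsWithin, (gt_mem_nhds (one_pos : (0 : ℝ) < 1)).filter_mono
      nhdsWithin_le_nhds, (hs.eventually (gt_mem_nhds (half_pos hr0))).filter_mono
      nhdsWithin_le_nhds] with t h1 h2 h3
    exact ⟨h1, h2, h3⟩
  have hfr : ∃ᶠ t in 𝓝 (0 : ℝ), t ∈ Prod.fst '' A := by
    refine Frequently.filter_mono ((hcon.and_eventually hev).mono ?_) nhdsWithin_le_nhds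
    rintro t ⟨hn, ht0, ht1, htr⟩
    obtain ⟨m, hm1, hm2⟩ := mid g (ex g x (t • ξ)) y hτ0.le hτ1.le
    obtain ⟨ϖ, hϖ, hϖm⟩ := hr g x m
    have hN : dst g x m ^ 2 = g.inner x ϖ ϖ := by
      rw [← hϖm]
      exact hϖ
    have h1 : dst g x (ex g x (t • ξ)) ≤ t * √(g.inner x ξ ξ) := by
      have := dst_ex_le g x (t • ξ)
      rwa [sqrt_smul, abs_of_pos ht0] at this
    have h2 : dst g x m ≤ r := by
      have h3 := dst_tri g x (ex g x (t • ξ)) m
      have h4 := mul_le_mul_of_nonneg_left (hR (ex g x (t • ξ)) y) hτ0.le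
      linarith
    have h3 : g.inner x ϖ ϖ ≤ r ^ 2 := by
      rw [← hN]
      exact pow_le_pow_left₀ (dst_nonneg g _ _) h2 2
    have h4 : g.inner x (t • ξ) (t • ξ) ≤ r ^ 2 := by
      rw [← Real.sq_sqrt (N_nonneg g x (t • ξ)), sqrt_smul, abs_of_pos ht0]
      exact pow_le_pow_left₀ (by positivity) (by linarith) 2
    have h5 := (abs_le.1 (hlc x (t • ξ) ϖ h4 h3).1).1
    have h6 : g.inner x ϖ (t • ξ) = t * g.inner x ϖ ξ := by
      simp only [map_smul, smul_eq_mul]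
    rw [N_sub, h6, hϖm, hm1] at h5
    have h7 := N_nonneg g x (t • ξ)
    have h8 := wtri g x m y hτ0 (sub_pos.2 hτ1)
    rw [hN, hm2, add_sub_cancel, div_one] at h8
    have h9 : ((1 - τ) * dst g (ex g x (t • ξ)) y) ^ 2 / (1 - τ) =
        (1 - τ) * dst g (ex g x (t • ξ)) y ^ 2 := by
      have := (sub_pos.2 hτ1).ne'
      field_simp
    rw [h9] at h8
    have h10 := mul_le_mul_of_nonneg_left h8 hτ0.le
    rw [mul_add, mul_div_cancel₀ _ hτ0.ne'] at h10
    have h11 := mul_lt_mul_of_pos_left (not_le.1 hn) hτ0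
    refine ⟨(t, ϖ), ?_, rfl⟩
    rw [hA]
    refine ⟨⟨⟨ht0.le, ht1.le⟩, h3⟩, hϖ, ?_, ?_, ?_⟩
    · change dst g (ex g x (t • ξ)) (ex g x ϖ) = _
      rw [hϖm, hm1]
    · change dst g (ex g x ϖ) y = _
      rw [hϖm, hm2]
    · change τ * l ≤ g.inner x ϖ ξ
      refine le_of_mul_le_mul_left ?_ ht0
      nlinarith
  obtain ⟨p, hp, hp0⟩ := hfr.mem_of_closed (hAc.image continuous_fst).isClosed
  rw [hA] at hp
  obtain ⟨-, hp1, hp2, hp3, hp4⟩ := hp
  have hp2' : dst g (ex g x (p.1 • ξ)) (ex g x p.2) = τ * dst g (ex g x (p.1 • ξ)) y := hp2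
  have hp3' : dst g (ex g x p.2) y = (1 - τ) * dst g (ex g x (p.1 • ξ)) y := hp3
  have hp4' : τ * l ≤ g.inner x p.2 ξ := hp4
  rw [hp0, zero_smul, ex_zero] at hp2' hp3'
  obtain ⟨h1, h2⟩ := ext_min hp1 hτ0 hτ1.le hp2' hp3'
  have h3 := h _ h1 h2
  simp only [map_smul, smul_apply, smul_eq_mul] at h3
  have h4 := mul_lt_mul_of_pos_left h3 hτ0
  rw [← mul_assoc, mul_inv_cancel₀ hτ0.ne', one_mul] at h4
  linarith

end Vale.Agent.P234
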