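import Vale.Agent.P255.Loc

open scoped ContDiff Manifold Topology
open Set Filter

noncomputable section

namespace Vale.Agent.P234

open Vale.Agent.P255

variable {E : Type} [NormedAddCommGroup E] [NormedSpace ℝ E] [FiniteDimensional ℝ E]

theorem dini_int {h k : ℝ → ℝ} {a b : ℝ} (hab : a ≤ b) (hc : ContinuousOn h (Icc a b))
    (kc : ContinuousOn k (Icc a b))
    (hd : ∀ t ∈ Ico a b, ∀ ε > 0, ∀ᶠ s in 𝓝[>] t, h s - h t ≤ (k t + ε) * (s - t)) :
    h b - h a ≤ ∫ t in a..b, k t := by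
  have h1 : Continuous (fun t => k (projIcc a b hab t)) := kc.restrict.comp continuous_projIcc
  have h2 : ∀ t, HasDerivAt (fun t => h a + ∫ s in a..t, k (projIcc a b hab s))
      (k (projIcc a b hab t)) t := fun t =>
    (intervalIntegral.integral_hasDerivAt_right (h1.intervalIntegrable _ _)
      (h1.stronglyMeasurableAtFilter _ _) h1.continuousAt).const_add _
  have h3 := image_le_of_liminf_slope_right_le_deriv_boundary hc
    (B := fun t => h a + ∫ s in a..t, k (projIcc a b hab s)) (B' := fun t => k (projIcc a b hab t))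
    (by simp) (fun t _ => (h2 t).continuousAt.continuousWithinAt)
    (fun t _ => (h2 t).hasDerivWithinAt) (fun t ht r hr => by
      rw [projIcc_of_mem hab (Ico_subset_Icc_self ht)] at hr
      have hr' : k t < r := hr
      refine Eventually.frequently ?_
      filter_upwards [hd t ht ((r - k t) / 2) (by linarith), self_mem_nhdsWithin] with s hs hst
      have hst' : 0 < s - t := sub_pos.2 hst
      rw [slope_def_field, div_lt_iff₀ hst']
      nlinarith) (right_mem_Icc.2 hab)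
  have h4 : ∫ s in a..b, k (projIcc a b hab s) = ∫ s in a..b, k s :=
    intervalIntegral.integral_congr fun s hs => by
      rw [uIcc_of_le hab] at hs
      simp only [projIcc_of_mem hab hs]
  simp only [h4] at h3
  linarith

theorem glob1 {k : ℝ → ℝ} {a₀ : ℝ} (hc : ContinuousOn k (Icc 0 1))
    (h : ∀ t ∈ Ioo (0 : ℝ) 1, ∃ a : ℝ, ∀ᶠ σ in 𝓝 (0 : ℝ), k t + a * σ ≤ k (t + σ))
    (h0 : ∀ᶠ σ in 𝓝[>] (0 : ℝ), k 0 + a₀ * σ ≤ k σ) : k 0 + a₀ ≤ k 1 := by
  by_contra hlt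
  push Not at hlt
  obtain ⟨ε, hε⟩ : ∃ ε, ε = (k 0 + a₀ - k 1) / 2 := ⟨_, rfl⟩
  obtain ⟨c, hcd⟩ : ∃ c, c = k 1 + ε - k 0 := ⟨_, rfl⟩
  have hε0 : 0 < ε := by linarith
  have hca : c < a₀ := by linarith
  obtain ⟨t, ht, hmax⟩ := isCompact_Icc.exists_isMaxOn (nonempty_Icc.2 (zero_le_one' ℝ))
    (f := fun t => k t + ε * t ^ 2 - (k 0 + c * t)) ((hc.add (by fun_prop)).sub (by fun_prop))
  obtain ⟨σ, hσ, hσ'⟩ := (h0.and (Ioo_mem_nhdsGT (zero_lt_one' ℝ))).exists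
  have h1 : k σ + ε * σ ^ 2 - (k 0 + c * σ) ≤ k t + ε * t ^ 2 - (k 0 + c * t) :=
    hmax (Ioo_subset_Icc_self hσ')
  have h2 : 0 < k t + ε * t ^ 2 - (k 0 + c * t) := by
    have := mul_pos (sub_pos.2 hca) hσ'.1
    have := mul_nonneg hε0.le (sq_nonneg σ)
    linarith
  have ht' : t ∈ Ioo (0 : ℝ) 1 := by
    refine ⟨ht.1.lt_of_ne fun h3 => ?_, ht.2.lt_of_ne fun h3 => ?_⟩
    · rw [← h3] at h2; simp at h2
    · rw [h3] at h2; linarith
  obtain ⟨a, ha⟩ := h t ht'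
  have hneg : Tendsto (fun σ : ℝ => -σ) (𝓝 0) (𝓝 0) := by
    simpa using (continuous_neg (G := ℝ)).tendsto 0
  have hp : ∀ᶠ σ : ℝ in 𝓝 0, t + σ ∈ Ioo (0 : ℝ) 1 := by
    have : Tendsto (fun σ : ℝ => t + σ) (𝓝 0) (𝓝 t) := by
      simpa using (continuous_const_add t).tendsto 0
    exact this.eventually (isOpen_Ioo.mem_nhds ht')
  obtain ⟨u, ⟨⟨h3, h4⟩, h5, h6⟩, hu⟩ := ((((ha.and hp).and (hneg.eventually (ha.and hp))).filter_mono
    (nhdsWithin_le_nhds (s := Ioi 0))).and self_mem_nhdsWithin).exists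
  have hu' : 0 < u := hu
  have h7 : k (t + u) + ε * (t + u) ^ 2 - (k 0 + c * (t + u)) ≤ k t + ε * t ^ 2 - (k 0 + c * t) :=
    hmax (Ioo_subset_Icc_self h4)
  have h8 : k (t + -u) + ε * (t + -u) ^ 2 - (k 0 + c * (t + -u)) ≤
      k t + ε * t ^ 2 - (k 0 + c * t) := hmax (Ioo_subset_Icc_self h6)
  have h9 := mul_pos hε0 (pow_pos hu' 2)
  nlinarith

end Vale.Agent.P234
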