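import Vale.Agent.P234.Dst
import Vale.Agent.P234.Dini

open scoped ContDiff Manifold Topology
open Set Filter

noncomputable section

namespace Vale.Agent.P234

open Vale.Agent.P255

variable {E : Type} [NormedAddCommGroup E] [NormedSpace ℝ E] [FiniteDimensional ℝ E]
variable {M : Type} [TopologicalSpace M] [ChartedSpace E M] [IsManifold 𝓘(ℝ, E) ∞ M] [T2Space M]
  [CompactSpace M] [ConnectedSpace M]
variable {g : RMetric E M} {e e' : OpenPartialHomeomorph M E}

namespace DLX

theorem pl_cont {B : E →L[ℝ] E →L[ℝ] ℝ} {φ : E → ℝ} {y : E} (h : PL B φ y) :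
    ContinuousAt φ y := by
  have h1 := h 1 one_pos
  have hc : Continuous fun y' : E => √(B (y' - y) (y' - y)) + 1 * ‖y' - y‖ := by fun_prop
  have h2 : Tendsto (fun y' : E => √(B (y' - y) (y' - y)) + 1 * ‖y' - y‖) (𝓝 y) (𝓝 0) := by
    have := hc.tendsto y
    simpa using this
  rw [ContinuousAt, tendsto_iff_dist_tendsto_zero]
  refine squeeze_zero' (Eventually.of_forall fun _ => dist_nonneg) ?_ h2
  filter_upwards [h1] with y' hy'
  rwa [Real.dist_eq]

theorem pl_curve {B : E →L[ℝ] E →L[ℝ] ℝ} {φ : E → ℝ} {c : ℝ → E} {v : E} {t : ℝ}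
    (h : PL B φ (c t)) (hc : HasDerivAt c v t) {ε : ℝ} (hε : 0 < ε) :
    ∀ᶠ s in 𝓝[>] t, φ (c s) - φ (c t) ≤ (√(B v v) + ε) * (s - t) := by
  have hv : 0 < ‖v‖ + 1 := by positivity
  have hε' : 0 < ε / (‖v‖ + 1) := div_pos hε hv
  have h1 := hc.continuousAt.tendsto.eventually (h _ hε')
  have hs : Tendsto (slope c t) (𝓝[>] t) (𝓝 v) :=
    (hasDerivAt_iff_tendsto_slope.1 hc).mono_left (nhdsGT_le_nhdsNE t)
  have hcq : Continuous fun q : E => √(B q q) + ε / (‖v‖ + 1) * ‖q‖ := by fun_prop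
  have hlt : √(B v v) + ε / (‖v‖ + 1) * ‖v‖ < √(B v v) + ε := by
    have : ε / (‖v‖ + 1) * ‖v‖ < ε := by
      rw [div_mul_eq_mul_div, div_lt_iff₀ hv]
      nlinarith
    linarith
  have h2 := ((hcq.tendsto v).comp hs).eventually (gt_mem_nhds hlt)
  filter_upwards [h2, h1.filter_mono nhdsWithin_le_nhds, self_mem_nhdsWithin] with s h2 h1 hst
  have hst' : 0 < s - t := sub_pos.2 hst
  have heq : c s - c t = (s - t) • slope c t s := by
    rw [sub_smul_slope, vsub_eq_sub]
  rw [heq] at h1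
  have hB : √(B ((s - t) • slope c t s) ((s - t) • slope c t s)) =
      (s - t) * √(B (slope c t s) (slope c t s)) := by
    have : B ((s - t) • slope c t s) ((s - t) • slope c t s) =
        (s - t) ^ 2 * B (slope c t s) (slope c t s) := by
      simp only [map_smul, ContinuousLinearMap.smul_apply, smul_eq_mul]
      ring
    rw [this, Real.sqrt_mul (sq_nonneg _), Real.sqrt_sq hst'.le]
  rw [hB, norm_smul, Real.norm_eq_abs, abs_of_pos hst'] at h1
  have h3 := mul_le_mul_of_nonneg_left h2.le hst'.le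
  have h4 := le_abs_self (φ (c s) - φ (c t))
  simp only [Function.comp_apply] at h3
  nlinarith

theorem arc {f : M → ℝ} (h : ∀ p, ∃ e ∈ atlas E M, p ∈ e.source ∧
    PL (loc g.inner e (e p)) (fun y => f (e.symm y)) (e p)) {σ : ℝ → M} {a b : ℝ} (hab : a ≤ b)
    (hσ : ∀ t ∈ Icc a b, ContMDiffAt 𝓘(ℝ, ℝ) 𝓘(ℝ, E) 1 σ t) :
    f (σ b) - f (σ a) ≤ ∫ t in a..b, spd g σ t := by
  refine dini_int (h := fun t => f (σ t)) hab (fun t ht => ?_)
    (fun t ht => (spd_cont g (hσ t ht)).continuousWithinAt) (fun t ht ε hε => ?_)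
  · obtain ⟨e, he, hs, hp⟩ := h (σ t)
    obtain ⟨h1, h2, -⟩ := arc_chart (hσ t ht) he hs
    have h3 : ContinuousAt (fun s => f (e.symm ((e ∘ σ) s))) t :=
      ContinuousAt.comp (f := e ∘ σ) (g := fun y => f (e.symm y)) (pl_cont hp) h2.continuousAt
    refine (h3.congr ?_).continuousWithinAt
    filter_upwards [h1.tendsto.eventually (e.open_source.mem_nhds hs)] with s hs'
    simp only [Function.comp_apply]
    rw [e.left_inv hs']
  · have ht' : t ∈ Icc a b := Ico_subset_Icc_self ht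
    obtain ⟨e, he, hs, hp⟩ := h (σ t)
    obtain ⟨h1, h2, h3⟩ := arc_chart (hσ t ht') he hs
    have h4 := pl_curve (c := e ∘ σ) (φ := fun y => f (e.symm y)) hp h3 hε
    rw [spd_chart g (hσ t ht') he hs, h3.deriv]
    filter_upwards [h4, (h1.tendsto.eventually (e.open_source.mem_nhds hs)).filter_mono
      nhdsWithin_le_nhds] with s h4 hs'
    simp only [Function.comp_apply] at h4
    rw [e.left_inv hs', e.left_inv hs] at h4
    exact h4

end DLX

/-- a pointwise 1-Lipschitz function is 1-Lipschitz for the distance -/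
theorem dl {f : M → ℝ} (h : ∀ p, ∃ e ∈ atlas E M, p ∈ e.source ∧
    PL (loc g.inner e (e p)) (fun y => f (e.symm y)) (e p)) (p q : M) :
    f q - f p ≤ dst g p q := by
  have key : ∀ (y : M) (L : ℝ), Reach g p y L → f y - f p ≤ L := by
    intro y L hr
    induction hr with
    | refl => simp
    | step L σ a b _ hab hσ ih =>
      have := DLX.arc h hab hσ
      linarith
  exact le_csInf (reach_all g p q) fun L hL => key q L hL

end Vale.Agent.P234
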