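import Vale.Agent.P255.Defs

open scoped ContDiff Manifold Topology
open Set

noncomputable section

namespace Vale.Agent.P234

open Vale.Agent.P255

variable {E : Type} [NormedAddCommGroup E] [NormedSpace ℝ E]
variable {M : Type} [TopologicalSpace M] [ChartedSpace E M]

/-- Velocity of the curve `σ` at time `t` (a tangent vector at `σ t`, read in the preferred
chart at `σ t`). -/
def vel (E : Type) [NormedAddCommGroup E] [NormedSpace ℝ E] [ChartedSpace E M]
    (σ : ℝ → M) (t : ℝ) : E :=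
  deriv (chartAt E (σ t) ∘ σ) t

/-- Speed of the curve `σ` at time `t`. -/
def spd (g : RMetric E M) (σ : ℝ → M) (t : ℝ) : ℝ :=
  √(g.inner (σ t) (vel E σ t) (vel E σ t))

/-- `Reach g x y L`: there is a piecewise C^1 path from `x` to `y` of length `L`. -/
inductive Reach (g : RMetric E M) (x : M) : M → ℝ → Prop
  | refl : Reach g x x 0
  | step (L : ℝ) (σ : ℝ → M) (a b : ℝ) : Reach g x (σ a) L → a ≤ b →
      (∀ t ∈ Icc a b, ContMDiffAt 𝓘(ℝ, ℝ) 𝓘(ℝ, E) 1 σ t) →
      Reach g x (σ b) (L + ∫ t in a..b, spd g σ t)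

/-- Riemannian distance: infimum of the lengths of piecewise C^1 paths. -/
def dst (g : RMetric E M) (x y : M) : ℝ := sInf {L | Reach g x y L}

/-- Exponential map: the value at time 1 of the geodesic with initial point `x` and initial
velocity `v`. -/
def expm (g : RMetric E M) (x : M) (v : E) : M :=
  @Classical.epsilon (ℝ → M) ⟨fun _ => x⟩
    (fun γ => IsGeod g γ univ ∧ γ 0 = x ∧ vel E γ 0 = v) 1

/-- The cost `d(x,y)^2/2`. -/
def cost (g : RMetric E M) (x y : M) : ℝ := dst g x y ^ 2 / 2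

/-- The tangent injectivity domain `I(x)`. -/
def injDom (g : RMetric E M) (x : M) : Set E :=
  {v | ∃ a : ℝ, 1 < a ∧ dst g x (expm g x (a • v)) = a * √(g.inner x v v)}

/-- The Ma-Trudinger-Wang tensor. -/
def mtw (g : RMetric E M) (x : M) (v ξ η : E) : ℝ :=
  -(3 / 2) * iteratedDeriv 2 (fun s : ℝ => iteratedDeriv 2
    (fun t : ℝ => cost g (expm g x (t • ξ)) (expm g x (v + s • η))) 0) 0

/-- The weak MTW condition. -/
def WeakMTW (g : RMetric E M) : Prop :=
  ∀ x : M, ∀ v ∈ injDom g x, ∀ ξ η : E, g.inner x ξ η = 0 → 0 ≤ mtw g x v ξ η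

end Vale.Agent.P234
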