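import Vale.Agent.P234.Rch

open scoped ContDiff Manifold Topology
open Set Filter

noncomputable section

namespace Vale.Agent.P234

open Vale.Agent.P255

variable {E : Type} [NormedAddCommGroup E] [NormedSpace ℝ E] [FiniteDimensional ℝ E]
variable {M : Type} [TopologicalSpace M] [ChartedSpace E M] [IsManifold 𝓘(ℝ, E) ∞ M] [T2Space M]
  [CompactSpace M] [ConnectedSpace M]
variable {g : RMetric E M} {e e' : OpenPartialHomeomorph M E}

theorem reach_loc (g : RMetric E M) (he : e ∈ atlas E M) {x : M} (hx : x ∈ e.source) :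
    ∃ C > 0, ∀ᶠ q : M × M in 𝓝 (x, x), ∃ L ≤ C * ‖e q.1 - e q.2‖, Reach g q.1 q.2 L := by
  obtain ⟨C, hC, h⟩ := loc_coer g he hx
  obtain ⟨r, hr, hb⟩ := Metric.eventually_nhds_iff_ball.1 h
  have h1 : ∀ᶠ p in 𝓝 x, p ∈ e.source ∧ e p ∈ Metric.ball (e x) r :=
    (e.open_source.eventually_mem hx).and
      ((e.continuousAt hx).eventually (Metric.ball_mem_nhds _ hr))
  refine ⟨√C, Real.sqrt_pos.2 hC, ?_⟩
  filter_upwards [(continuousAt_fst (p := (x, x))).eventually h1,
    (continuousAt_snd (p := (x, x))).eventually h1] with q h2 h3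
  let c : ℝ → E := fun t => e q.1 + t • (e q.2 - e q.1)
  have c1 : ∀ t ∈ Icc (0 : ℝ) 1, c t ∈ Metric.ball (e x) r := fun t ht =>
    (_root_.convex_ball (e x) r).add_smul_sub_mem h2.2 h3.2 ht
  have c2 : ∀ t, HasDerivAt c (e q.2 - e q.1) t := fun t =>
    (((hasDerivAt_id t).smul_const (e q.2 - e q.1)).const_add (e q.1)).congr_deriv (one_smul _ _)
  have c3 : ∀ t ∈ Icc (0 : ℝ) 1, e ∘ (e.symm ∘ c) =ᶠ[𝓝 t] c := fun t ht => by
    filter_upwards [(c2 t).continuousAt.eventually (e.open_target.mem_nhds (hb _ (c1 t ht)).1)]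
      with s hs using e.right_inv hs
  have c4 : ∀ t ∈ Icc (0 : ℝ) 1, ContMDiffAt 𝓘(ℝ, ℝ) 𝓘(ℝ, E) 1 (e.symm ∘ c) t := fun t ht =>
    arc_of_chart he ((e.continuousAt_symm (hb _ (c1 t ht)).1).comp (c2 t).continuousAt)
      (e.map_target (hb _ (c1 t ht)).1)
      ((by fun_prop : ContDiffAt ℝ 1 c t).congr_of_eventuallyEq (c3 t ht))
  have h4 := Reach.single (g := g) zero_le_one c4
  simp only [Function.comp_apply, c, zero_smul, add_zero, one_smul, add_sub_cancel,
    e.left_inv h2.1, e.left_inv h3.1] at h4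
  refine ⟨_, ?_, h4⟩
  refine (intervalIntegral.integral_mono_on zero_le_one (ContinuousOn.intervalIntegrable_of_Icc
    zero_le_one fun t ht => (spd_cont g (c4 t ht)).continuousWithinAt)
    (intervalIntegrable_const (c := √C * ‖e q.1 - e q.2‖)) fun t ht => ?_).trans_eq (by simp)
  have h5 := hb _ (c1 t ht)
  rw [spd_chart g (c4 t ht) he (e.map_target h5.1), (c3 t ht).deriv_eq, (c2 t).deriv,
    Function.comp_apply, e.right_inv h5.1, norm_sub_rev]
  refine Real.sqrt_le_iff.2 ⟨by positivity, ?_⟩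
  rw [mul_pow, Real.sq_sqrt hC.le]
  exact (h5.2 _).1

theorem reach_all (g : RMetric E M) (x y : M) : ∃ L, Reach g x y L := by
  have key : ∀ z : M, ∀ᶠ w in 𝓝 z, ∃ L, Reach g z w L := fun z => by
    obtain ⟨C, -, h⟩ := reach_loc g (chart_mem_atlas E z) (mem_chart_source E z)
    filter_upwards [(continuousAt_const.prodMk continuousAt_id).eventually h] with w ⟨L, _, hL⟩
      using ⟨L, hL⟩
  have hc : IsClopen {y | ∃ L, Reach g x y L} := by
    refine ⟨isOpen_compl_iff.1 (isOpen_iff_mem_nhds.2 fun z hz => ?_),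
      isOpen_iff_mem_nhds.2 fun z ⟨L, hL⟩ => ?_⟩
    · filter_upwards [key z] with w ⟨L, hL⟩ ⟨L', hL'⟩ using hz ⟨_, hL'.trans hL.symm⟩
    · filter_upwards [key z] with w ⟨L', hL'⟩ using ⟨_, hL.trans hL'⟩
  exact (hc.eq_univ ⟨x, 0, .refl⟩ ▸ mem_univ y : y ∈ {y | ∃ L, Reach g x y L})

theorem exists_reach_lt {x y : M} {L : ℝ} (h : dst g x y < L) : ∃ L' < L, Reach g x y L' := by
  obtain ⟨L', h1, h2⟩ := exists_lt_of_csInf_lt (reach_all g x y) h
  exact ⟨L', h2, h1⟩

theorem dst_tri (g : RMetric E M) (x y z : M) : dst g x z ≤ dst g x y + dst g y z := by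
  refine le_of_forall_pos_le_add fun ε hε => ?_
  obtain ⟨L, h1, h2⟩ := exists_reach_lt (lt_add_of_pos_right (dst g x y) (half_pos hε))
  obtain ⟨L', h3, h4⟩ := exists_reach_lt (lt_add_of_pos_right (dst g y z) (half_pos hε))
  linarith [dst_le (h2.trans h4)]

theorem dst_up (g : RMetric E M) (he : e ∈ atlas E M) {x : M} (hx : x ∈ e.source) :
    ∃ C > 0, ∀ᶠ q : M × M in 𝓝 (x, x), dst g q.1 q.2 ≤ C * ‖e q.1 - e q.2‖ := by
  obtain ⟨C, hC, h⟩ := reach_loc g he hx
  exact ⟨C, hC, h.mono fun q ⟨L, h1, h2⟩ => (dst_le h2).trans h1⟩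

theorem dst_cont (g : RMetric E M) : Continuous fun q : M × M => dst g q.1 q.2 := by
  have key : ∀ x : M, Tendsto (dst g x) (𝓝 x) (𝓝 0) := fun x => by
    have hx := mem_chart_source E x
    obtain ⟨C, -, h⟩ := dst_up g (chart_mem_atlas E x) hx
    refine squeeze_zero' (.of_forall (dst_nonneg g x))
      ((continuousAt_const.prodMk continuousAt_id).eventually h) ?_
    have := ((((chartAt E x).continuousAt hx).tendsto.const_sub (chartAt E x x)).norm).const_mul C
    simpa using this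
  refine continuous_iff_continuousAt.2 fun q => tendsto_iff_norm_sub_tendsto_zero.2
    (squeeze_zero (g := fun p : M × M => dst g q.1 p.1 + dst g q.2 p.2) (fun _ => norm_nonneg _)
      (fun p => ?_) ?_)
  · have h1 := dst_tri g p.1 q.1 p.2
    have h2 := dst_tri g q.1 q.2 p.2
    have h3 := dst_tri g q.1 p.1 q.2
    have h4 := dst_tri g p.1 p.2 q.2
    rw [dst_symm g p.1 q.1] at h1
    rw [dst_symm g p.2 q.2] at h4
    rw [Real.norm_eq_abs, abs_le]
    constructor <;> linarith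
  · simpa using ((key q.1).comp continuousAt_fst).add ((key q.2).comp continuousAt_snd)

theorem dst_bdd (g : RMetric E M) : ∃ R > 0, ∀ x y, dst g x y ≤ R := by
  obtain ⟨R, hR⟩ := (isCompact_range (dst_cont g)).bddAbove
  exact ⟨max R 1, by positivity, fun x y => (hR ⟨(x, y), rfl⟩).trans (le_max_left _ _)⟩

theorem wtri (g : RMetric E M) (x y z : M) {s t : ℝ} (hs : 0 < s) (ht : 0 < t) :
    dst g x z ^ 2 / (s + t) ≤ dst g x y ^ 2 / s + dst g y z ^ 2 / t := by
  refine le_trans ?_ (sq_div_le hs ht)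
  gcongr
  exacts [dst_nonneg g x z, dst_tri g x y z]

end Vale.Agent.P234
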