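import Vale.Agent.P234.Tay

open scoped ContDiff Manifold Topology
open Set Filter

noncomputable section

namespace Vale.Agent.P234

open Vale.Agent.P255

variable {E : Type} [NormedAddCommGroup E] [NormedSpace ℝ E] [FiniteDimensional ℝ E]

namespace EH0X

omit [FiniteDimensional ℝ E] in
theorem fd1 {F : E × E → ℝ} {a y : E} (h : DifferentiableAt ℝ F (a, y)) (v : E) :
    fderiv ℝ (fun a => F (a, y)) a v = fderiv ℝ F (a, y) (v, 0) := by
  have e1 : HasFDerivAt (fun a : E => ((a, y) : E × E))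
      ((ContinuousLinearMap.id ℝ E).prod (0 : E →L[ℝ] E)) a :=
    (hasFDerivAt_id a).prodMk (hasFDerivAt_const y a)
  have e2 := h.hasFDerivAt.comp a e1
  have e3 : fderiv ℝ (fun a => F (a, y)) a = _ := e2.fderiv
  rw [e3]; simp

theorem it2 {F : E × E → ℝ} {a y : E} (h : ContDiffAt ℝ 2 F (a, y)) (w : E) :
    iteratedDeriv 2 (fun t : ℝ => F (a + t • w, y)) 0
      = fderiv ℝ (fderiv ℝ F) (a, y) (w, 0) (w, 0) := by
  rw [← iter_line h (w, 0)]
  congr 1
  funext t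
  simp

end EH0X

open EH0X in
theorem eh0 {Y : E → E} {F : E × E → ℝ} {u w : E} (hF : ContDiffAt ℝ 3 F (u, Y u))
    (hY : ContDiffAt ℝ 3 Y u) (hk : fderiv ℝ Y u w = 0)
    (h1 : ∀ᶠ b in 𝓝 u, fderiv ℝ (fun a => F (a, Y b)) b = 0) :
    (∀ᶠ b in 𝓝 u, ContDiffAt ℝ 2 (fun h : ℝ => F (b + h • w, Y b)) 0) ∧
    DifferentiableAt ℝ (fun b => iteratedDeriv 2 (fun h : ℝ => F (b + h • w, Y b)) 0) u ∧
    iteratedDeriv 2 (fun h : ℝ => F (u + h • w, Y u)) 0 = 0 := by
  have hc : Tendsto (fun b : E => ((b, Y b) : E × E)) (𝓝 u) (𝓝 (u, Y u)) :=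
    (continuousAt_id.prodMk hY.continuousAt).tendsto
  have hF2 : ∀ᶠ b in 𝓝 u, ContDiffAt ℝ 2 F (b, Y b) :=
    hc.eventually ((hF.of_le (m := 2) (by norm_num)).eventually (by simp))
  have hD : ContDiffAt ℝ 2 (fderiv ℝ F) (u, Y u) := hF.fderiv_right (by norm_num)
  have hDD : ContDiffAt ℝ 1 (fderiv ℝ (fderiv ℝ F)) (u, Y u) := hD.fderiv_right (by norm_num)
  have hYd : HasFDerivAt (fun b : E => ((b, Y b) : E × E))
      ((ContinuousLinearMap.id ℝ E).prod (fderiv ℝ Y u)) u :=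
    (hasFDerivAt_id u).prodMk (hY.differentiableAt (by norm_num)).hasFDerivAt
  refine ⟨?_, ?_, ?_⟩
  · filter_upwards [hF2] with b hb
    have e1 : ContDiffAt ℝ 2 (fun h : ℝ => ((b + h • w, Y b) : E × E)) 0 := by fun_prop
    have e2 : ContDiffAt ℝ 2 F ((fun h : ℝ => ((b + h • w, Y b) : E × E)) 0) := by
      simpa using hb
    exact e2.comp 0 e1
  · have e1 : (fun b => iteratedDeriv 2 (fun h : ℝ => F (b + h • w, Y b)) 0) =ᶠ[𝓝 u]
        fun b => fderiv ℝ (fderiv ℝ F) (b, Y b) (w, 0) (w, 0) :=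
      hF2.mono fun b hb => it2 hb w
    rw [e1.differentiableAt_iff]
    have e2 : DifferentiableAt ℝ (fun b => fderiv ℝ (fderiv ℝ F) (b, Y b)) u :=
      DifferentiableAt.comp (g := fderiv ℝ (fderiv ℝ F)) u (hDD.differentiableAt (by norm_num))
        hYd.differentiableAt
    exact (e2.clm_apply (differentiableAt_const _)).clm_apply (differentiableAt_const _)
  · rw [it2 hF2.self_of_nhds]
    have e1 : (fun b => fderiv ℝ F (b, Y b) (w, 0)) =ᶠ[𝓝 u] fun _ => 0 := by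
      filter_upwards [hF2, h1] with b hb hb1
      rw [← fd1 (hb.differentiableAt (by norm_num)), hb1]; simp
    have e2 : HasFDerivAt (fun b => fderiv ℝ F (b, Y b)) _ u :=
      HasFDerivAt.comp (g := fderiv ℝ F) u (hD.differentiableAt (by norm_num)).hasFDerivAt hYd
    have e3 := e2.clm_apply (hasFDerivAt_const ((w, 0) : E × E) u)
    have e4 := e3.fderiv
    rw [e1.fderiv_eq] at e4
    have e5 := congrArg (fun L : E →L[ℝ] ℝ => L w) e4
    simpa [hk] using e5.symm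

end Vale.Agent.P234
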