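import Vale.Agent.P234.ExS

open scoped ContDiff Manifold Topology
open Set Filter

noncomputable section

namespace Vale.Agent.P234

open Vale.Agent.P255

variable {E : Type} [NormedAddCommGroup E] [NormedSpace ℝ E] [FiniteDimensional ℝ E]
variable {M : Type} [TopologicalSpace M] [ChartedSpace E M] [IsManifold 𝓘(ℝ, E) ∞ M] [T2Space M]
  [CompactSpace M] [ConnectedSpace M]
variable {g : RMetric E M} {e e' : OpenPartialHomeomorph M E}

namespace GaussX

open RauchX

/-- the pairing of the velocity with the variation field -/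
def kk (g : RMetric E M) (x : M) (b ϖ : E) (e : OpenPartialHomeomorph M E) (t : ℝ) : ℝ :=
  loc g.inner e (zz g x b e t).1 (zz g x b e t).2 (dd g x b ϖ e t).1

variable {x : M} {b ϖ : E} {t : ℝ}

omit [ConnectedSpace M] in
theorem kk_trans (he : e ∈ atlas E M) (he' : e' ∈ atlas E M)
    (hs : (Phi g t (x, b)).1 ∈ e.source) (hs' : (Phi g t (x, b)).1 ∈ e'.source) :
    kk g x b ϖ e' t = kk g x b ϖ e t := by
  have h : zz g x b e' t = tmap (e' ∘ e.symm) (zz g x b e t) := Lam_trans he he' hs hs'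
  rw [kk, dd_trans he he' hs hs', fderiv_tmap (isOpen_trans e e') (contDiffOn_trans he he')
    (mem hs hs'), h]
  exact ((pb_loc g he he').pull _ (mem hs hs') _ _).symm

omit [ConnectedSpace M] in
theorem kk_deriv (he : e ∈ atlas E M) (hs : (Phi g t (x, b)).1 ∈ e.source) :
    HasDerivAt (kk g x b ϖ e) (g.inner x b ϖ) t := by
  have hl := lm_loc g he
  have hz : (zz g x b e t).1 ∈ e.target := e.map_source hs
  have hd := LocX.dAt hl.op hl.sm hz
  obtain ⟨s1, s2, s3, -⟩ := LocX.sol_parts hl hz (sol (η := ϖ) he hs)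
  have hline : HasDerivAt (fun s : ℝ => b + s • ϖ) ϖ 0 := by
    simpa using ((hasDerivAt_id (0 : ℝ)).smul_const ϖ).const_add b
  have hZ : HasDerivAt (fun s : ℝ => Lam e (Phi g t (x, b + s • ϖ))) (dd g x b ϖ e t) 0 :=
    HasFDerivAt.comp_hasDerivAt_of_eq (l := fun v => Lam e (Phi g t (x, v))) 0
      ((cd he hs).differentiableAt (by simp)).hasFDerivAt hline (by simp)
  have h1 := LocX.bil_deriv (H := loc g.inner e) (by rw [zero_smul, add_zero]; exact hd)
    (LocX.d_fst hZ) (LocX.d_snd hZ) (LocX.d_snd hZ)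
  have h2 := LocX.bil_deriv (H := fun _ : E => g.inner x) (differentiableAt_const _) hline
    hline hline
  have h3 := h1.unique (h2.congr_of_eventuallyEq (by
    have h4 : Tendsto (fun s : ℝ => b + s • ϖ) (𝓝 0) (𝓝 b) := by
      simpa using hline.continuousAt.tendsto
    filter_upwards [h4.eventually (ev hs)] with s h
    exact (loc_toChart g.inner he h _ _).trans (Phi_energy g _ t)))
  simp only [zero_smul, add_zero, fderiv_fun_const, Pi.zero_apply, zero_apply, zero_add] at h3
  refine (LocX.bil_deriv hd s1 s2 s3).congr_deriv ?_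
  rw [map_neg, neg_apply, chris_spec hl hz]
  have h4 := hl.symm _ hz (dd g x b ϖ e t).2 (zz g x b e t).2
  have h5 := g.symm x ϖ b
  simp only [zz] at h4 ⊢
  linarith

omit [ConnectedSpace M] in
theorem kk_eq (he : e ∈ atlas E M) (hs : (Phi g t (x, b)).1 ∈ e.source) :
    kk g x b ϖ e t = t * g.inner x b ϖ := by
  let ch : ℝ → OpenPartialHomeomorph M E := fun t => chartAt E (Phi g t (x, b)).1
  have c1 : ∀ t, ch t ∈ atlas E M := fun t => chart_mem_atlas E _
  have c2 : ∀ t, (Phi g t (x, b)).1 ∈ (ch t).source := fun t => mem_chart_source E _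
  have c4 : ∀ t, ∀ᶠ s in 𝓝 t, (Phi g s (x, b)).1 ∈ (ch t).source := fun t =>
    (geoL_Phi g (x, b) t).1.eventually ((ch t).open_source.mem_nhds (c2 t))
  have c0 : ch 0 = chartAt E x := by simp only [ch, Phi_zero]
  have h : ∀ t, HasDerivAt (fun t => kk g x b ϖ (ch t) t - t * g.inner x b ϖ) 0 t := fun t => by
    have h1 := ((kk_deriv (ϖ := ϖ) (c1 t) (c2 t)).congr_of_eventuallyEq
      (f₁ := fun t => kk g x b ϖ (ch t) t) (by
        filter_upwards [c4 t] with s h
        exact kk_trans (c1 t) (c1 s) h (c2 s))).sub ((hasDerivAt_id t).mul_const (g.inner x b ϖ))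
    exact h1.congr_deriv (by simp)
  have h2 := is_const_of_deriv_eq_zero (fun t => (h t).differentiableAt) (fun t => (h t).deriv) t 0
  have h3 : kk g x b ϖ (chartAt E x) 0 = 0 := by rw [kk, dd_zero, map_zero]
  rw [kk_trans he (c1 t) hs (c2 t), c0, h3, zero_mul, sub_zero] at h2
  exact sub_eq_zero.1 h2

end GaussX

theorem gauss (g : RMetric E M) (x : M) (b ϖ : E) (t : ℝ) (he : e ∈ atlas E M)
    (hs : (Phi g t (x, b)).1 ∈ e.source) :
    loc g.inner e (e (Phi g t (x, b)).1) (Lam e (Phi g t (x, b))).2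
      (fderiv ℝ (fun v => e (Phi g t (x, v)).1) b ϖ) = t * g.inner x b ϖ := by
  have h2 : fderiv ℝ (fun v => e (Phi g t (x, v)).1) b ϖ = (RauchX.dd g x b ϖ e t).1 :=
    congrArg (fun L : E →L[ℝ] E => L ϖ)
      (fderiv.fst ((RauchX.cd he hs).differentiableAt (by simp)))
  rw [h2]
  exact GaussX.kk_eq he hs

theorem dex_zero (g : RMetric E M) (he : e ∈ atlas E M) {x : M} (hx : x ∈ e.source) :
    HasFDerivAt (e ∘ ex g x) (toChart e x) 0 := by
  have h0 : ∀ v : E, ex g x ((0 : ℝ) • v) = x := fun v => by rw [ex_smul, Phi_zero]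
  have h1 : HasFDerivAt (e ∘ ex g x) (fderiv ℝ (e ∘ ex g x) 0) 0 :=
    ((ex_sm g he (by rw [← zero_smul ℝ (0 : E), h0]; exact hx)).differentiableAt
      (by simp)).hasFDerivAt
  refine h1.congr_fderiv (ContinuousLinearMap.ext fun v => ?_)
  have h2 : HasDerivAt (fun t : ℝ => t • v) v 0 := by
    simpa using (hasDerivAt_id (0 : ℝ)).smul_const v
  have h3 := h1.comp_hasDerivAt_of_eq 0 h2 (by simp)
  have h4 := LocX.d_fst ((geoL_Phi g (x, v) 0).2 e he (by simpa only [Phi_zero] using hx))
  simp only [Phi_zero] at h4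
  refine h3.unique (h4.congr_of_eventuallyEq (.of_forall fun t => ?_))
  simp only [Function.comp_apply, ex_smul]
  rfl

/-- a kernel vector of the differential of `exp_x` at `u` is orthogonal to `u` -/
theorem ker_orth {x : M} {u w : E}
    (h : fderiv ℝ (chartAt E (ex g x u) ∘ ex g x) u w = 0) : g.inner x u w = 0 := by
  have h1 := gauss g x u w 1 (chart_mem_atlas E (ex g x u)) (mem_chart_source E _)
  rw [one_mul] at h1
  rw [← h1]
  exact (congrArg _ h).trans (map_zero _)

end Vale.Agent.P234
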