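import Vale.Agent.P234.Geo
import Vale.Agent.P234.Gauss

open scoped ContDiff Manifold Topology
open Set Filter

noncomputable section

namespace Vale.Agent.P234

open Vale.Agent.P255

variable {E : Type} [NormedAddCommGroup E] [NormedSpace ℝ E] [FiniteDimensional ℝ E]
variable {M : Type} [TopologicalSpace M] [ChartedSpace E M] [IsManifold 𝓘(ℝ, E) ∞ M] [T2Space M]
  [CompactSpace M] [ConnectedSpace M]
variable {g : RMetric E M} {e e' : OpenPartialHomeomorph M E}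

namespace GRX

theorem dN (g : RMetric E M) (x : M) (a : E) :
    HasFDerivAt (fun ξ => g.inner x ξ ξ) ((2 : ℝ) • g.inner x a) a := by
  have h := (g.inner x).hasFDerivAt.clm_apply (hasFDerivAt_id a)
  refine h.congr_fderiv ?_
  ext v
  simp [g.symm x v a]
  ring

theorem ev_diff {Θ : E → ℝ} {n : WithTop ℕ∞} (hn : n ≠ ∞) (hn1 : n ≠ 0) (hd : ContDiffAt ℝ n Θ 0)
    (ϖ : E) : ∀ᶠ h : ℝ in 𝓝 0, DifferentiableAt ℝ Θ (h • ϖ) := by
  have h1 : Tendsto (fun h : ℝ => h • ϖ) (𝓝 0) (𝓝 0) := by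
    have : Continuous (fun h : ℝ => h • ϖ) := by fun_prop
    simpa using this.tendsto 0
  exact h1.eventually ((hd.eventually hn).mono fun y hy => hy.differentiableAt hn1)

end GRX

theorem gr_h {x : M} {ϖ : E} (hϖ : ϖ ∈ Ib g x) {h : ℝ} (h0 : 0 < h) (h1 : h < 1)
    (hd : DifferentiableAt ℝ (fun ξ => dst g (ex g x ξ) (ex g x ϖ) ^ 2) (h • ϖ)) :
    fderiv ℝ (fun ξ => dst g (ex g x ξ) (ex g x ϖ) ^ 2) (h • ϖ) =
      (-2 * (1 - h)) • g.inner x ϖ := by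
  have h1' : 0 < 1 - h := by linarith
  have hmin : IsLocalMin (fun ξ => h⁻¹ * g.inner x ξ ξ +
      (1 - h)⁻¹ * dst g (ex g x ξ) (ex g x ϖ) ^ 2) (h • ϖ) := by
    refine Eventually.of_forall fun ξ => ?_
    have h2 := Ib_dst hϖ h0.le h1.le le_rfl
    rw [one_smul] at h2
    have h3 := wtri g x (ex g x ξ) (ex g x ϖ) h0 h1'
    have h4 : dst g x (ex g x ξ) ^ 2 ≤ g.inner x ξ ξ := by
      rw [← Real.sq_sqrt (N_nonneg g x ξ)]
      exact pow_le_pow_left₀ (dst_nonneg g _ _) (dst_ex_le g x ξ) 2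
    have h5 : dst g x (ex g x ϖ) ^ 2 = g.inner x ϖ ϖ := hϖ
    have h6 : dst g x (ex g x ξ) ^ 2 / h ≤ g.inner x ξ ξ / h :=
      div_le_div_of_nonneg_right h4 h0.le
    show h⁻¹ * g.inner x (h • ϖ) (h • ϖ) + (1 - h)⁻¹ * dst g (ex g x (h • ϖ)) (ex g x ϖ) ^ 2 ≤
      h⁻¹ * g.inner x ξ ξ + (1 - h)⁻¹ * dst g (ex g x ξ) (ex g x ϖ) ^ 2
    rw [h2, N_smul, mul_pow, Real.sq_sqrt (N_nonneg g x ϖ)]
    rw [h5, add_sub_cancel, div_one] at h3
    have h7 : h⁻¹ * (h ^ 2 * g.inner x ϖ ϖ) + (1 - h)⁻¹ * ((1 - h) ^ 2 * g.inner x ϖ ϖ) =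
        g.inner x ϖ ϖ := by
      field_simp
      ring
    rw [h7, inv_mul_eq_div, inv_mul_eq_div]
    linarith
  have hD := ((GRX.dN g x (h • ϖ)).const_mul h⁻¹).add (hd.hasFDerivAt.const_mul (1 - h)⁻¹)
  have h8 := hmin.hasFDerivAt_eq_zero hD
  ext v
  have h9 := congrArg (fun L : E →L[ℝ] ℝ => L v) h8
  simp only [ContinuousLinearMap.add_apply, ContinuousLinearMap.smul_apply, map_smul, smul_eq_mul,
    ContinuousLinearMap.zero_apply] at h9 ⊢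
  field_simp at h9
  linarith

theorem gr0 {x : M} {ϖ : E} (hϖ : ϖ ∈ Ib g x)
    (hd : ContDiffAt ℝ 1 (fun ξ => dst g (ex g x ξ) (ex g x ϖ) ^ 2) 0) :
    fderiv ℝ (fun ξ => dst g (ex g x ξ) (ex g x ϖ) ^ 2) 0 = (-2 : ℝ) • g.inner x ϖ := by
  have h1 : Tendsto (fun h : ℝ => h • ϖ) (𝓝 0) (𝓝 0) := by
    have : Continuous (fun h : ℝ => h • ϖ) := by fun_prop
    simpa using this.tendsto 0
  have h2 : ContinuousAt (fderiv ℝ (fun ξ => dst g (ex g x ξ) (ex g x ϖ) ^ 2)) 0 :=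
    (hd.fderiv_right (m := 0) (by norm_num)).continuousAt
  have h3 := (h2.tendsto.comp h1).mono_left (nhdsWithin_le_nhds (s := Ioi 0))
  have h4 : Tendsto (fun h : ℝ => (-2 * (1 - h)) • g.inner x ϖ) (𝓝[>] 0)
      (𝓝 ((-2 : ℝ) • g.inner x ϖ)) := by
    have : Continuous (fun h : ℝ => (-2 * (1 - h)) • g.inner x ϖ) := by fun_prop
    simpa using (this.tendsto 0).mono_left (nhdsWithin_le_nhds (s := Ioi 0))
  refine tendsto_nhds_unique_of_eventuallyEq h3 h4 ?_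
  filter_upwards [mem_nhdsWithin_of_mem_nhds (GRX.ev_diff (by norm_num) (by norm_num) hd ϖ),
    Ioo_mem_nhdsGT (zero_lt_one' ℝ)] with h hh hh'
  exact gr_h hϖ hh'.1 hh'.2 hh

theorem gr2 {x : M} {ϖ : E} (hϖ : ϖ ∈ Ib g x)
    (hd : ContDiffAt ℝ 2 (fun ξ => dst g (ex g x ξ) (ex g x ϖ) ^ 2) 0) (ξ : E) :
    fderiv ℝ (fderiv ℝ (fun ξ => dst g (ex g x ξ) (ex g x ϖ) ^ 2)) 0 ϖ ξ =
      2 * g.inner x ϖ ξ := by
  have h2 : DifferentiableAt ℝ (fderiv ℝ (fun ξ => dst g (ex g x ξ) (ex g x ϖ) ^ 2)) 0 :=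
    (hd.fderiv_right (m := 1) (by norm_num)).differentiableAt (by norm_num)
  have h1 : HasDerivAt (fun h : ℝ => h • ϖ) ϖ 0 := by
    simpa using (hasDerivAt_id (0 : ℝ)).smul_const ϖ
  have h3 : HasDerivAt (fun h : ℝ => fderiv ℝ (fun ξ => dst g (ex g x ξ) (ex g x ϖ) ^ 2) (h • ϖ))
      (fderiv ℝ (fderiv ℝ (fun ξ => dst g (ex g x ξ) (ex g x ϖ) ^ 2)) 0 ϖ) 0 :=
    h2.hasFDerivAt.comp_hasDerivAt_of_eq (0 : ℝ) h1 (by simp)
  have h4 := (h3.clm_apply (hasDerivAt_const (0 : ℝ) ξ)).hasDerivWithinAt (s := Ici 0)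
  have h5 : HasDerivWithinAt (fun h : ℝ => (-2 * (1 - h)) * g.inner x ϖ ξ) (2 * g.inner x ϖ ξ)
      (Ici 0) 0 := by
    have := ((((hasDerivAt_id (0 : ℝ)).const_sub 1).const_mul (-2)).mul_const
      (g.inner x ϖ ξ)).hasDerivWithinAt (s := Ici 0)
    simpa using this
  have h0 := gr0 hϖ (hd.of_le (by norm_num))
  have h6 : HasDerivWithinAt (fun h : ℝ => fderiv ℝ (fun ξ => dst g (ex g x ξ) (ex g x ϖ) ^ 2)
      (h • ϖ) ξ) (2 * g.inner x ϖ ξ) (Ici 0) 0 := by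
    refine h5.congr_of_eventuallyEq ?_ (by simp [h0])
    filter_upwards [mem_nhdsWithin_of_mem_nhds (GRX.ev_diff (by norm_num) (by norm_num) hd ϖ),
      Ico_mem_nhdsGE (zero_lt_one' ℝ)] with h hh hh'
    rcases hh'.1.eq_or_lt with h7 | h7
    · subst h7
      simp [h0]
    · rw [gr_h hϖ h7 hh'.2 hh]
      simp
  have h7 := (uniqueDiffWithinAt_Ici (0 : ℝ)).eq_deriv _ h4 h6
  simpa using h7

theorem gr_chart {x : M} {ϖ : E} (hϖ : ϖ ∈ Ib g x) (he : e ∈ atlas E M) (hx : x ∈ e.source)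
    (hd : ContDiffAt ℝ 1 (fun y => dst g (e.symm y) (ex g x ϖ) ^ 2) (e x)) :
    fderiv ℝ (fun y => dst g (e.symm y) (ex g x ϖ) ^ 2) (e x) =
      (-2 : ℝ) • loc g.inner e (e x) (toChart e x ϖ) := by
  have hx0 : ex g x 0 ∈ e.source := by rwa [ex_zero]
  have h0 : (e ∘ ex g x) 0 = e x := by simp [ex_zero]
  have h1 : (fun ξ => dst g (ex g x ξ) (ex g x ϖ) ^ 2) =ᶠ[𝓝 0]
      (fun y => dst g (e.symm y) (ex g x ϖ) ^ 2) ∘ (e ∘ ex g x) := by
    filter_upwards [(ex_cont g x).continuousAt.eventually_mem (e.open_source.mem_nhds hx0)]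
      with ξ hξ
    simp [e.left_inv hξ]
  have h2 : ContDiffAt ℝ 1 (fun ξ => dst g (ex g x ξ) (ex g x ϖ) ^ 2) 0 := by
    refine ContDiffAt.congr_of_eventuallyEq ?_ h1
    exact ContDiffAt.comp 0 (by rwa [h0]) ((ex_sm g he hx0).of_le (by norm_num))
  have h3 := gr0 hϖ h2
  have h4 : HasFDerivAt (fun y => dst g (e.symm y) (ex g x ϖ) ^ 2)
      (fderiv ℝ (fun y => dst g (e.symm y) (ex g x ϖ) ^ 2) (e x)) ((e ∘ ex g x) 0) := by
    rw [h0]; exact (hd.differentiableAt (by norm_num)).hasFDerivAt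
  have h5 := ((h4.comp 0 (dex_zero g he hx)).congr_of_eventuallyEq h1).fderiv
  rw [h3] at h5
  ext a
  have h6 := congrArg (fun L : E →L[ℝ] ℝ => L (ofChart e (e x) a)) h5
  have h7 : toChart e x (ofChart e (e x) a) = a := by
    have := toChart_ofChart he (e.map_source hx) a
    rwa [e.left_inv hx] at this
  have h8 := loc_toChart g.inner he hx ϖ (ofChart e (e x) a)
  simp only [ContinuousLinearMap.smul_apply, ContinuousLinearMap.comp_apply, h7] at h6 h8 ⊢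
  rw [← h6, h8]

end Vale.Agent.P234
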