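import Vale.Agent.P234.SC

open scoped ContDiff Manifold Topology
open Set Filter

noncomputable section

namespace Vale.Agent.P234

open Vale.Agent.P255

variable {E : Type} [NormedAddCommGroup E] [NormedSpace ℝ E] [FiniteDimensional ℝ E]
variable {M : Type} [TopologicalSpace M] [ChartedSpace E M] [IsManifold 𝓘(ℝ, E) ∞ M] [T2Space M]
  [CompactSpace M] [ConnectedSpace M]
variable {g : RMetric E M} {e e' : OpenPartialHomeomorph M E}

/-- smoothness of the exponential map in charts -/
theorem exL_sm (g : RMetric E M) (he : e ∈ atlas E M) (he' : e' ∈ atlas E M) {z : E × E}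
    (hz : z.1 ∈ e.target) (hz' : exL g e z ∈ e'.source) :
    ContinuousAt (exL g e) z ∧ ContDiffAt ℝ 4 (fun z' => e' (exL g e z')) z := by
  have h1 : Sm4 (fun z' : E × E => Lami e z') z :=
    Sm4.of_Lami (z := fun z' : E × E => z') he hz contDiffAt_id
  have h2 := h1.Phi g (τ := fun _ => 1) contDiffAt_const
  exact ⟨h2.1, (h2.2 e' he' hz').fst⟩

theorem ex_cont (g : RMetric E M) (x : M) : Continuous (ex g x) := RauchX.cont g x 1

theorem ex_sm (g : RMetric E M) (he' : e' ∈ atlas E M) {x : M} {v : E}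
    (h : ex g x v ∈ e'.source) : ContDiffAt ℝ 4 (e' ∘ ex g x) v := (ContDiffAt.comp (f := fun v : E => ((1 : ℝ), v)) v ((Phi_smooth4' g x 1 v).2 e' he' h)
    (by fun_prop)).fst

theorem exL_Lam (g : RMetric E M) (he : e ∈ atlas E M) {x : M} (hx : x ∈ e.source) (v : E) :
    exL g e (e x, toChart e x v) = ex g x v := by
  have := Lami_Lam (s := (x, v)) he hx
  rw [exL]
  change ex g (Lami e (Lam e (x, v))).1 (Lami e (Lam e (x, v))).2 = _
  rw [this]

end Vale.Agent.P234
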