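import Vale.Agent.P234.Dst
import Vale.Agent.P234.ExS

open scoped ContDiff Manifold Topology
open Set Filter

noncomputable section

namespace Vale.Agent.P234

open Vale.Agent.P255

variable {E : Type} [NormedAddCommGroup E] [NormedSpace ℝ E] [FiniteDimensional ℝ E]
variable {M : Type} [TopologicalSpace M] [ChartedSpace E M] [IsManifold 𝓘(ℝ, E) ∞ M] [T2Space M]
  [CompactSpace M] [ConnectedSpace M]
variable {g : RMetric E M} {e e' : OpenPartialHomeomorph M E}

namespace GeoX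

theorem cd (g : RMetric E M) (s : M × E) {t : ℝ} (he : e ∈ atlas E M)
    (hs : (Phi g t s).1 ∈ e.source) : ContDiffAt ℝ 4 (fun u => Lam e (Phi g u s)) t :=
  ContDiffAt.comp (f := fun u : ℝ => (u, s.2)) t ((Phi_smooth4' g s.1 t s.2).2 e he hs)
    (by fun_prop)

theorem arc (g : RMetric E M) (s : M × E) (t : ℝ) :
    ContMDiffAt 𝓘(ℝ, ℝ) 𝓘(ℝ, E) 1 (fun u => (Phi g u s).1) t :=
  arc_of_chart (chart_mem_atlas E _) (geoL_Phi g s t).1 (mem_chart_source E _)
    ((cd g s (chart_mem_atlas E _) (mem_chart_source E _)).fst.of_le (by norm_num))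

theorem vel_eq (g : RMetric E M) (s : M × E) (t : ℝ) :
    vel E (fun u => (Phi g u s).1) t = (Phi g t s).2 := by
  have h := LocX.d_fst ((geoL_Phi g s t).2 _ (chart_mem_atlas E _) (mem_chart_source E _))
  refine h.deriv.trans ?_
  simp only [spray, Lam, toChart_self, ContinuousLinearMap.id_apply]

theorem le (g : RMetric E M) (x : M) (v : E) {s t : ℝ} (h : s ≤ t) :
    dst g (ex g x (s • v)) (ex g x (t • v)) ≤ (t - s) * √(g.inner x v v) := by
  have h1 := dst_le (Reach.single (g := g) h fun u _ => arc g (x, v) u)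
  simp only [spd, vel_eq, Phi_energy, intervalIntegral.integral_const, smul_eq_mul] at h1
  rwa [ex_smul, ex_smul]

end GeoX

theorem ex_zero (g : RMetric E M) (x : M) : ex g x 0 = x := by
  rw [← zero_smul ℝ (0 : E), ex_smul, Phi_zero]

theorem ex_Phi (g : RMetric E M) (x : M) (v : E) (s t : ℝ) :
    ex g (Phi g s (x, v)).1 (t • (Phi g s (x, v)).2) = ex g x ((s + t) • v) := by
  rw [ex_smul, ex_smul, add_comm, Phi_add]

theorem dst_ex (g : RMetric E M) (x : M) (v : E) (s t : ℝ) :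
    dst g (ex g x (s • v)) (ex g x (t • v)) ≤ |t - s| * √(g.inner x v v) := by
  rcases le_total s t with h | h
  · rw [abs_of_nonneg (sub_nonneg.2 h)]
    exact GeoX.le g x v h
  · rw [abs_sub_comm, abs_of_nonneg (sub_nonneg.2 h), dst_symm]
    exact GeoX.le g x v h

theorem dst_ex_le (g : RMetric E M) (x : M) (v : E) :
    dst g x (ex g x v) ≤ √(g.inner x v v) := by
  simpa [ex_zero] using GeoX.le g x v zero_le_one

theorem mem_Ib {x : M} {v : E} : v ∈ Ib g x ↔ dst g x (ex g x v) = √(g.inner x v v) :=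
  ⟨fun h => by rw [← show _ = g.inner x v v from h, Real.sqrt_sq (dst_nonneg g _ _)],
    fun h => show _ ^ 2 = _ by rw [h, Real.sq_sqrt (N_nonneg g x v)]⟩

theorem Ib_of_le {x : M} {v : E} (h : g.inner x v v ≤ dst g x (ex g x v) ^ 2) : v ∈ Ib g x :=
  mem_Ib.2 ((dst_ex_le g x v).antisymm (Real.sqrt_le_iff.2 ⟨dst_nonneg g _ _, h⟩))

theorem Ib_dst {x : M} {v : E} (h : v ∈ Ib g x) {s t : ℝ} (h0 : 0 ≤ s) (hst : s ≤ t)
    (h1 : t ≤ 1) : dst g (ex g x (s • v)) (ex g x (t • v)) = (t - s) * √(g.inner x v v) := by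
  refine (GeoX.le g x v hst).antisymm ?_
  have h2 := GeoX.le g x v h0
  have h3 := GeoX.le g x v h1
  have h4 := dst_tri g x (ex g x (s • v)) (ex g x v)
  have h5 := dst_tri g (ex g x (s • v)) (ex g x (t • v)) (ex g x v)
  rw [zero_smul, ex_zero] at h2
  rw [one_smul] at h3
  rw [mem_Ib.1 h] at h4
  linarith

theorem Ib_smul {x : M} {v : E} (h : v ∈ Ib g x) {t : ℝ} (h0 : 0 ≤ t) (h1 : t ≤ 1) :
    t • v ∈ Ib g x := by
  have h2 := Ib_dst h le_rfl h0 h1
  rw [zero_smul, ex_zero, sub_zero] at h2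
  rw [mem_Ib, h2, sqrt_smul, abs_of_nonneg h0]

theorem II_sub {x : M} {v : E} (h : v ∈ II g x) : v ∈ Ib g x := by
  obtain ⟨a, ha, h⟩ := h
  have h0 : 0 < a := one_pos.trans ha
  have := Ib_smul h (inv_pos.2 h0).le (inv_le_one_of_one_le₀ ha.le)
  rwa [inv_smul_smul₀ h0.ne'] at this

theorem II_smul {x : M} {v : E} (h : v ∈ Ib g x) {t : ℝ} (h0 : 0 ≤ t) (h1 : t < 1) :
    t • v ∈ II g x := by
  have h2 : 0 < 1 + t := by linarith
  refine ⟨2 / (1 + t), by rw [lt_div_iff₀ h2]; linarith, ?_⟩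
  rw [smul_smul]
  refine Ib_smul h (by positivity) ?_
  rw [div_mul_eq_mul_div, div_le_one h2]
  linarith

theorem Ib_back {x : M} {v : E} (h : v ∈ Ib g x) :
    -(Phi g 1 (x, v)).2 ∈ Ib g (Phi g 1 (x, v)).1 ∧
      ex g (Phi g 1 (x, v)).1 (-(Phi g 1 (x, v)).2) = x := by
  have h1 := ex_Phi g x v 1 (-1)
  rw [neg_one_smul, add_neg_cancel, zero_smul, ex_zero] at h1
  refine ⟨?_, h1⟩
  change dst g _ _ ^ 2 = _
  rw [h1, dst_symm, map_neg, map_neg, neg_apply, neg_neg, Phi_energy]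
  exact h

theorem isClosed_Ib (g : RMetric E M) (x : M) : IsClosed (Ib g x) :=
  isClosed_eq (((dst_cont g).comp (continuous_const.prodMk (ex_cont g x))).pow 2) (by fun_prop)

theorem Ib_bdd (g : RMetric E M) : ∃ R > 0, ∀ x, ∀ v ∈ Ib g x, g.inner x v v ≤ R ^ 2 := by
  obtain ⟨R, hR, h⟩ := dst_bdd g
  exact ⟨R, hR, fun x v hv => (show _ = _ from hv).symm.trans_le
    (pow_le_pow_left₀ (dst_nonneg g _ _) (h _ _) 2)⟩

end Vale.Agent.P234
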