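import Vale.Agent.P234.LInv
import Vale.Agent.P234.Geo

open scoped ContDiff Manifold Topology
open Set Filter

noncomputable section

namespace Vale.Agent.P234

open Vale.Agent.P255

variable {E : Type} [NormedAddCommGroup E] [NormedSpace ℝ E] [FiniteDimensional ℝ E]
variable {M : Type} [TopologicalSpace M] [ChartedSpace E M] [IsManifold 𝓘(ℝ, E) ∞ M] [T2Space M]
  [CompactSpace M] [ConnectedSpace M]
variable {g : RMetric E M} {e e' : OpenPartialHomeomorph M E}

namespace SMUX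

theorem key (g : RMetric E M) (he : e ∈ atlas E M)
    {Ψ : OpenPartialHomeomorph (E × E) (E × E)} (h : Inv g e e' Ψ) {s : M × E}
    (hs : s.1 ∈ e.source) (hΨ : Lam e s ∈ Ψ.source) (hu : UM g s.1 s.2) :
    ∀ᶠ y : E × E in 𝓝 (e s.1, e' (ex g s.1 s.2)), dst g (e.symm y.1) (e'.symm y.2) ^ 2 =
      loc g.inner e y.1 (Ψ.symm y).2 (Ψ.symm y).2 := by
  have hz : ex g s.1 s.2 ∈ e'.source := by
    have := h.src _ hΨ
    rwa [Lam, exL_Lam g he hs] at this
  by_contra hn
  obtain ⟨y, hy, hy'⟩ := exists_seq_forall_of_frequently (Filter.not_eventually.1 hn)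
  have t1 : Tendsto (fun n => e.symm (y n).1) atTop (𝓝 s.1) := by
    have := (e.continuousAt_symm (e.map_source hs)).tendsto.comp
      ((continuous_fst.tendsto _).comp hy)
    rwa [e.left_inv hs] at this
  have t2 : Tendsto (fun n => e'.symm (y n).2) atTop (𝓝 (ex g s.1 s.2)) := by
    have := (e'.continuousAt_symm (e'.map_source hz)).tendsto.comp
      ((continuous_snd.tendsto _).comp hy)
    rwa [e'.left_inv hz] at this
  have e1 := (t1.prodMk_nhds t2).eventually hu.2.2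
  have e2 : ∀ᶠ n in atTop, (y n).1 ∈ e.target :=
    ((continuous_fst.tendsto _).comp hy).eventually (e.open_target.mem_nhds (e.map_source hs))
  have e3 : ∀ᶠ n in atTop, (y n).2 ∈ e'.target :=
    ((continuous_snd.tendsto _).comp hy).eventually (e'.open_target.mem_nhds (e'.map_source hz))
  obtain ⟨N, hN⟩ := eventually_atTop.1 (e1.and (e2.and e3))
  choose v hv hv' using fun n => (hN (n + N) (Nat.le_add_left _ _)).1
  dsimp only at hv hv'
  obtain ⟨R, -, hR⟩ := Ib_bdd g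
  obtain ⟨s', φ, hφ, hl⟩ := seq_cpt g (u := fun n => (e.symm (y (n + N)).1, v n)) (R := R ^ 2)
    fun n => hR _ _ (hv n)
  have hψ : Tendsto (fun n => φ n + N) atTop atTop :=
    (tendsto_add_atTop_nat N).comp hφ.tendsto_atTop
  have a1 : s'.1 = s.1 := tendsto_nhds_unique ((tendsto_base s').comp hl) (t1.comp hψ)
  have a2 : ex g s'.1 s'.2 = ex g s.1 s.2 := by
    refine tendsto_nhds_unique ((tendsto_ex g s').comp hl) ?_
    refine (t2.comp hψ).congr fun n => ?_
    exact (hv' (φ n)).symm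
  have a3 : s'.2 ∈ Ib g s'.1 := by
    have b1 := (((dst_cont g).tendsto (s'.1, ex g s'.1 s'.2)).comp
      (((tendsto_base s').comp hl).prodMk_nhds ((tendsto_ex g s').comp hl))).pow 2
    exact tendsto_nhds_unique b1 (((tendsto_N g s').comp hl).congr fun n => (hv (φ n)).symm)
  have a4 : s' = s := by
    refine Prod.ext a1 (hu.2.1 _ (a1 ▸ a3) ?_)
    rw [← a2, a1]
  subst a4
  obtain ⟨n, hn⟩ := (((tendsto_nhT he hs).1 hl).2.eventually (Ψ.open_source.mem_nhds hΨ)).exists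
  obtain ⟨-, c2, c3⟩ := hN (φ n + N) (Nat.le_add_left _ _)
  apply hy' (φ n + N)
  have c4 := e.map_target c2
  have c5 : Ψ (Lam e (e.symm (y (φ n + N)).1, v (φ n))) = y (φ n + N) := by
    rw [h.eq _ hn]
    refine Prod.ext (e.right_inv c2) ?_
    change e' (exL g e (e _, toChart e _ _)) = _
    rw [exL_Lam g he c4, hv', e'.right_inv c3]
  have c6 : Ψ.symm (y (φ n + N)) = Lam e (e.symm (y (φ n + N)).1, v (φ n)) := by
    rw [← c5, Ψ.left_inv hn]
    rw [c5]
  have c7 := loc_toChart g.inner he c4 (v (φ n)) (v (φ n))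
  rw [e.right_inv c2] at c7
  rw [c6, ← hv' (φ n)]
  exact (hv (φ n)).trans c7.symm

end SMUX

theorem smu (g : RMetric E M) {s₀ : M × E} (he : e ∈ atlas E M) (he' : e' ∈ atlas E M)
    (hs : s₀.1 ∈ e.source) (hs' : ex g s₀.1 s₀.2 ∈ e'.source)
    (hinj : Function.Injective (fderiv ℝ (e' ∘ ex g s₀.1) s₀.2)) :
    ∃ c : E × E → ℝ, ContDiffAt ℝ 4 c (e s₀.1, e' (ex g s₀.1 s₀.2)) ∧
      ∀ᶠ s in nhT s₀, UM g s.1 s.2 → ∀ᶠ y : E × E in 𝓝 (e s.1, e' (ex g s.1 s.2)),
        dst g (e.symm y.1) (e'.symm y.2) ^ 2 = c y := by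
  obtain ⟨Ψ, hΨ, h0⟩ := linv g he he' hs hs' hinj
  have h1 : Ψ (Lam e s₀) = (e s₀.1, e' (ex g s₀.1 s₀.2)) := by
    rw [hΨ.eq _ h0, Lam, exL_Lam g he hs]
  have h2 : ContDiffAt ℝ 4 Ψ.symm (e s₀.1, e' (ex g s₀.1 s₀.2)) :=
    hΨ.sm'.contDiffAt (Ψ.open_target.mem_nhds (h1 ▸ Ψ.map_source h0))
  have h3 : ContDiffAt ℝ 4 (loc g.inner e) (e s₀.1) :=
    ((lm_loc g he).sm.contDiffAt (e.open_target.mem_nhds (e.map_source hs))).of_le
      (WithTop.coe_le_coe.2 le_top : ((4 : ℕ∞) : WithTop ℕ∞) ≤ ∞)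
  refine ⟨fun y => loc g.inner e y.1 (Ψ.symm y).2 (Ψ.symm y).2, ?_, ?_⟩
  · exact ((ContDiffAt.comp (f := Prod.fst) _ h3 contDiffAt_fst).clm_apply h2.snd).clm_apply h2.snd
  · have t := (tendsto_nhT (u := id) he hs).1 (tendsto_id (x := nhT s₀))
    filter_upwards [t.1.eventually (e.open_source.mem_nhds hs),
      t.2.eventually (Ψ.open_source.mem_nhds h0)] with s a b hu
    exact SMUX.key g he hΨ a b hu

theorem smc {x : M} {u : E} (he : e ∈ atlas E M) (he' : e' ∈ atlas E M)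
    (hs : x ∈ e.source) (hs' : ex g x u ∈ e'.source)
    (hinj : Function.Injective (fderiv ℝ (e' ∘ ex g x) u)) (hu : UM g x u) :
    ContDiffAt ℝ 4 (fun y : E × E => dst g (e.symm y.1) (e'.symm y.2) ^ 2)
      (e x, e' (ex g x u)) := by
  obtain ⟨c, h1, h2⟩ := smu g (s₀ := (x, u)) he he' hs hs' hinj
  exact h1.congr_of_eventuallyEq (nhT_self h2 hu)

theorem sm_ex {x : M} {u : E} (hn : NF g x u) (hu : UM g x u) :
    ContDiffAt ℝ 4 (fun p : E × E => dst g (ex g x p.1) (ex g x p.2) ^ 2) (0, u) := by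
  have he := chart_mem_atlas E x
  have he' := chart_mem_atlas E (ex g x u)
  have hs := mem_chart_source E x
  have hs' := mem_chart_source E (ex g x u)
  have h0 : ex g x 0 ∈ (chartAt E x).source := by rwa [ex_zero]
  have h1 := smc he he' hs hs' hn hu
  have h2 : ContDiffAt ℝ 4 (fun p : E × E => (chartAt E x (ex g x p.1),
      chartAt E (ex g x u) (ex g x p.2))) (0, u) :=
    (ContDiffAt.comp (f := Prod.fst) _ (ex_sm g he h0) contDiffAt_fst).prodMk
      (ContDiffAt.comp (f := Prod.snd) _ (ex_sm g he' hs') contDiffAt_snd)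
  have h3 := ContDiffAt.comp (0, u) (by simpa only [ex_zero] using h1) h2
  refine h3.congr_of_eventuallyEq ?_
  have a : ∀ᶠ p : E × E in 𝓝 (0, u), ex g x p.1 ∈ (chartAt E x).source :=
    ((ex_cont g x).comp continuous_fst).continuousAt.eventually
      ((chartAt E x).open_source.mem_nhds h0)
  have b : ∀ᶠ p : E × E in 𝓝 (0, u), ex g x p.2 ∈ (chartAt E (ex g x u)).source :=
    ((ex_cont g x).comp continuous_snd).continuousAt.eventually
      ((chartAt E (ex g x u)).open_source.mem_nhds hs')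
  filter_upwards [a, b] with p ha hb
  simp only [Function.comp_apply, (chartAt E x).left_inv ha, (chartAt E (ex g x u)).left_inv hb]

end Vale.Agent.P234
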