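import Vale.Agent.P234.Tay

open scoped ContDiff Manifold Topology
open Set Filter

noncomputable section

namespace Vale.Agent.P234

open Vale.Agent.P255

variable {E : Type} [NormedAddCommGroup E] [NormedSpace ℝ E] [FiniteDimensional ℝ E]

variable {P X Y : Type} [NormedAddCommGroup P] [NormedSpace ℝ P] [NormedAddCommGroup X]
  [NormedSpace ℝ X] [NormedAddCommGroup Y] [NormedSpace ℝ Y]

namespace Tay2X

theorem seg {W : Type} [NormedAddCommGroup W] [NormedSpace ℝ W] {G : W → ℝ} {w v : W} {c C : ℝ}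
    (hd : ∀ t ∈ Icc (0 : ℝ) 1, DifferentiableAt ℝ G (w + t • v))
    (hb : ∀ t ∈ Icc (0 : ℝ) 1, |fderiv ℝ G (w + t • v) v - c| ≤ C) :
    |G (w + v) - G w - c| ≤ C := by
  have h1 : ∀ t ∈ Icc (0 : ℝ) 1, HasDerivWithinAt (fun t : ℝ => G (w + t • v) - t * c)
      (fderiv ℝ G (w + t • v) v - c) (Icc 0 1) t := by
    intro t ht
    have e1 : HasDerivAt (fun t : ℝ => w + t • v) v t := by
      simpa using ((hasDerivAt_id t).smul_const v).const_add w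
    have e2 := (hd t ht).hasFDerivAt.comp_hasDerivAt t e1
    have e3 : HasDerivAt (fun t : ℝ => t * c) c t := by
      simpa using (hasDerivAt_id t).mul_const c
    exact (e2.sub e3).hasDerivWithinAt
  have h2 := norm_image_sub_le_of_norm_deriv_le_segment_01' h1
    (fun t ht => by rw [Real.norm_eq_abs]; exact hb t (Ico_subset_Icc_self ht))
  simp only [one_smul, one_mul, zero_smul, add_zero, zero_mul, sub_zero, Real.norm_eq_abs] at h2
  have e : G (w + v) - G w - c = G (w + v) - c - G w := by ring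
  rw [e]; exact h2

theorem fd2 {F : P × X × Y → ℝ} {p : P} {a : X} {b : Y} (h : DifferentiableAt ℝ F (p, a, b))
    (ξ : X) : fderiv ℝ (fun ξ => F (p, ξ, b)) a ξ = fderiv ℝ F (p, a, b) (0, ξ, 0) := by
  have e1 : HasFDerivAt (fun ξ : X => ((p, ξ, b) : P × X × Y))
      ((0 : X →L[ℝ] P).prod ((ContinuousLinearMap.id ℝ X).prod (0 : X →L[ℝ] Y))) a :=
    (hasFDerivAt_const p a).prodMk ((hasFDerivAt_id a).prodMk (hasFDerivAt_const b a))
  have e2 := h.hasFDerivAt.comp a e1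
  have e3 : fderiv ℝ (fun ξ => F (p, ξ, b)) a = _ := e2.fderiv
  rw [e3]; simp

theorem fd3 {F : P × X × Y → ℝ} {p : P} {a : X} {b : Y} (h : DifferentiableAt ℝ F (p, a, b))
    (ζ : Y) : fderiv ℝ (fun ζ => F (p, a, ζ)) b ζ = fderiv ℝ F (p, a, b) (0, 0, ζ) := by
  have e1 : HasFDerivAt (fun ζ : Y => ((p, a, ζ) : P × X × Y))
      ((0 : Y →L[ℝ] P).prod ((0 : Y →L[ℝ] X).prod (ContinuousLinearMap.id ℝ Y))) b :=
    (hasFDerivAt_const p b).prodMk ((hasFDerivAt_const a b).prodMk (hasFDerivAt_id b))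
  have e2 := h.hasFDerivAt.comp b e1
  have e3 : fderiv ℝ (fun ζ => F (p, a, ζ)) b = _ := e2.fderiv
  rw [e3]; simp

theorem mem_b {p p₀ : P} {a a' : X} {b b' : Y} {r : ℝ}
    (h : ((p, a, b) : P × X × Y) ∈ Metric.ball (p₀, 0, 0) r) (ha : ‖a'‖ ≤ ‖a‖) (hb : ‖b'‖ ≤ ‖b‖) :
    ((p, a', b') : P × X × Y) ∈ Metric.ball (p₀, 0, 0) r := by
  simp only [Metric.mem_ball, Prod.dist_eq, max_lt_iff, dist_zero_right] at h ⊢
  exact ⟨h.1, ha.trans_lt h.2.1, hb.trans_lt h.2.2⟩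

theorem nsm {t : ℝ} (ht : t ∈ Icc (0 : ℝ) 1) (a : X) : ‖t • a‖ ≤ ‖a‖ := by
  rw [norm_smul, Real.norm_eq_abs, abs_of_nonneg ht.1]
  exact mul_le_of_le_one_left (norm_nonneg _) ht.2

theorem ev_norm {α V : Type} [TopologicalSpace α] [NormedAddCommGroup V] {f : α → V} {x : α}
    (h : ContinuousAt f x) {ε : ℝ} (hε : 0 < ε) : ∀ᶠ q in 𝓝 x, ‖f q - f x‖ < ε := by
  filter_upwards [Metric.tendsto_nhds.1 h ε hε] with q hq
  rwa [dist_eq_norm] at hq

end Tay2X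

open Tay2X in
theorem tay_par {F : P × X × Y → ℝ} {p₀ : P} (h : ContDiffAt ℝ 2 F (p₀, 0, 0)) :
    ∃ C : ℝ, 0 ≤ C ∧ ∀ᶠ q : P × X × Y in 𝓝 (p₀, 0, 0),
      |F q - F (q.1, q.2.1, 0) - fderiv ℝ (fun ζ => F (q.1, 0, ζ)) 0 q.2.2|
        ≤ C * (‖q.2.1‖ + ‖q.2.2‖) * ‖q.2.2‖ ∧
      |F (q.1, q.2.1, 0) - F (q.1, 0, 0) - fderiv ℝ (fun ξ => F (q.1, ξ, 0)) 0 q.2.1|
        ≤ C * ‖q.2.1‖ ^ 2 := by
  have h1 : ContDiffAt ℝ 1 (fderiv ℝ F) (p₀, 0, 0) := h.fderiv_right (by norm_num)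
  obtain ⟨K, t, ht, hK⟩ := h1.exists_lipschitzOnWith
  have h2 : ∀ᶠ q in 𝓝 ((p₀, 0, 0) : P × X × Y), DifferentiableAt ℝ F q :=
    (h.eventually (by simp)).mono fun q hq => hq.differentiableAt (by norm_num)
  obtain ⟨r, hr, hb⟩ := Metric.mem_nhds_iff.1 (inter_mem ht h2)
  have hL : ∀ w ∈ Metric.ball ((p₀, 0, 0) : P × X × Y) r,
      ∀ w' ∈ Metric.ball ((p₀, 0, 0) : P × X × Y) r, ∀ v,
      |fderiv ℝ F w v - fderiv ℝ F w' v| ≤ K * ‖w - w'‖ * ‖v‖ := by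
    intro w hw w' hw' v
    have e1 := hK.dist_le_mul w (hb hw).1 w' (hb hw').1
    rw [dist_eq_norm, dist_eq_norm] at e1
    have e2 := (fderiv ℝ F w - fderiv ℝ F w').le_opNorm v
    rw [Real.norm_eq_abs, ContinuousLinearMap.sub_apply] at e2
    exact e2.trans (mul_le_mul_of_nonneg_right e1 (norm_nonneg _))
  refine ⟨K, K.2, ?_⟩
  filter_upwards [Metric.ball_mem_nhds _ hr] with ⟨p, ξ, ζ⟩ hq
  have m0 : ((p, 0, 0) : P × X × Y) ∈ Metric.ball (p₀, 0, 0) r := mem_b hq (by simp) (by simp)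
  constructor
  · have hm : ∀ t ∈ Icc (0 : ℝ) 1, ((p, ξ, 0) : P × X × Y) + t • ((0, 0, ζ) : P × X × Y)
        ∈ Metric.ball (p₀, 0, 0) r := by
      intro t ht
      have := mem_b hq (le_refl ‖ξ‖) (nsm ht ζ)
      simpa using this
    have := seg (G := F) (w := (p, ξ, 0)) (v := (0, 0, ζ))
      (c := fderiv ℝ F (p, 0, 0) (0, 0, ζ)) (C := K * (‖ξ‖ + ‖ζ‖) * ‖ζ‖)
      (fun t ht => (hb (hm t ht)).2) (fun t ht => (hL _ (hm t ht) _ m0 _).trans (by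
        have e1 : ‖((p, ξ, 0) : P × X × Y) + t • ((0, 0, ζ) : P × X × Y) - (p, 0, 0)‖
            ≤ ‖ξ‖ + ‖ζ‖ := by
          have := nsm ht ζ
          simp only [Prod.smul_mk, smul_zero, Prod.mk_add_mk, add_zero, zero_add, Prod.mk_sub_mk,
            sub_self, sub_zero, Prod.norm_mk, norm_zero, max_le_iff]
          refine ⟨by positivity, by linarith [norm_nonneg ζ], by linarith [norm_nonneg ξ]⟩
        have e2 : ‖((0, 0, ζ) : P × X × Y)‖ = ‖ζ‖ := by simp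
        rw [e2]
        gcongr))
    simp only [Prod.mk_add_mk, add_zero, zero_add] at this
    rw [fd3 (hb m0).2]
    exact this
  · have hm : ∀ t ∈ Icc (0 : ℝ) 1, ((p, 0, 0) : P × X × Y) + t • ((0, ξ, 0) : P × X × Y)
        ∈ Metric.ball (p₀, 0, 0) r := by
      intro t ht
      have := mem_b (b' := (0 : Y)) hq (nsm ht ξ) (by simp)
      simpa using this
    have := seg (G := F) (w := (p, 0, 0)) (v := (0, ξ, 0))
      (c := fderiv ℝ F (p, 0, 0) (0, ξ, 0)) (C := K * ‖ξ‖ ^ 2)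
      (fun t ht => (hb (hm t ht)).2) (fun t ht => (hL _ (hm t ht) _ m0 _).trans (by
        have e1 : ‖((p, 0, 0) : P × X × Y) + t • ((0, ξ, 0) : P × X × Y) - (p, 0, 0)‖
            ≤ ‖ξ‖ := by
          have := nsm ht ξ
          simpa using this
        have e2 : ‖((0, ξ, 0) : P × X × Y)‖ = ‖ξ‖ := by simp
        rw [e2, sq, ← mul_assoc]
        gcongr))
    simp only [Prod.mk_add_mk, add_zero, zero_add] at this
    rw [fd2 (hb m0).2]
    exact this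

open Tay2X in
theorem tay_lc {F : P × X × X → ℝ} {p₀ : P} (h : ContDiffAt ℝ 2 F (p₀, 0, 0))
    (h0 : ∀ᶠ ξ in 𝓝 (0 : X), F (p₀, ξ, 0) = 0) {ε : ℝ} (hε : 0 < ε) :
    ∀ᶠ q : P × X × X × X in 𝓝 (p₀, 0, 0, 0),
      |F (q.1, q.2.1, q.2.2.1) - F (q.1, q.2.2.2, q.2.2.1)
        - fderiv ℝ (fun ξ => F (q.1, ξ, q.2.2.1)) q.2.2.2 (q.2.1 - q.2.2.2)|
        ≤ ε * ‖q.2.1 - q.2.2.2‖ ^ 2 := by
  have h1 : ContDiffAt ℝ 1 (fderiv ℝ F) (p₀, 0, 0) := h.fderiv_right (by norm_num)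
  have h1' : ContinuousAt (fderiv ℝ (fderiv ℝ F)) (p₀, 0, 0) :=
    (h1.fderiv_right (m := 0) (by norm_num)).continuousAt
  have h2 : ∀ᶠ q in 𝓝 ((p₀, 0, 0) : P × X × X), DifferentiableAt ℝ F q :=
    (h.eventually (by simp)).mono fun q hq => hq.differentiableAt (by norm_num)
  have h3 : ∀ᶠ q in 𝓝 ((p₀, 0, 0) : P × X × X), DifferentiableAt ℝ (fderiv ℝ F) q :=
    (h1.eventually (by simp)).mono fun q hq => hq.differentiableAt (by norm_num)
  have hap : ∀ {w : P × X × X}, DifferentiableAt ℝ (fderiv ℝ F) w → ∀ v v' : P × X × X,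
      DifferentiableAt ℝ (fun w => fderiv ℝ F w v) w ∧
      fderiv ℝ (fun w => fderiv ℝ F w v) w v' = fderiv ℝ (fderiv ℝ F) w v' v := by
    intro w hw v v'
    have e1 := hw.hasFDerivAt.clm_apply (hasFDerivAt_const v w)
    refine ⟨e1.differentiableAt, ?_⟩
    rw [e1.fderiv]; simp
  have hz : ∀ a b : X, fderiv ℝ (fderiv ℝ F) (p₀, 0, 0) (0, a, 0) (0, b, 0) = 0 := by
    intro a b
    have hc : Tendsto (fun ξ : X => ((p₀, ξ, 0) : P × X × X)) (𝓝 0) (𝓝 (p₀, 0, 0)) :=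
      (by fun_prop : Continuous fun ξ : X => ((p₀, ξ, 0) : P × X × X)).tendsto 0
    have e1 : (fun ξ : X => fderiv ℝ F (p₀, ξ, 0) (0, b, 0)) =ᶠ[𝓝 0] fun _ => 0 := by
      filter_upwards [hc.eventually h2, h0.eventually_nhds] with ξ hξ hξ0
      rw [← fd2 hξ]
      have : (fun ξ => F (p₀, ξ, 0)) =ᶠ[𝓝 ξ] fun _ => 0 := hξ0
      rw [this.fderiv_eq]; simp
    have e2 := hap h3.self_of_nhds (0, b, 0) (0, a, 0)
    rw [← e2.2, ← fd2 e2.1, e1.fderiv_eq]; simp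
  have h4 : ∀ᶠ q in 𝓝 ((p₀, 0, 0) : P × X × X),
      ‖fderiv ℝ (fderiv ℝ F) q - fderiv ℝ (fderiv ℝ F) (p₀, 0, 0)‖ < ε :=
    ev_norm (V := (P × X × X) →L[ℝ] (P × X × X) →L[ℝ] ℝ) h1' hε
  obtain ⟨r, hr, hb⟩ := Metric.mem_nhds_iff.1 (h2.and (h3.and h4))
  have hS : ∀ w ∈ Metric.ball ((p₀, 0, 0) : P × X × X) r, ∀ a b : X,
      |fderiv ℝ (fderiv ℝ F) w (0, a, 0) (0, b, 0)| ≤ ε * ‖a‖ * ‖b‖ := by
    intro w hw a b
    have e1 := (hb hw).2.2
    have e2 := (fderiv ℝ (fderiv ℝ F) w - fderiv ℝ (fderiv ℝ F) (p₀, 0, 0)).le_opNorm₂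
      (0, a, 0) (0, b, 0)
    rw [Real.norm_eq_abs, ContinuousLinearMap.sub_apply, ContinuousLinearMap.sub_apply, hz,
      sub_zero] at e2
    have e3 : ‖((0, a, 0) : P × X × X)‖ = ‖a‖ := by simp
    have e4 : ‖((0, b, 0) : P × X × X)‖ = ‖b‖ := by simp
    rw [e3, e4] at e2
    refine e2.trans ?_
    gcongr
  filter_upwards [Metric.ball_mem_nhds _ hr] with ⟨p, ξ, ϖ, β⟩ hq
  simp only [Metric.mem_ball, Prod.dist_eq, max_lt_iff, dist_zero_right] at hq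
  have hm : ∀ t ∈ Icc (0 : ℝ) 1, ((p, β, ϖ) : P × X × X) + t • ((0, ξ - β, 0) : P × X × X)
      ∈ Metric.ball (p₀, 0, 0) r := by
    intro t ht
    have e1 : β + t • (ξ - β) ∈ Metric.ball (0 : X) r :=
      (convex_ball (0 : X) r).add_smul_sub_mem (by simpa using hq.2.2.2) (by simpa using hq.2.1) ht
    simp only [Metric.mem_ball, dist_zero_right] at e1
    simp only [Prod.smul_mk, smul_zero, Prod.mk_add_mk, add_zero, Metric.mem_ball, Prod.dist_eq,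
      max_lt_iff, dist_zero_right]
    exact ⟨hq.1, e1, hq.2.2.1⟩
  have m0 : ((p, β, ϖ) : P × X × X) ∈ Metric.ball (p₀, 0, 0) r := by
    simpa using hm 0 ⟨le_rfl, zero_le_one⟩
  have key := seg (G := F) (w := (p, β, ϖ)) (v := (0, ξ - β, 0))
    (c := fderiv ℝ F (p, β, ϖ) (0, ξ - β, 0)) (C := ε * ‖ξ - β‖ ^ 2)
    (fun t ht => (hb (hm t ht)).1) (fun t ht => by
      have hm' : ∀ s ∈ Icc (0 : ℝ) 1, ((p, β, ϖ) : P × X × X)
          + s • (t • ((0, ξ - β, 0) : P × X × X)) ∈ Metric.ball (p₀, 0, 0) r := by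
        intro s hs
        rw [smul_smul]
        exact hm _ ⟨mul_nonneg hs.1 ht.1, mul_le_one₀ hs.2 ht.1 ht.2⟩
      have := seg (G := fun w => fderiv ℝ F w (0, ξ - β, 0)) (w := (p, β, ϖ))
        (v := t • ((0, ξ - β, 0) : P × X × X)) (c := 0) (C := ε * ‖ξ - β‖ ^ 2)
        (fun s hs => (hap (hb (hm' s hs)).2.1 _ 0).1) (fun s hs => by
          rw [(hap (hb (hm' s hs)).2.1 _ _).2, sub_zero]
          have e1 : t • ((0, ξ - β, 0) : P × X × X) = (0, t • (ξ - β), 0) := by simp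
          have e2 := hS _ (hm' s hs) (t • (ξ - β)) (ξ - β)
          rw [← e1] at e2
          refine e2.trans ?_
          rw [sq, ← mul_assoc]
          have := nsm ht (ξ - β)
          gcongr)
      rwa [sub_zero] at this)
  simp only [Prod.mk_add_mk, add_zero, add_sub_cancel] at key
  rw [fd2 (hb m0).1]
  exact key

end Vale.Agent.P234
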