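import Vale.Agent.P234.Short
import Vale.Agent.P234.SMU
import Vale.Agent.P234.GR
import Vale.Agent.P234.Tay2

open scoped ContDiff Manifold Topology
open Set Filter

noncomputable section

namespace Vale.Agent.P234

open Vale.Agent.P255

variable {E : Type} [NormedAddCommGroup E] [NormedSpace ℝ E] [FiniteDimensional ℝ E]
variable {M : Type} [TopologicalSpace M] [ChartedSpace E M] [IsManifold 𝓘(ℝ, E) ∞ M] [T2Space M]
  [CompactSpace M] [ConnectedSpace M]
variable {g : RMetric E M} {e e' : OpenPartialHomeomorph M E}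

theorem lc_sm (g : RMetric E M) (x : M) :
    ContDiffAt ℝ 2 (fun q : E × E × E => dst g (exL g (chartAt E x) (q.1, q.2.1))
      (exL g (chartAt E x) (q.1, q.2.2)) ^ 2) (chartAt E x x, 0, 0) := by
  have he := chart_mem_atlas E x
  have hx := mem_chart_source E x
  have h0 : exL g (chartAt E x) (chartAt E x x, 0) = x := by
    have := exL_Lam g he hx 0
    rwa [map_zero, ex_zero] at this
  have h1 := smc (g := g) (u := 0) he he hx (by rwa [ex_zero])
    (by rw [(dex_zero g he hx).fderiv, toChart_self]; exact Function.injective_id) (um_zero g x)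
  rw [ex_zero] at h1
  obtain ⟨c1, c2⟩ := exL_sm g he he (z := (chartAt E x x, 0)) (mem_chart_target E x)
    (by rwa [h0])
  have p1 : ContDiffAt ℝ 4 (fun q : E × E × E => (q.1, q.2.1)) (chartAt E x x, 0, 0) := by
    fun_prop
  have p2 : ContDiffAt ℝ 4 (fun q : E × E × E => (q.1, q.2.2)) (chartAt E x x, 0, 0) := by
    fun_prop
  have h2 := (c2.comp (chartAt E x x, (0 : E), (0 : E)) p1).prodMk
    (c2.comp (chartAt E x x, (0 : E), (0 : E)) p2)
  have h3 := ContDiffAt.comp (chartAt E x x, (0 : E), (0 : E))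
    (g := fun y : E × E => dst g ((chartAt E x).symm y.1) ((chartAt E x).symm y.2) ^ 2)
    (by simpa only [Function.comp_apply, h0] using h1) h2
  have hs : ∀ᶠ z in 𝓝 (chartAt E x x, (0 : E)), exL g (chartAt E x) z ∈ (chartAt E x).source :=
    c1 ((chartAt E x).open_source.mem_nhds (by rwa [h0]))
  refine (h3.of_le (by norm_num)).congr_of_eventuallyEq ?_
  filter_upwards [p1.continuousAt.tendsto.eventually hs, p2.continuousAt.tendsto.eventually hs]
    with q hq1 hq2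
  simp only [Function.comp_apply]
  rw [(chartAt E x).left_inv hq1, (chartAt E x).left_inv hq2]

namespace LCX

/-- the defect in the chart `e` -/
def FF (g : RMetric E M) (e : OpenPartialHomeomorph M E) (q : E × E × E) : ℝ :=
  dst g (exL g e (q.1, q.2.1)) (exL g e (q.1, q.2.2)) ^ 2 -
    loc g.inner e q.1 (q.2.2 - q.2.1) (q.2.2 - q.2.1)

lemma FF_eq (he : e ∈ atlas E M) {x : M} (hx : x ∈ e.source) (ξ ϖ : E) :
    FF g e (e x, toChart e x ξ, toChart e x ϖ) =
      dst g (ex g x ξ) (ex g x ϖ) ^ 2 - g.inner x (ϖ - ξ) (ϖ - ξ) := by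
  unfold FF
  simp only
  rw [exL_Lam g he hx, exL_Lam g he hx, ← map_sub, loc_toChart _ he hx]

lemma FF_sm (g : RMetric E M) (x : M) :
    ContDiffAt ℝ 2 (FF g (chartAt E x)) (chartAt E x x, 0, 0) := by
  refine (lc_sm g x).sub ?_
  have h1 : ContDiffAt ℝ 2 (loc g.inner (chartAt E x)) (chartAt E x x) :=
    ((g.smooth _ (chart_mem_atlas E x)).contDiffAt
      ((chartAt E x).open_target.mem_nhds (mem_chart_target E x))).of_le
      (WithTop.coe_le_coe.2 le_top : ((2 : ℕ∞) : WithTop ℕ∞) ≤ _)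
  have h2 : ContDiffAt ℝ 2 (fun q : E × E × E => loc g.inner (chartAt E x) q.1)
      (chartAt E x x, 0, 0) := ContDiffAt.comp (g := loc g.inner (chartAt E x))
        (f := fun q : E × E × E => q.1) (chartAt E x x, (0 : E), (0 : E)) h1 contDiffAt_fst
  have h3 : ContDiffAt ℝ 2 (fun q : E × E × E => q.2.2 - q.2.1) (chartAt E x x, 0, 0) := by
    fun_prop
  exact (h2.clm_apply h3).clm_apply h3

lemma K_der (g : RMetric E M) (x : M) (ϖ β : E) :
    HasFDerivAt (fun ξ => g.inner x (ϖ - ξ) (ϖ - ξ)) ((-2 : ℝ) • g.inner x (ϖ - β)) β := by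
  have h1 : HasFDerivAt (fun ξ : E => ϖ - ξ) (-ContinuousLinearMap.id ℝ E) β :=
    (hasFDerivAt_id β).const_sub ϖ
  have h2 := ((g.inner x).hasFDerivAt.comp β h1).clm_apply h1
  refine h2.congr_fderiv ?_
  ext w
  simp [g.symm x w]
  ring

lemma der_eq (he : e ∈ atlas E M) {x : M} (hx : x ∈ e.source) {β ϖ : E}
    (hF : ContDiffAt ℝ 2 (FF g e) (e x, toChart e x β, toChart e x ϖ)) :
    ContDiffAt ℝ 1 (fun ξ => dst g (ex g x ξ) (ex g x ϖ) ^ 2) β ∧ ∀ w,
      fderiv ℝ (fun a => FF g e (e x, a, toChart e x ϖ)) (toChart e x β) (toChart e x w) =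
        fderiv ℝ (fun ξ => dst g (ex g x ξ) (ex g x ϖ) ^ 2) β w + 2 * g.inner x (ϖ - β) w := by
  have h1 : ContDiffAt ℝ 1 (fun a => FF g e (e x, a, toChart e x ϖ)) (toChart e x β) :=
    ContDiffAt.comp (toChart e x β) (f := fun a : E => (e x, a, toChart e x ϖ))
      (hF.of_le (by norm_num)) (by fun_prop)
  have h2 : ContDiffAt ℝ 1 (fun ξ => FF g e (e x, toChart e x ξ, toChart e x ϖ)) β :=
    ContDiffAt.comp β (f := toChart e x) h1 (toChart e x).contDiff.contDiffAt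
  have h3 := (h1.differentiableAt one_ne_zero).hasFDerivAt.comp β (toChart e x).hasFDerivAt
  have e1 : (fun ξ => dst g (ex g x ξ) (ex g x ϖ) ^ 2) = fun ξ =>
      FF g e (e x, toChart e x ξ, toChart e x ϖ) + g.inner x (ϖ - ξ) (ϖ - ξ) := by
    funext ξ; rw [FF_eq he hx]; ring
  rw [e1]
  refine ⟨h2.add ?_, fun w => ?_⟩
  · have h4 : ContDiffAt ℝ 1 (fun ξ : E => ϖ - ξ) β := by fun_prop
    exact (contDiffAt_const.clm_apply h4).clm_apply h4
  · have h5 := (h3.add (K_der g x ϖ β)).fderiv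
    have h6 : fderiv ℝ (fun ξ => FF g e (e x, toChart e x ξ, toChart e x ϖ) +
      g.inner x (ϖ - ξ) (ϖ - ξ)) β = _ := h5
    rw [h6]
    simp

lemma small {C δ r : ℝ} (hC : 0 < C) (hδ : 0 < δ) (hr0 : 0 < r) (hr : r ≤ δ / (C + 1)) {a : E}
    (h : ‖a‖ ^ 2 ≤ C * r ^ 2) : ‖a‖ < δ := by
  rw [le_div_iff₀ (by positivity)] at hr
  have h1 : (r * (C + 1)) ^ 2 ≤ δ ^ 2 := pow_le_pow_left₀ (by positivity) hr 2
  have h2 : C * r ^ 2 < (r * (C + 1)) ^ 2 := by
    have : 0 < r ^ 2 := by positivity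
    nlinarith [mul_pos this hC, mul_pos this (mul_pos hC hC)]
  exact lt_of_pow_lt_pow_left₀ 2 hδ.le (by linarith)

end LCX

theorem lc (g : RMetric E M) : ∃ r > 0, ∀ x ξ ϖ, g.inner x ξ ξ ≤ r ^ 2 → g.inner x ϖ ϖ ≤ r ^ 2 →
    |dst g (ex g x ξ) (ex g x ϖ) ^ 2 - g.inner x (ϖ - ξ) (ϖ - ξ)| ≤ g.inner x ξ ξ / 2 ∧
    |dst g (ex g x ξ) (ex g x ϖ) ^ 2 - g.inner x (ϖ - ξ) (ϖ - ξ)| ≤
      g.inner x (ϖ - ξ) (ϖ - ξ) / 2 := by
  obtain ⟨r₀, hr₀, hsh⟩ := short g
  refine unifM (fun r r' x hr hrr h ξ ϖ h1 h2 => ?_) fun x₀ => ?_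
  · have := pow_le_pow_left₀ hr.le hrr 2
    exact h ξ ϖ (h1.trans this) (h2.trans this)
  have he := chart_mem_atlas E x₀
  have hx₀ := mem_chart_source E x₀
  obtain ⟨C, hC, hco⟩ := loc_coer g he hx₀
  have hF := LCX.FF_sm g x₀
  have h0 : ∀ᶠ ξ in 𝓝 (0 : E), LCX.FF g (chartAt E x₀) (chartAt E x₀ x₀, ξ, 0) = 0 := by
    filter_upwards [ev_N_le g x₀ (pow_pos hr₀ 2)] with ξ hξ
    have h1 := LCX.FF_eq (g := g) he hx₀ ξ 0
    have h2 : dst g x₀ (ex g x₀ ξ) ^ 2 = g.inner x₀ ξ ξ := (hsh x₀).1 ξ hξ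
    rw [toChart_self] at h1
    simp only [ContinuousLinearMap.id_apply] at h1
    rw [h1, ex_zero, dst_symm, h2]
    simp
  have h1 := tay_lc hF h0 (ε := 1 / (2 * C)) (by positivity)
  have h2 := hF.eventually (by simp)
  generalize chartAt E x₀ = e at *
  obtain ⟨δ₁, hδ₁, h1⟩ := Metric.eventually_nhds_iff.1 h1
  obtain ⟨δ₂, hδ₂, h2⟩ := Metric.eventually_nhds_iff.1 h2
  have hδ := lt_min hδ₁ hδ₂
  have hc := e.continuousAt hx₀
  refine ⟨min r₀ (min δ₁ δ₂ / (C + 1)), by positivity, ?_⟩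
  filter_upwards [e.open_source.mem_nhds hx₀, hc.tendsto.eventually hco,
    hc.tendsto.eventually (Metric.ball_mem_nhds _ hδ)] with x hx hco hxb ξ ϖ hξ hϖ
  have hn : ∀ v, ‖toChart e x v‖ ^ 2 ≤ C * g.inner x v v := fun v => by
    have := (hco.2 (toChart e x v)).2
    rwa [loc_toChart _ he hx] at this
  have hs : ∀ v, g.inner x v v ≤ min r₀ (min δ₁ δ₂ / (C + 1)) ^ 2 →
      dist (toChart e x v) 0 < min δ₁ δ₂ := fun v hv => by
    rw [dist_zero_right]
    exact LCX.small hC hδ (by positivity) (min_le_right _ _) ((hn v).trans (by gcongr))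
  have hI : ϖ ∈ Ib g x :=
    (hsh x).1 ϖ (hϖ.trans (pow_le_pow_left₀ (by positivity) (min_le_left _ _) 2))
  have key : ∀ β, g.inner x β β ≤ min r₀ (min δ₁ δ₂ / (C + 1)) ^ 2 →
      dst g (ex g x β) (ex g x ϖ) ^ 2 = g.inner x (ϖ - β) (ϖ - β) →
      (ContDiffAt ℝ 1 (fun ξ => dst g (ex g x ξ) (ex g x ϖ) ^ 2) β →
        fderiv ℝ (fun ξ => dst g (ex g x ξ) (ex g x ϖ) ^ 2) β = (-2 : ℝ) • g.inner x (ϖ - β)) →
      |dst g (ex g x ξ) (ex g x ϖ) ^ 2 - g.inner x (ϖ - ξ) (ϖ - ξ)| ≤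
        g.inner x (ξ - β) (ξ - β) / 2 := fun β hβ hv hd => by
    have a1 := lt_min_iff.1 (Metric.mem_ball.1 hxb)
    have a2 := lt_min_iff.1 (hs ξ hξ)
    have a3 := lt_min_iff.1 (hs ϖ hϖ)
    have a4 := lt_min_iff.1 (hs β hβ)
    have b1 := h1 (y := (e x, toChart e x ξ, toChart e x ϖ, toChart e x β))
      (max_lt a1.1 (max_lt a2.1 (max_lt a3.1 a4.1)))
    obtain ⟨b2, b3⟩ := LCX.der_eq he hx (h2 (y := (e x, toChart e x β, toChart e x ϖ))
      (max_lt a1.2 (max_lt a4.2 a3.2)))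
    simp only at b1
    rw [← map_sub, b3, hd b2, LCX.FF_eq he hx, LCX.FF_eq he hx, hv, sub_self, sub_zero,
      smul_apply, smul_eq_mul, neg_mul, neg_add_cancel, sub_zero] at b1
    refine b1.trans ?_
    calc _ ≤ 1 / (2 * C) * (C * g.inner x (ξ - β) (ξ - β)) := by gcongr; exact hn _
      _ = _ := by field_simp
  constructor
  · have := key 0 (by rw [map_zero]; exact sq_nonneg _) (by rw [ex_zero, sub_zero]; exact hI)
      (fun hd => by rw [sub_zero]; exact gr0 hI hd)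
    rwa [sub_zero] at this
  · have := key ϖ hϖ (by simp [dst_self]) (fun _ => by
      rw [IsLocalMin.fderiv_eq_zero (Eventually.of_forall fun ξ => by
        simp only [dst_self]; simpa using sq_nonneg _)]
      simp)
    rwa [← neg_sub ϖ ξ, map_neg, map_neg, neg_apply, neg_neg] at this

end Vale.Agent.P234
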