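import Vale.Agent.P234.Cut
import Vale.Agent.P234.LC

open scoped ContDiff Manifold Topology
open Set Filter

noncomputable section

namespace Vale.Agent.P234

open Vale.Agent.P255

variable {E : Type} [NormedAddCommGroup E] [NormedSpace ℝ E] [FiniteDimensional ℝ E]
variable {M : Type} [TopologicalSpace M] [ChartedSpace E M] [IsManifold 𝓘(ℝ, E) ∞ M] [T2Space M]
  [CompactSpace M] [ConnectedSpace M]
variable {g : RMetric E M} {e e' : OpenPartialHomeomorph M E}

theorem kb {x : M} {u w : E} :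
    fderiv ℝ (chartAt E (ex g x u) ∘ ex g x) u w = 0 ↔ Ker g x u w := by
  have he := chart_mem_atlas E (ex g x u)
  have hs := mem_chart_source E (ex g x u)
  have h1 : HasDerivAt (fun σ : ℝ => u + σ • w) w 0 := by
    simpa using ((hasDerivAt_id (0 : ℝ)).smul_const w).const_add u
  have h2 : HasDerivAt (fun σ : ℝ => chartAt E (ex g x u) (ex g x (u + σ • w)))
      (fderiv ℝ (chartAt E (ex g x u) ∘ ex g x) u w) 0 :=
    ((ex_sm g he hs).differentiableAt (by norm_num)).hasFDerivAt.comp_hasDerivAt_of_eq (0 : ℝ) h1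
      (by simp)
  have h3 : Tendsto (fun σ : ℝ => (ex g x (u + σ • w), ex g x u)) (𝓝 0)
      (𝓝 (ex g x u, ex g x u)) := by
    have : Continuous (fun σ : ℝ => (ex g x (u + σ • w), ex g x u)) :=
      ((ex_cont g x).comp (by fun_prop)).prodMk continuous_const
    simpa using this.tendsto 0
  constructor
  · intro h0 ε hε
    obtain ⟨C, hC, hup⟩ := dst_up g he hs
    rw [h0, hasDerivAt_iff_isLittleO] at h2
    filter_upwards [h3.eventually hup, h2.bound (div_pos hε hC)] with σ h4 h5
    simp only [zero_smul, add_zero, sub_zero, smul_zero, Real.norm_eq_abs] at h4 h5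
    calc _ ≤ _ := h4
      _ ≤ C * (ε / C * |σ|) := mul_le_mul_of_nonneg_left h5 hC.le
      _ = ε * |σ| := by field_simp
  · intro hk
    obtain ⟨C, hC, hlow⟩ := dst_low g he hs
    refine h2.unique ?_
    rw [hasDerivAt_iff_isLittleO, Asymptotics.isLittleO_iff]
    intro ε hε
    filter_upwards [h3.eventually hlow, hk _ (div_pos hε hC)] with σ h4 h5
    simp only [zero_smul, add_zero, sub_zero, smul_zero, Real.norm_eq_abs] at h4 ⊢
    calc _ ≤ _ := h4
      _ ≤ C * (ε / C * |σ|) := mul_le_mul_of_nonneg_left h5 hC.le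
      _ = ε * |σ| := by field_simp

theorem nf_iff {x : M} {u : E} : NF g x u ↔ ∀ w, Ker g x u w → w = 0 := by
  rw [NF, injective_iff_map_eq_zero]
  exact forall_congr' fun w => by rw [kb]

theorem nf_short (g : RMetric E M) : ∃ r > 0, ∀ x u, g.inner x u u ≤ r ^ 2 → NF g x u := by
  obtain ⟨r, hr0, hlc⟩ := lc g
  refine ⟨r / 2, by positivity, fun x u hu => nf_iff.2 fun w hw => ?_⟩
  have hlt : g.inner x u u < r ^ 2 := by nlinarith
  have h1 : ∀ᶠ σ : ℝ in 𝓝 0, g.inner x (u + σ • w) (u + σ • w) < r ^ 2 := by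
    have : Continuous (fun σ : ℝ => g.inner x (u + σ • w) (u + σ • w)) := by fun_prop
    refine (this.tendsto 0).eventually (gt_mem_nhds ?_)
    simpa using hlt
  refine N_eq_zero (g := g) (x := x) (le_antisymm ?_ (N_nonneg g x w))
  refine le_of_forall_pos_le_add fun δ hδ => ?_
  have h2 := hw √(δ / 2) (by positivity)
  obtain ⟨σ, ⟨h3, h4⟩, h5⟩ := (((h1.and h2).filter_mono
    (nhdsWithin_le_nhds (s := {0}ᶜ))).and self_mem_nhdsWithin).exists
  have h5' : σ ≠ 0 := h5
  have h6 := (abs_le.1 (hlc x (u + σ • w) u h3.le hlt.le).2).1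
  have h7 : u - (u + σ • w) = (-σ) • w := by simp
  rw [h7, N_smul] at h6
  have h8 := pow_le_pow_left₀ (dst_nonneg g _ _) h4 2
  rw [mul_pow, Real.sq_sqrt (by positivity), sq_abs] at h8
  have h9 : 0 < σ ^ 2 := by positivity
  have h10 : σ ^ 2 * g.inner x w w ≤ σ ^ 2 * δ := by nlinarith
  simpa using le_of_mul_le_mul_left h10 h9

end Vale.Agent.P234
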