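import Vale.Agent.P234.HR
import Vale.Agent.P234.KB
import Vale.Agent.P234.EH0

open scoped ContDiff Manifold Topology
open Set Filter

noncomputable section

namespace Vale.Agent.P234

open Vale.Agent.P255

variable {E : Type} [NormedAddCommGroup E] [NormedSpace ℝ E] [FiniteDimensional ℝ E]
variable {M : Type} [TopologicalSpace M] [ChartedSpace E M] [IsManifold 𝓘(ℝ, E) ∞ M] [T2Space M]
  [CompactSpace M] [ConnectedSpace M]
variable {g : RMetric E M} {e e' : OpenPartialHomeomorph M E}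

namespace EHX

/-- broken energy with the end point read in the chart `e'` -/
def FF (g : RMetric E M) (x : M) (τ : ℝ) (e' : OpenPartialHomeomorph M E) (q : E × E) : ℝ :=
  (1 - τ) * g.inner x q.1 q.1 / 2 + dst g (ex g x ((1 - τ) • q.1)) (e'.symm q.2) ^ 2 / (2 * τ)

lemma mid_sm (he : e ∈ atlas E M) {x : M} {b : E} {t : ℝ} (hb : ex g x (t • b) ∈ e.source) :
    ContDiffAt ℝ 4 (fun a => e (ex g x (t • a))) b ∧
      ∀ᶠ a in 𝓝 b, ex g x (t • a) ∈ e.source := by
  refine ⟨ContDiffAt.comp b (g := e ∘ ex g x) (f := fun a : E => t • a) (ex_sm g he hb)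
    (by fun_prop), ?_⟩
  exact ((ex_cont g x).comp (continuous_const_smul t)).continuousAt (e.open_source.mem_nhds hb)

lemma FF_sm (he : e ∈ atlas E M) {x : M} {b y : E} {τ : ℝ}
    (hb : ex g x ((1 - τ) • b) ∈ e.source)
    (hc : ContDiffAt ℝ 4 (fun y : E × E => dst g (e.symm y.1) (e'.symm y.2) ^ 2)
      (e (ex g x ((1 - τ) • b)), y)) : ContDiffAt ℝ 3 (FF g x τ e') (b, y) := by
  obtain ⟨h1, h2⟩ := mid_sm he hb
  have h3 : ContDiffAt ℝ 4 (fun q : E × E => (e (ex g x ((1 - τ) • q.1)), q.2)) (b, y) :=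
    (ContDiffAt.comp (b, y) (g := fun a => e (ex g x ((1 - τ) • a))) (f := fun q : E × E => q.1)
      h1 contDiffAt_fst).prodMk contDiffAt_snd
  have h4 := ContDiffAt.comp (b, y)
    (g := fun y : E × E => dst g (e.symm y.1) (e'.symm y.2) ^ 2) hc h3
  have h5 : ContDiffAt ℝ 4
      (fun q : E × E => dst g (ex g x ((1 - τ) • q.1)) (e'.symm q.2) ^ 2) (b, y) := by
    refine h4.congr_of_eventuallyEq ?_
    filter_upwards [(continuous_fst.tendsto (b, y)).eventually h2] with q hq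
    simp only [Function.comp_apply]
    rw [e.left_inv hq]
  have h6 : ContDiffAt ℝ 3 (fun q : E × E => g.inner x q.1 q.1) (b, y) :=
    (contDiffAt_const.clm_apply contDiffAt_fst).clm_apply contDiffAt_fst
  exact ((contDiffAt_const.mul h6).div_const 2).add ((h5.of_le (by norm_num)).div_const _)

lemma crit (he : e ∈ atlas E M) {x : M} {b y : E} {τ : ℝ} (h0 : 0 < τ)
    (hb : ex g x ((1 - τ) • b) ∈ e.source) (hy : e'.symm y = ex g x b)
    (hI : τ • (Phi g (1 - τ) (x, b)).2 ∈ Ib g (Phi g (1 - τ) (x, b)).1)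
    (hc : ContDiffAt ℝ 4 (fun y : E × E => dst g (e.symm y.1) (e'.symm y.2) ^ 2)
      (e (ex g x ((1 - τ) • b)), y)) : fderiv ℝ (fun a => FF g x τ e' (a, y)) b = 0 := by
  obtain ⟨h1, h2⟩ := mid_sm he hb
  have e0 : ex g (Phi g (1 - τ) (x, b)).1 (τ • (Phi g (1 - τ) (x, b)).2) = e'.symm y := by
    rw [ex_Phi, sub_add_cancel, one_smul, hy]
  have h3 : ContDiffAt ℝ 1 (fun y' => dst g (e.symm y') (e'.symm y) ^ 2)
      (e (ex g x ((1 - τ) • b))) :=
    ContDiffAt.comp _ (g := fun y : E × E => dst g (e.symm y.1) (e'.symm y.2) ^ 2)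
      (f := fun y' : E => (y', y)) (hc.of_le (by norm_num)) (by fun_prop)
  simp only [ex_smul] at h1 h2 h3 hb
  have h4 := gr_chart hI he hb (by rwa [e0])
  rw [e0] at h4
  have h5 := (h3.differentiableAt one_ne_zero).hasFDerivAt.comp b
    (h1.differentiableAt (by norm_num)).hasFDerivAt
  have h6 := h5.congr_of_eventuallyEq
    (f₁ := fun a => dst g (ex g x ((1 - τ) • a)) (e'.symm y) ^ 2) (by
      filter_upwards [h2] with a ha
      simp only [Function.comp_apply]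
      rw [e.left_inv ha, ex_smul])
  have h7 : HasFDerivAt (𝕜 := ℝ) (fun a => g.inner x a a) _ b :=
    (g.inner x).hasFDerivAt.clm_apply (hasFDerivAt_id b)
  have h8 := ((h7.const_mul (1 - τ)).mul_const (2 : ℝ)⁻¹).add (h6.mul_const (2 * τ)⁻¹)
  have h9 : fderiv ℝ (fun a => FF g x τ e' (a, y)) b = _ := h8.fderiv
  rw [h9]
  ext w
  have hg := gauss g x b w (1 - τ) he hb
  simp only [Lam] at hg
  simp [h4, hg, g.symm x w]
  field_simp
  ring

end EHX

theorem eh (g : RMetric E M) : ∃ r > 0, ∀ x u w τ, 0 < τ → τ < 1 →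
    τ ^ 2 * g.inner x u u ≤ r ^ 2 → Ker g x u w → EHp g x τ u w := by
  obtain ⟨r₁, hr₁, hsh⟩ := short g
  obtain ⟨r₂, hr₂, hnf⟩ := nf_short g
  refine ⟨min r₁ r₂ / 2, by positivity, fun x u w τ h0 h1 hu hk => ?_⟩
  have hm := lt_min hr₁ hr₂
  have hN : ∀ b, g.inner (Phi g (1 - τ) (x, b)).1 (τ • (Phi g (1 - τ) (x, b)).2)
      (τ • (Phi g (1 - τ) (x, b)).2) = τ ^ 2 * g.inner x b b := fun b => by
    rw [N_smul, Phi_energy]
  have q1 : min r₁ r₂ ^ 2 ≤ r₁ ^ 2 := pow_le_pow_left₀ hm.le (min_le_left _ _) 2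
  have q2 : min r₁ r₂ ^ 2 ≤ r₂ ^ 2 := pow_le_pow_left₀ hm.le (min_le_right _ _) 2
  have q3 : 0 < min r₁ r₂ ^ 2 := by positivity
  have e0 : ex g (Phi g (1 - τ) (x, u)).1 (τ • (Phi g (1 - τ) (x, u)).2) = ex g x u := by
    rw [ex_Phi, sub_add_cancel, one_smul]
  have hnf' := hnf _ _ ((hN u).trans_le (by linarith))
  have hum : UM g _ (τ • (Phi g (1 - τ) (x, u)).2) :=
    um_of_II ⟨2, one_lt_two, (hsh _).1 _ (by rw [N_smul, hN]; linarith)⟩
  have hc := smc (chart_mem_atlas E _) (chart_mem_atlas E _) (mem_chart_source E _)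
    (mem_chart_source E _) hnf' hum
  rw [e0, ← ex_smul] at hc
  have hk' := kb.2 hk
  have he := chart_mem_atlas E (ex g x ((1 - τ) • u))
  have hs := mem_chart_source E (ex g x ((1 - τ) • u))
  have he' := chart_mem_atlas E (ex g x u)
  have hs' := mem_chart_source E (ex g x u)
  generalize chartAt E (ex g x ((1 - τ) • u)) = e at hc he hs
  generalize chartAt E (ex g x u) = e' at hc he' hs' hk'
  have hY := ex_sm g he' hs'
  obtain ⟨m1, m2⟩ := EHX.mid_sm he hs
  have ev1 : ∀ᶠ b in 𝓝 u, ex g x b ∈ e'.source :=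
    (ex_cont g x).continuousAt (e'.open_source.mem_nhds hs')
  have ev2 := (m1.continuousAt.prodMk hY.continuousAt).tendsto.eventually
    (hc.eventually (by simp))
  have ev3 : ∀ᶠ b in 𝓝 u, τ ^ 2 * g.inner x b b < r₁ ^ 2 := by
    have : Continuous fun b => τ ^ 2 * g.inner x b b := by fun_prop
    exact this.continuousAt.eventually_lt continuousAt_const (by linarith)
  obtain ⟨a1, a2, a3⟩ := eh0 (Y := e' ∘ ex g x) (F := EHX.FF g x τ e') (w := w)
    (EHX.FF_sm he hs hc) (hY.of_le (by norm_num)) hk' (by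
      filter_upwards [m2, ev1, ev2, ev3] with b b1 b2 b3 b4
      exact EHX.crit he h0 b1 (e'.left_inv b2) ((hsh _).1 _ ((hN b).trans_le b4.le)) b3)
  have key : ∀ b, ex g x b ∈ e'.source → (fun h : ℝ => ff g x τ (b + h • w) b) =
      fun h : ℝ => EHX.FF g x τ e' (b + h • w, (e' ∘ ex g x) b) := fun b hb => by
    funext h
    simp only [ff, EHX.FF, Function.comp_apply]
    rw [e'.left_inv hb]
  refine ⟨?_, a2.congr_of_eventuallyEq ?_, ?_⟩
  · filter_upwards [a1, ev1] with b b1 b2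
    rwa [key b b2]
  · filter_upwards [ev1] with b b2
    rw [HH, key b b2]
  · rw [HH, key u hs', a3]

theorem ff_min {x : M} {τ : ℝ} (h0 : 0 < τ) (h1 : τ < 1) {q : E} (hq : q ∈ Ib g x) :
    ff g x τ q q = g.inner x q q / 2 ∧ ∀ a, g.inner x q q / 2 ≤ ff g x τ a q := by
  have h2 : 0 < 1 - τ := by linarith
  constructor
  · have h := Ib_dst hq h2.le (t := 1) (by linarith) le_rfl
    rw [one_smul] at h
    rw [ff, h, mul_pow, Real.sq_sqrt (N_nonneg g x q)]
    field_simp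
    ring
  · intro a
    have h := wtri g x (ex g x ((1 - τ) • a)) (ex g x q) h2 h0
    have h3 : dst g x (ex g x q) ^ 2 = g.inner x q q := hq
    have h4 := pow_le_pow_left₀ (dst_nonneg g _ _) (dst_ex_le g x ((1 - τ) • a)) 2
    rw [Real.sq_sqrt (N_nonneg g x _), N_smul] at h4
    have h5 : dst g x (ex g x ((1 - τ) • a)) ^ 2 / (1 - τ) ≤ (1 - τ) * g.inner x a a := by
      rw [div_le_iff₀ h2]; linarith
    rw [sub_add_cancel, div_one, h3] at h
    rw [ff, mul_comm 2 τ, ← div_div]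
    linarith

theorem hh_tay {x : M} {τ : ℝ} (h0 : 0 < τ) (h1 : τ < 1) {q w : E} (hq : q ∈ Ib g x)
    (hd : ContDiffAt ℝ 2 (fun h : ℝ => ff g x τ (q + h • w) q) 0) :
    0 ≤ HH g x τ w q ∧ ∀ ε > 0, ∀ᶠ h in 𝓝 (0 : ℝ),
      ff g x τ (q + h • w) q ≤ g.inner x q q / 2 + (HH g x τ w q / 2 + ε) * h ^ 2 := by
  obtain ⟨m1, m2⟩ := ff_min h0 h1 hq
  obtain ⟨a1, a2⟩ := min_second hd (Eventually.of_forall fun t => by
    simp only [zero_smul, add_zero]
    rw [m1]; exact m2 _)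
  refine ⟨a2, fun ε hε => ?_⟩
  filter_upwards [tay1 hd hε] with h hh
  have := (abs_le.1 hh).2
  simp only [zero_smul, add_zero] at this
  rw [a1, m1] at this
  unfold HH
  linarith

end Vale.Agent.P234
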