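import Vale.Agent.P234.Geo

open scoped ContDiff Manifold Topology
open Set Filter

noncomputable section

namespace Vale.Agent.P234

open Vale.Agent.P255

variable {E : Type} [NormedAddCommGroup E] [NormedSpace ℝ E] [FiniteDimensional ℝ E]
variable {M : Type} [TopologicalSpace M] [ChartedSpace E M] [IsManifold 𝓘(ℝ, E) ∞ M] [T2Space M]
  [CompactSpace M] [ConnectedSpace M]
variable {g : RMetric E M} {e e' : OpenPartialHomeomorph M E}

namespace ExpX

theorem geod (g : RMetric E M) (s : M × E) : IsGeod g (fun t => (Phi g t s).1) univ := by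
  refine ⟨fun t _ => (geoL_Phi g s t).1.continuousWithinAt, fun e he t _ ht =>
    ⟨(GeoX.cd g s he ht).fst.of_le (by norm_num), ?_⟩⟩
  have h1 : deriv (e ∘ fun t => (Phi g t s).1) =ᶠ[𝓝 t] fun u => (Lam e (Phi g u s)).2 := by
    filter_upwards [(geoL_Phi g s t).1.eventually (e.open_source.mem_nhds ht)] with u hu
      using (LocX.d_fst ((geoL_Phi g s u).2 e he hu)).deriv
  rw [cov, h1.deriv_eq, h1.eq_of_nhds, (LocX.d_snd ((geoL_Phi g s t).2 e he ht)).deriv]
  exact neg_add_cancel _

theorem geoL {γ : ℝ → M} (h : IsGeod g γ univ) (t : ℝ) :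
    GeoL g (fun t => (γ t, vel E γ t)) t := by
  have hc : Continuous γ := continuousOn_univ.1 h.1
  refine ⟨hc.continuousAt, fun e he ht => ?_⟩
  obtain ⟨h1, h2⟩ := h.2 e he t (mem_univ t) ht
  have h3 : (fun u => Lam e (γ u, vel E γ u)) =ᶠ[𝓝 t] fun u => (e (γ u), deriv (e ∘ γ) u) := by
    filter_upwards [hc.continuousAt.eventually (e.open_source.mem_nhds ht)] with u hu
    rw [(arc_chart (arc_of_chart he hc.continuousAt hu
      ((h.2 e he u (mem_univ u) hu).1.of_le (by norm_num))) he hu).2.2.deriv]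
    rfl
  rw [h3.eq_of_nhds]
  refine ((h1.differentiableAt (by simp)).hasDerivAt.prodMk (((h1.derivWithin (m := 1)
    (by norm_num)).differentiableAt (by simp)).hasDerivAt.congr_deriv ?_)).congr_of_eventuallyEq h3
  exact eq_neg_of_add_eq_zero_left h2

end ExpX

theorem expm_eq (g : RMetric E M) (x : M) (v : E) : expm g x v = ex g x v := by
  obtain ⟨h1, h2, h3⟩ := Classical.epsilon_spec
    (p := fun γ => IsGeod g γ univ ∧ γ 0 = x ∧ vel E γ 0 = v)
    ⟨_, ExpX.geod g (x, v), by rw [Phi_zero], by rw [GeoX.vel_eq, Phi_zero]⟩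
  exact congrArg Prod.fst (GeoL.unique (c' := fun t => Phi g t (x, v)) isOpen_univ
    isPreconnected_univ (fun t _ => ExpX.geoL h1 t) (fun t _ => geoL_Phi g _ t) (mem_univ 0)
    ((Prod.ext h2 h3).trans (Phi_zero g (x, v)).symm) (mem_univ 1))

theorem injDom_eq (g : RMetric E M) (x : M) : injDom g x = II g x := by
  ext v
  refine exists_congr fun a => and_congr_right fun ha => ?_
  rw [expm_eq, mem_Ib, sqrt_smul, abs_of_pos (one_pos.trans ha)]

theorem wm_of (h : WeakMTW g) : WM g := fun x v hv ξ η hξ => by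
  have h1 := h x v (by rwa [injDom_eq]) ξ η hξ
  simp only [mtw, cost, expm_eq] at h1
  simp only [GG]
  linarith

end Vale.Agent.P234
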