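import Vale.Agent.P234.LInv

open scoped ContDiff Manifold Topology
open Set Filter

noncomputable section

namespace Vale.Agent.P234

open Vale.Agent.P255

variable {E : Type} [NormedAddCommGroup E] [NormedSpace ℝ E] [FiniteDimensional ℝ E]
variable {M : Type} [TopologicalSpace M] [ChartedSpace E M] [IsManifold 𝓘(ℝ, E) ∞ M] [T2Space M]
  [CompactSpace M] [ConnectedSpace M]
variable {g : RMetric E M} {e e' : OpenPartialHomeomorph M E}

theorem grad_inv (he : e ∈ atlas E M) (he' : e' ∈ atlas E M)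
    {Ψ : OpenPartialHomeomorph (E × E) (E × E)} (h : Inv g e e' Ψ) {z : E × E}
    (hz : z ∈ Ψ.source) : ∃ p : E,
      loc g.inner e' (Ψ z).2 p p = loc g.inner e z.1 z.2 z.2 ∧
      HasFDerivAt (fun y => loc g.inner e z.1 (Ψ.symm (z.1, y)).2 (Ψ.symm (z.1, y)).2)
        ((2 : ℝ) • loc g.inner e' (Ψ z).2 p) (Ψ z).2 := by
  have hs : (Phi g 1 (e.symm z.1, ofChart e z.1 z.2)).1 ∈ e'.source := h.src z hz
  have h2 : (Ψ z).2 = e' (Phi g 1 (e.symm z.1, ofChart e z.1 z.2)).1 :=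
    congrArg Prod.snd (h.eq z hz)
  have h1 : (z.1, (Ψ z).2) = Ψ z := Prod.ext (congrArg Prod.fst (h.eq z hz)).symm rfl
  refine ⟨(Lam e' (Phi g 1 (e.symm z.1, ofChart e z.1 z.2))).2, ?_, ?_⟩
  · rw [h2]
    exact (loc_toChart g.inner he' hs _ _).trans (Phi_energy g _ 1)
  have hT : Ψ.target ∈ 𝓝 (z.1, (Ψ z).2) := by
    rw [h1]
    exact Ψ.open_target.mem_nhds (Ψ.map_source hz)
  have hJ : DifferentiableAt ℝ (fun y => (Ψ.symm (z.1, y)).2) (Ψ z).2 :=
    (DifferentiableAt.comp (f := fun y => (z.1, y)) (Ψ z).2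
      ((h.sm'.contDiffAt hT).differentiableAt (by simp)) (by fun_prop)).snd
  have hJ0 : (Ψ.symm (z.1, (Ψ z).2)).2 = z.2 := by rw [h1, Ψ.left_inv hz]
  have hE := ((ex_sm g he' (x := e.symm z.1) (v := ofChart e z.1 z.2) hs).differentiableAt
    (by simp)).hasFDerivAt
  have h3 := (hE.comp z.2 (ofChart e z.1).hasFDerivAt)
  rw [← hJ0] at h3
  have h4 := (h3.comp (Ψ z).2 hJ.hasFDerivAt).unique ((hasFDerivAt_id (Ψ z).2).congr_of_eventuallyEq
    (by
      filter_upwards [(continuousAt_const.prodMk continuousAt_id).eventually hT] with y hy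
      have a1 : (z.1, y) = ((Ψ.symm (z.1, y)).1, e' (exL g e (Ψ.symm (z.1, y)))) :=
        (Ψ.right_inv hy).symm.trans (h.eq _ (Ψ.map_target hy))
      obtain ⟨a2, a3⟩ := Prod.mk.inj a1
      refine Eq.trans ?_ a3.symm
      simp only [Function.comp_apply, exL, Lami, ← a2]))
  rw [hJ0] at h4
  have h5 := ((hasFDerivAt_const (loc g.inner e z.1) (Ψ z).2).clm_apply hJ.hasFDerivAt).clm_apply
    hJ.hasFDerivAt
  refine h5.congr_fderiv (ContinuousLinearMap.ext fun β => ?_)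
  have h6 := gauss g (e.symm z.1) (ofChart e z.1 z.2)
    (ofChart e z.1 (fderiv ℝ (fun y => (Ψ.symm (z.1, y)).2) (Ψ z).2 β)) 1 he' hs
  have h7 : fderiv ℝ (fun v => e' (Phi g 1 (e.symm z.1, v)).1) (ofChart e z.1 z.2)
      (ofChart e z.1 (fderiv ℝ (fun y => (Ψ.symm (z.1, y)).2) (Ψ z).2 β)) = β :=
    congrArg (fun L : E →L[ℝ] E => L β) h4
  rw [h7, one_mul, ← h2] at h6
  have h8 := (lm_loc g he).symm _ (h.tg z hz) z.2
    (fderiv ℝ (fun y => (Ψ.symm (z.1, y)).2) (Ψ z).2 β)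
  have h9 : loc g.inner e z.1 z.2 (fderiv ℝ (fun y => (Ψ.symm (z.1, y)).2) (Ψ z).2 β) = _ := h6.symm
  simp [hJ0, ← h8, h9, two_mul]

end Vale.Agent.P234
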