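import Vale.Agent.P234.Cut
import Vale.Agent.P234.Geo

open scoped ContDiff Manifold Topology
open Set Filter

noncomputable section

namespace Vale.Agent.P234

open Vale.Agent.P255

variable {E : Type} [NormedAddCommGroup E] [NormedSpace ℝ E] [FiniteDimensional ℝ E]
variable {M : Type} [TopologicalSpace M] [ChartedSpace E M] [IsManifold 𝓘(ℝ, E) ∞ M] [T2Space M]
  [CompactSpace M] [ConnectedSpace M]
variable {g : RMetric E M} {e e' : OpenPartialHomeomorph M E}

namespace LipX

theorem loc_lip (g : RMetric E M) (s : M × E) : ∃ C, ∀ᶠ s' in nhT s, ∀ᶠ b in 𝓝 s'.2,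
    dst g (ex g s'.1 s'.2) (ex g s'.1 b) ≤ C * √(g.inner s'.1 (b - s'.2) (b - s'.2)) := by
  have he := chart_mem_atlas E s.1
  have hs := mem_chart_source E s.1
  have he' := chart_mem_atlas E (ex g s.1 s.2)
  have hs' := mem_chart_source E (ex g s.1 s.2)
  set e := chartAt E s.1
  set e' := chartAt E (ex g s.1 s.2)
  have e0 : exL g e (Lam e s) = ex g s.1 s.2 := exL_Lam g he hs s.2
  obtain ⟨hc, hd⟩ := exL_sm g he he' (z := Lam e s) (e.map_source hs) (e0 ▸ hs')
  obtain ⟨K, t, ht, hK⟩ := (hd.of_le (m := 1) (by norm_num)).exists_lipschitzOnWith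
  obtain ⟨C₁, hC₁, h1⟩ := dst_up g he' hs'
  obtain ⟨C₂, hC₂, h2⟩ := loc_coer g he hs
  have h3 : ∀ᶠ p : (E × E) × (E × E) in 𝓝 (Lam e s, Lam e s),
      dst g (exL g e p.1) (exL g e p.2) ≤ C₁ * (K * ‖p.1 - p.2‖) := by
    have a1 : Tendsto (fun p : (E × E) × (E × E) => (exL g e p.1, exL g e p.2))
        (𝓝 (Lam e s, Lam e s)) (𝓝 (ex g s.1 s.2, ex g s.1 s.2)) := by
      rw [← e0]
      exact (hc.tendsto.comp (continuous_fst.tendsto (Lam e s, Lam e s))).prodMk_nhds
        (hc.tendsto.comp (continuous_snd.tendsto (Lam e s, Lam e s)))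
    filter_upwards [a1.eventually h1, prod_mem_nhds ht ht] with p b1 b2
    refine b1.trans (mul_le_mul_of_nonneg_left ?_ hC₁.le)
    have := hK.dist_le_mul _ b2.1 _ b2.2
    rwa [dist_eq_norm, dist_eq_norm] at this
  refine ⟨C₁ * (K * √C₂), ev_of_chart he hs ?_⟩
  have h4 : Tendsto (fun z : E × E => (z, z)) (𝓝 (Lam e s)) (𝓝 (Lam e s, Lam e s)) :=
    tendsto_id.prodMk_nhds tendsto_id
  filter_upwards [h4.eventually h3.eventually_nhds,
    (continuousAt_fst (p := Lam e s)).tendsto.eventually h2] with z b1 b2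
  have hz := e.map_target b2.1
  have a1 : Tendsto (fun b : E => (z, (z.1, toChart e (e.symm z.1) b))) (𝓝 (Lami e z).2)
      (𝓝 (z, z)) := by
    have : Continuous fun b : E => (z, (z.1, toChart e (e.symm z.1) b)) := by fun_prop
    have a2 := this.tendsto (Lami e z).2
    rwa [show toChart e (e.symm z.1) (Lami e z).2 = z.2 from toChart_ofChart he b2.1 z.2] at a2
  filter_upwards [a1.eventually b1] with b hb
  have a2 := exL_Lam g he hz b
  rw [e.right_inv b2.1] at a2
  simp only [a2] at hb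
  refine hb.trans ?_
  have a3 : ‖z - (z.1, toChart e (e.symm z.1) b)‖ =
      ‖toChart e (e.symm z.1) (b - (Lami e z).2)‖ := by
    rw [map_sub, show toChart e (e.symm z.1) (Lami e z).2 = z.2 from toChart_ofChart he b2.1 z.2,
      norm_sub_rev, Prod.norm_def]
    simp
  have a4 := (b2.2 (toChart e (e.symm z.1) (b - (Lami e z).2))).2
  have a5 := loc_toChart g.inner he hz (b - (Lami e z).2) (b - (Lami e z).2)
  rw [e.right_inv b2.1] at a5
  rw [a5] at a4
  have a6 := Real.le_sqrt_of_sq_le a4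
  rw [Real.sqrt_mul hC₂.le] at a6
  rw [a3, mul_assoc, mul_assoc]
  gcongr
  exact a6

end LipX

theorem lip (g : RMetric E M) (R : ℝ) : ∃ L > 0, ∀ z a b, g.inner z a a ≤ R ^ 2 →
    g.inner z b b ≤ R ^ 2 → dst g (ex g z a) (ex g z b) ≤ L * √(g.inner z (a - b) (a - b)) := by
  obtain ⟨L, hL, h⟩ := unif g (R := R ^ 2) (P := fun C s => ∀ᶠ b in 𝓝 s.2,
    dst g (ex g s.1 s.2) (ex g s.1 b) ≤ C * √(g.inner s.1 (b - s.2) (b - s.2)))
    (fun C C' s hC h => h.mono fun b hb =>
      hb.trans (mul_le_mul_of_nonneg_right hC (Real.sqrt_nonneg _)))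
    fun s _ => LipX.loc_lip g s
  refine ⟨L, hL, fun z a b ha hb => ?_⟩
  have hl : Continuous fun t : ℝ => b + t • (a - b) := by fun_prop
  have h1 := dini_int (h := fun t => dst g (ex g z (b + t • (a - b))) (ex g z b))
    (k := fun _ => L * √(g.inner z (a - b) (a - b))) zero_le_one
    ((dst_cont g).comp (((ex_cont g z).comp hl).prodMk continuous_const)).continuousOn
    continuousOn_const fun t ht ε hε => by
      have h2 : g.inner z (b + t • (a - b)) (b + t • (a - b)) ≤ R ^ 2 :=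
        (convex_ball g z (R ^ 2)).add_smul_sub_mem hb ha ⟨ht.1, ht.2.le⟩
      filter_upwards [((hl.tendsto t).eventually (h (z, b + t • (a - b)) h2)).filter_mono
        nhdsWithin_le_nhds, self_mem_nhdsWithin] with s h3 (h4 : t < s)
      rw [show b + s • (a - b) - (b + t • (a - b)) = (s - t) • (a - b) by module, sqrt_smul,
        abs_of_pos (sub_pos.2 h4), dst_symm] at h3
      have h5 := dst_tri g (ex g z (b + s • (a - b))) (ex g z (b + t • (a - b))) (ex g z b)
      nlinarith [mul_pos hε (sub_pos.2 h4)]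
  simpa [dst_self] using h1

end Vale.Agent.P234
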