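import Vale.Agent.P234.HR
import Vale.Agent.P234.Lip

open scoped ContDiff Manifold Topology
open Set Filter

noncomputable section

namespace Vale.Agent.P234

open Vale.Agent.P255

variable {E : Type} [NormedAddCommGroup E] [NormedSpace ℝ E] [FiniteDimensional ℝ E]
variable {M : Type} [TopologicalSpace M] [ChartedSpace E M] [IsManifold 𝓘(ℝ, E) ∞ M] [T2Space M]
  [CompactSpace M] [ConnectedSpace M]
variable {g : RMetric E M} {e e' : OpenPartialHomeomorph M E}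

namespace GPX

lemma alg {Dy Na U p Z W DD A B s ρ T C L : ℝ} (hs : 0 < s) (hs1 : s < 1) (hρ : 0 < ρ)
    (hρ1 : ρ < 1) (hT : T = 1 - s + ρ * s) (hC : 4 * C * ρ ≤ T) (hL : 0 < L) (hZ : 0 ≤ Z)
    (h1 : Dy ≤ A / (s * (1 - ρ)) + B / T) (h2 : A ≤ (1 - ρ) ^ 2 * Na)
    (h3 : B ≤ T ^ 2 * U - 2 * (T * p) + C * Z)
    (h4 : (ρ * s) ^ 2 * U - 2 * (ρ * s * p) + Z / 2 ≤ ρ ^ 2 * Na)
    (h5 : ρ ^ 2 * W / 2 ≤ Z) (h6 : DD ≤ L ^ 2 * W) :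
    Dy / 2 ≤ Na / (2 * s) + (1 - s) * U / 2 - ρ / (16 * L ^ 2) * DD := by
  have hρ' : 0 < 1 - ρ := by linarith
  have hT0 : 0 < T := by rw [hT]; nlinarith
  have a1 : A / (s * (1 - ρ)) ≤ (1 - ρ) * (Na / s) := by
    rw [div_le_iff₀ (by positivity)]
    calc A ≤ _ := h2
      _ = _ := by field_simp
  have a2 : C * Z / T ≤ Z / ρ / 4 := by
    rw [div_le_iff₀ hT0]
    have : Z / ρ / 4 * (4 * C * ρ) ≤ Z / ρ / 4 * T := by gcongr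
    calc C * Z = Z / ρ / 4 * (4 * C * ρ) := by field_simp
      _ ≤ _ := this
  have a3 : B / T ≤ T * U - 2 * p + C * Z / T := by
    rw [div_le_iff₀ hT0]
    calc B ≤ _ := h3
      _ = _ := by field_simp
  have a4 : ρ * s * U - 2 * p + Z / (ρ * s) / 2 ≤ ρ * (Na / s) := by
    have hp : 0 < ρ * s := by positivity
    refine le_of_mul_le_mul_left ?_ hp
    calc _ = (ρ * s) ^ 2 * U - 2 * (ρ * s * p) + Z / 2 := by field_simp
      _ ≤ _ := h4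
      _ = _ := by field_simp
  have a5 : Z / ρ ≤ Z / (ρ * s) := by
    refine div_le_div_of_nonneg_left hZ (by positivity) ?_
    nlinarith
  have a6 : ρ * W / 2 ≤ Z / ρ := by
    rw [le_div_iff₀ hρ]
    calc _ = ρ ^ 2 * W / 2 := by ring
      _ ≤ _ := h5
  have a7 : ρ / (16 * L ^ 2) * DD ≤ ρ * W / 16 := by
    calc _ ≤ ρ / (16 * L ^ 2) * (L ^ 2 * W) := by gcongr
      _ = _ := by field_simp
  have a8 : Na / (2 * s) = Na / s / 2 := by field_simp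
  rw [a8]
  have a9 : T * U = (1 - s) * U + ρ * s * U := by rw [hT]; ring
  linarith

lemma sq_of {p : M} {w : E} {c : ℝ} (h : √(g.inner p w w) ≤ c) : g.inner p w w ≤ c ^ 2 := by
  rw [← Real.sq_sqrt (N_nonneg g p w)]
  exact pow_le_pow_left₀ (Real.sqrt_nonneg _) h 2

lemma sizes {r R R₀ ρ s U : ℝ} (hbd : ∀ x y, dst g x y ≤ R₀) (hR₀ : 0 < R₀) (hρ : 0 < ρ)
    (hρ3 : ρ * (|R| + R₀) ≤ r) (hs : 0 < s) (hs1 : s < 1) (hu : U ≤ R ^ 2)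
    {x' z z₀ : M} {v v' a ζ : E} (Nv : g.inner z v v = U) (Nv' : g.inner z₀ v' v' = U)
    (e1 : ex g z (ρ • (-s) • v) = z₀) (Na : g.inner z a a = dst g x' z ^ 2)
    (NZ : g.inner z₀ ζ ζ = dst g z₀ (ex g z (ρ • a)) ^ 2) :
    g.inner z₀ ζ ζ ≤ r ^ 2 ∧ g.inner z₀ ((ρ * s) • v') ((ρ * s) • v') ≤ r ^ 2 ∧
      g.inner z (ρ • (-s) • v) (ρ • (-s) • v) ≤ r ^ 2 ∧ g.inner z (ρ • a) (ρ • a) ≤ r ^ 2 ∧
      g.inner z a a ≤ (|R| + R₀) ^ 2 ∧ g.inner z ((-s) • v) ((-s) • v) ≤ (|R| + R₀) ^ 2 := by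
  have hUR : √U ≤ |R| := by rw [← Real.sqrt_sq_eq_abs]; exact Real.sqrt_le_sqrt hu
  have Na' : √(g.inner z a a) ≤ R₀ := by
    rw [Na, Real.sqrt_sq (dst_nonneg g _ _)]; exact hbd _ _
  have b0 : √(g.inner z ((-s) • v) ((-s) • v)) ≤ |R| := by
    rw [sqrt_smul, Nv, abs_neg, abs_of_pos hs]
    exact (mul_le_of_le_one_left (Real.sqrt_nonneg U) hs1.le).trans hUR
  have b1 : √(g.inner z (ρ • (-s) • v) (ρ • (-s) • v)) ≤ ρ * |R| := by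
    rw [sqrt_smul, abs_of_pos hρ]; gcongr
  have b2 : √(g.inner z (ρ • a) (ρ • a)) ≤ ρ * R₀ := by
    rw [sqrt_smul, abs_of_pos hρ]; gcongr
  have hR' : 0 ≤ ρ * |R| := by positivity
  have hR'' : 0 ≤ ρ * R₀ := by positivity
  have hQ' : ρ * |R| + ρ * R₀ ≤ r := by rw [← mul_add]; exact hρ3
  refine ⟨?_, sq_of ?_, sq_of (by linarith), sq_of (by linarith),
    sq_of (by linarith [abs_nonneg R]), sq_of (by linarith)⟩
  · rw [NZ]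
    refine pow_le_pow_left₀ (dst_nonneg g _ _) ?_ 2
    have h1 := dst_tri g z₀ z (ex g z (ρ • a))
    have h2 := dst_ex_le g z (ρ • (-s) • v)
    rw [e1, dst_symm] at h2
    have h3 := dst_ex_le g z (ρ • a)
    linarith
  · rw [sqrt_smul, Nv', abs_of_pos (by positivity)]
    have : ρ * s * √U ≤ ρ * 1 * |R| := by gcongr
    linarith

lemma core {r R R₀ C L ρ s U : ℝ}
    (hlc : ∀ x ξ ϖ, g.inner x ξ ξ ≤ r ^ 2 → g.inner x ϖ ϖ ≤ r ^ 2 →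
      |dst g (ex g x ξ) (ex g x ϖ) ^ 2 - g.inner x (ϖ - ξ) (ϖ - ξ)| ≤ g.inner x ξ ξ / 2 ∧
      |dst g (ex g x ξ) (ex g x ϖ) ^ 2 - g.inner x (ϖ - ξ) (ϖ - ξ)| ≤
        g.inner x (ϖ - ξ) (ϖ - ξ) / 2)
    (hbd : ∀ x y, dst g x y ≤ R₀) (hR₀ : 0 < R₀)
    (hup : ∀ z a ζ, g.inner z a a ≤ R ^ 2 → dst g (ex g z ζ) (ex g z a) ^ 2 ≤
      g.inner z a a - 2 * g.inner z a ζ + C * g.inner z ζ ζ) (hL : 0 < L)
    (hlip : ∀ z a b, g.inner z a a ≤ (|R| + R₀) ^ 2 → g.inner z b b ≤ (|R| + R₀) ^ 2 →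
      dst g (ex g z a) (ex g z b) ≤ L * √(g.inner z (a - b) (a - b)))
    (hρ : 0 < ρ) (hρ1 : ρ < 1) (hρ2 : 4 * C * ρ ≤ 1 - s + ρ * s)
    (hρ3 : ρ * (|R| + R₀) ≤ r) (hs : 0 < s) (hs1 : s < 1) (hu : U ≤ R ^ 2)
    {x y z z₀ : M} {v v' : E} (Nv : g.inner z v v = U) (Nv' : g.inner z₀ v' v' = U)
    (e0 : ex g z ((-s) • v) = x) (e1 : ex g z (ρ • (-s) • v) = z₀)
    (e2 : ex g z₀ ((ρ * s) • v') = z) (e3 : ex g z₀ ((1 - s + ρ * s) • v') = y) (x' : M) :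
    dst g x' y ^ 2 / 2 ≤ dst g x' z ^ 2 / (2 * s) + (1 - s) * U / 2
      - ρ / (16 * L ^ 2) * dst g x x' ^ 2 := by
  obtain ⟨a, ha, hax⟩ := hr g z x'
  obtain ⟨ζ, hζ, hζx⟩ := hr g z₀ (ex g z (ρ • a))
  have Na : g.inner z a a = dst g x' z ^ 2 := by
    have h : dst g z (ex g z a) ^ 2 = g.inner z a a := ha
    rw [← h, hax, dst_symm]
  have NZ : g.inner z₀ ζ ζ = dst g z₀ (ex g z (ρ • a)) ^ 2 := by
    have h : dst g z₀ (ex g z₀ ζ) ^ 2 = g.inner z₀ ζ ζ := hζ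
    rw [← h, hζx]
  obtain ⟨b3, b4, b6, b7, b8, b9⟩ := sizes hbd hR₀ hρ hρ3 hs hs1 hu Nv Nv' e1 Na NZ
  have d1 : dst g z (ex g z (ρ • a)) ≤ ρ * √(g.inner z a a) := by
    have := dst_ex_le g z (ρ • a)
    rwa [sqrt_smul, abs_of_pos hρ] at this
  have hp : 0 < ρ * s := mul_pos hρ hs
  have hp' : ρ * s ≤ s := mul_le_of_le_one_left hs.le hρ1.le
  have hT0 : 0 < 1 - s + ρ * s := by linarith
  have hT1 : 1 - s + ρ * s ≤ 1 := by linarith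
  have b5 : g.inner z₀ ((1 - s + ρ * s) • v') ((1 - s + ρ * s) • v') ≤ R ^ 2 := by
    rw [N_smul]
    refine (mul_le_of_le_one_left (N_nonneg g _ _) (pow_le_one₀ hT0.le hT1)).trans ?_
    rwa [Nv']
  have h1 := wtri g x' (ex g z (ρ • a)) y (s := s * (1 - ρ)) (t := 1 - s + ρ * s)
    (mul_pos hs (by linarith)) hT0
  rw [show s * (1 - ρ) + (1 - s + ρ * s) = 1 by ring, div_one] at h1
  have h2 : dst g x' (ex g z (ρ • a)) ^ 2 ≤ (1 - ρ) ^ 2 * g.inner z a a := by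
    have h := dst_ex g z a 1 ρ
    rw [one_smul, hax, abs_sub_comm, abs_of_pos (by linarith)] at h
    rw [← Real.sq_sqrt (N_nonneg g z a), ← mul_pow]
    exact pow_le_pow_left₀ (dst_nonneg g _ _) h 2
  have h3 := hup z₀ _ ζ b5
  rw [hζx, e3, N_smul, Nv', map_smul, smul_apply, smul_eq_mul] at h3
  have h4 : (ρ * s) ^ 2 * U - 2 * (ρ * s * g.inner z₀ v' ζ) + g.inner z₀ ζ ζ / 2 ≤
      ρ ^ 2 * g.inner z a a := by
    have h := (abs_le.1 (hlc z₀ ζ _ b3 b4).1).1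
    rw [hζx, e2, N_sub, N_smul, Nv', map_smul, smul_apply, smul_eq_mul, dst_symm] at h
    have h' := pow_le_pow_left₀ (dst_nonneg g _ _) d1 2
    rw [mul_pow, Real.sq_sqrt (N_nonneg g z a)] at h'
    linarith
  have h5 : ρ ^ 2 * g.inner z (a - (-s) • v) (a - (-s) • v) / 2 ≤ g.inner z₀ ζ ζ := by
    have h := (abs_le.1 (hlc z (ρ • (-s) • v) (ρ • a) b6 b7).2).1
    rw [e1, ← smul_sub, N_smul, ← NZ] at h
    linarith
  have h6 : dst g x x' ^ 2 ≤ L ^ 2 * g.inner z (a - (-s) • v) (a - (-s) • v) := by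
    have h := hlip z a ((-s) • v) b8 b9
    rw [hax, e0, dst_symm] at h
    rw [← Real.sq_sqrt (N_nonneg g z (a - (-s) • v)), ← mul_pow]
    exact pow_le_pow_left₀ (dst_nonneg g _ _) h 2
  have := alg hs hs1 hρ hρ1 rfl hρ2 hL (N_nonneg g z₀ ζ) h1 h2 h3 h4 h5 h6
  rwa [Na] at this

end GPX

/-- quadratic gap -/
theorem gp (g : RMetric E M) (R : ℝ) {t₀ : ℝ} (ht : t₀ < 1) : ∃ δ > 0, ∀ x u,
    g.inner x u u ≤ R ^ 2 → ∀ s, 0 < s → s ≤ t₀ → ∀ x',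
      dst g x' (ex g x u) ^ 2 / 2 ≤ dst g x' (ex g x (s • u)) ^ 2 / (2 * s)
        + (1 - s) * g.inner x u u / 2 - δ * dst g x x' ^ 2 := by
  obtain ⟨r, hr0, hlc⟩ := lc g
  obtain ⟨R₀, hR₀, hbd⟩ := dst_bdd g
  obtain ⟨C, hC, hup⟩ := up g R
  have hQ0 : 0 < |R| + R₀ := by positivity
  obtain ⟨L, hL, hlip⟩ := lip g (|R| + R₀)
  have ht' : 0 < 1 - t₀ := by linarith
  obtain ⟨ρ, hρ, hρ1, hρ2, hρ3⟩ : ∃ ρ : ℝ, 0 < ρ ∧ ρ < 1 ∧ ρ * (4 * C) ≤ 1 - t₀ ∧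
      ρ * (|R| + R₀) ≤ r :=
    ⟨min (1 / 2) (min ((1 - t₀) / (4 * C)) (r / (|R| + R₀))), by positivity,
      (min_le_left _ _).trans_lt (by norm_num),
      (le_div_iff₀ (by positivity)).1 ((min_le_right _ _).trans (min_le_left _ _)),
      (le_div_iff₀ hQ0).1 ((min_le_right _ _).trans (min_le_right _ _))⟩
  refine ⟨ρ / (16 * L ^ 2), by positivity, fun x u hu s hs hst x' => ?_⟩
  have hp := mul_pos hρ hs
  rw [ex_smul]
  refine GPX.core hlc hbd hR₀ hup hL hlip hρ hρ1 (by linarith) hρ3 hs (hst.trans_lt ht) hu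
    (z₀ := (Phi g (s - ρ * s) (x, u)).1) (v := (Phi g s (x, u)).2)
    (v' := (Phi g (s - ρ * s) (x, u)).2) (Phi_energy g (x, u) s) (Phi_energy g (x, u) _)
    ?_ ?_ ?_ ?_ x'
  · rw [ex_Phi, add_neg_cancel, zero_smul, ex_zero]
  · rw [smul_smul, ex_Phi, ← ex_smul]; congr 2; ring
  · rw [ex_Phi, sub_add_cancel, ex_smul]
  · rw [ex_Phi, show s - ρ * s + (1 - s + ρ * s) = 1 by ring, one_smul]

end Vale.Agent.P234
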