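import Vale.Agent.P234.Geo

open scoped ContDiff Manifold Topology
open Set Filter

noncomputable section

namespace Vale.Agent.P234

open Vale.Agent.P255

variable {E : Type} [NormedAddCommGroup E] [NormedSpace ℝ E] [FiniteDimensional ℝ E]
variable {M : Type} [TopologicalSpace M] [ChartedSpace E M] [IsManifold 𝓘(ℝ, E) ∞ M] [T2Space M]
  [CompactSpace M] [ConnectedSpace M]
variable {g : RMetric E M} {e e' : OpenPartialHomeomorph M E}

variable {a : Bool → ℝ} {y : Bool → M}


namespace H1X

theorem ex_cont (g : RMetric E M) (x : M) : Continuous (ex g x) :=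
  continuous_iff_continuousAt.2 fun v => (tendsto_ex g (x, v)).comp (tendsto_fiber x v)

theorem dst_cont' {α : Type*} [TopologicalSpace α] (g : RMetric E M) {p q : α → M}
    (hp : Continuous p) (hq : Continuous q) : Continuous fun t => dst g (p t) (q t) :=
  (dst_cont g).comp (hp.prodMk hq)

theorem dst_sq {x : M} {v : E} {s t : ℝ} (hst : s < t) :
    dst g (ex g x (s • v)) (ex g x (t • v)) ^ 2 / (t - s) ≤ (t - s) * g.inner x v v := by
  have h := pow_le_pow_left₀ (dst_nonneg g _ _) (dst_ex g x v s t) 2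
  rw [mul_pow, sq_abs, Real.sq_sqrt (N_nonneg g x v)] at h
  rw [div_le_iff₀ (sub_pos.2 hst)]
  linarith

end H1X
open H1X

theorem phi_ge (i : Bool) (x : M) : a i - dst g x (y i) ^ 2 / 2 ≤ phi g a y x := by
  cases i
  exacts [le_max_left _ _, le_max_right _ _]

theorem phi_eq (x : M) : ∃ i, phi g a y x = a i - dst g x (y i) ^ 2 / 2 :=
  (max_choice _ _).elim (fun h => ⟨false, h⟩) fun h => ⟨true, h⟩

theorem phi_cont : Continuous (phi g a y) :=
  (continuous_const.sub (((dst_cont' g continuous_id continuous_const).pow 2).div_const 2)).max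
    (continuous_const.sub (((dst_cont' g continuous_id continuous_const).pow 2).div_const 2))

theorem VV_cpt (x : M) : IsCompact (VV g a y x) := by
  obtain ⟨R, -, hR⟩ := Ib_bdd g
  refine (cpt_ball g x (R ^ 2)).of_isClosed_subset ((isClosed_Ib g x).inter ?_)
    fun v hv => hR x v hv.1
  have := isClosed_iUnion_of_finite fun i : Bool =>
    (isClosed_eq (ex_cont g x) (continuous_const (y := y i))).inter
      (isClosed_const (p := phi g a y x = a i - dst g x (y i) ^ 2 / 2))
  rwa [show (⋃ i : Bool, {v | ex g x v = y i} ∩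
    {_v : E | phi g a y x = a i - dst g x (y i) ^ 2 / 2}) = _ from Set.ext fun v => mem_iUnion]
    at this

theorem DD_bdd (g : RMetric E M) : ∃ R > 0, ∀ (a : Bool → ℝ) (y : Bool → M) (x : M),
    ∀ v ∈ DD g a y x, g.inner x v v ≤ R ^ 2 := by
  obtain ⟨R, R0, hR⟩ := Ib_bdd g
  exact ⟨R, R0, fun a y x => convexHull_min (fun v hv => hR x v hv.1) (convex_ball g x _)⟩

theorem PP.mono {s t : ℝ} (h : PP g a y t) (h0 : 0 < s) (hst : s ≤ t) : PP g a y s := by
  rcases hst.eq_or_lt with rfl | hst
  · exact h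
  intro x v hv x'
  have h1 := h x v hv x'
  have h2 := wtri g x' (ex g x (s • v)) (ex g x (t • v)) h0 (sub_pos.2 hst)
  have h3 := dst_sq (g := g) (x := x) (v := v) hst
  rw [add_sub_cancel] at h2
  rw [mul_comm 2, ← div_div] at h1 ⊢
  linarith

theorem PP.closed {t : ℝ} (h0 : 0 < t) (h : ∀ s, 0 < s → s < t → PP g a y s) : PP g a y t := by
  intro x v hv x'
  have h1 : ContinuousAt (fun s : ℝ => phi g a y x + s * g.inner x v v / 2) t := by fun_prop
  have h2 : ContinuousAt
      (fun s : ℝ => phi g a y x' + dst g x' (ex g x (s • v)) ^ 2 / (2 * s)) t :=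
    continuousAt_const.add ((((dst_cont' g continuous_const ((ex_cont g x).comp
      (continuous_id.smul continuous_const))).pow 2).continuousAt).div (by fun_prop) (by positivity))
  refine le_of_tendsto_of_tendsto (h1.tendsto.mono_left (nhdsWithin_le_nhds (s := Iio t)))
    (h2.tendsto.mono_left nhdsWithin_le_nhds) ?_
  filter_upwards [Ioo_mem_nhdsLT h0] with s hs using h s hs.1 hs.2 x v hv x'

theorem PP.Ib {t : ℝ} (h : PP g a y t) (h0 : 0 < t) {x : M} {v : E} (hv : v ∈ DD g a y x) :
    t • v ∈ Ib g x := by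
  have h1 := h x v hv x
  refine Ib_of_le ?_
  rw [add_le_add_iff_left, le_div_iff₀ (by positivity)] at h1
  rw [N_smul]
  linarith

end Vale.Agent.P234
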