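import Vale.Agent.P234.Sub
import Vale.Agent.P234.AA3

open scoped ContDiff Manifold Topology
open Set Filter

noncomputable section

namespace Vale.Agent.P234

open Vale.Agent.P255

variable {E : Type} [NormedAddCommGroup E] [NormedSpace ℝ E] [FiniteDimensional ℝ E]
variable {M : Type} [TopologicalSpace M] [ChartedSpace E M] [IsManifold 𝓘(ℝ, E) ∞ M] [T2Space M]
  [CompactSpace M] [ConnectedSpace M]
variable {g : RMetric E M} {e e' : OpenPartialHomeomorph M E}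

variable {a : Bool → ℝ} {y : Bool → M}


theorem H2X.mem_II {s t : ℝ} (h : PP g a y t) (h0 : 0 < s) (hst : s < t) {x : M} {v : E}
    (hv : v ∈ DD g a y x) : s • v ∈ II g x := by
  have t0 := h0.trans hst
  have := II_smul (h.Ib t0 hv) (div_pos h0 t0).le ((div_lt_one t0).2 hst)
  rwa [smul_smul, div_mul_cancel₀ _ t0.ne'] at this

theorem H2X.seg {s : ℝ} {x : M} {u v : E} (hu : u ∈ DD g a y x) (hv : v ∈ DD g a y x) {S : Set E}
    (h : ∀ w ∈ DD g a y x, s • w ∈ S) : segment ℝ (s • u) (s • v) ⊆ S := by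
  rintro _ ⟨p, q, hp, hq, hpq, rfl⟩
  rw [smul_comm p, smul_comm q, ← smul_add]
  exact h _ (convex_convexHull ℝ _ hu hv hp hq hpq)

/-- global gap -/
theorem ggap {s t : ℝ} (h : PP g a y t) (h0 : 0 < s) (hst : s < t) : ∃ δ > 0, ∀ x,
    ∀ v ∈ DD g a y x, ∀ x', phi g a y x + s * g.inner x v v / 2 + δ * dst g x x' ^ 2 ≤
      phi g a y x' + dst g x' (ex g x (s • v)) ^ 2 / (2 * s) := by
  have t0 := h0.trans hst
  obtain ⟨R, -, hR⟩ := DD_bdd g
  obtain ⟨δ, δ0, hδ⟩ := gp g (t * R) ((div_lt_one t0).2 hst)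
  refine ⟨δ / t, by positivity, fun x v hv x' => ?_⟩
  have h1 := hδ x (t • v) (by rw [N_smul, mul_pow]; gcongr; exact hR a y x v hv) (s / t)
    (by positivity) le_rfl x'
  have h2 := h x v hv x'
  rw [smul_smul, div_mul_cancel₀ _ t0.ne', N_smul] at h1
  have h3 := div_le_div_of_nonneg_right h1 t0.le
  rw [show ∀ p q r : ℝ, (p / (2 * (s / t)) + (1 - s / t) * (t ^ 2 * q) / 2 - δ * r) / t =
    p / (2 * s) + (t - s) * q / 2 - δ / t * r from fun p q r => by field_simp, div_div] at h3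
  linarith

/-- local gap, uniform as `s` increases to `t` -/
theorem lgap (hc : CCp g) {t : ℝ} (h : PP g a y t) (h1 : t < 1) : ∃ δ > 0, ∀ s, 0 < s → s < t →
    ∀ x, ∀ v ∈ DD g a y x, LG g a y s δ x v := by
  obtain ⟨R, -, hR⟩ := Ib_bdd g
  obtain ⟨δ, δ0, hδ⟩ := gp g R h1
  obtain ⟨r, r0, hr⟩ := short g
  refine ⟨δ, δ0, fun s h0 hst x v hv => ?_⟩
  refine (convexHull_min (t := {v | v ∈ DD g a y x ∧ LG g a y s δ x v}) ?_ ?_ hv).2
  · rintro w ⟨hw, i, e1, e2⟩
    refine ⟨subset_convexHull ℝ _ ⟨hw, i, e1, e2⟩, fun ε ε0 => ?_⟩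
    filter_upwards [ev_N_le g x (pow_pos r0 2)] with ξ hξ
    have h2 := mul_le_mul_of_nonneg_left (hδ x w (hR x w hw) s h0 hst.le (ex g x ξ)) h0.le
    have h3 : dst g x (ex g x ξ) ^ 2 = g.inner x ξ ξ := (hr x).1 ξ hξ
    have h4 := mul_le_mul_of_nonneg_left (phi_ge (g := g) (a := a) (y := y) i (ex g x ξ)) h0.le
    have h5 : dst g x (ex g x w) ^ 2 = g.inner x w w := hw
    rw [e1] at h2 h5
    rw [h3, show ∀ p q r : ℝ, s * (p / (2 * s) + q - r) = p / 2 + s * q - s * r from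
      fun p q r => by field_simp] at h2
    rw [e2, h5, N_smul, GG]
    linarith [mul_nonneg ε0.le (N_nonneg g x ξ)]
  · rintro u ⟨hu, lu⟩ w ⟨hw, lw⟩ p q hp hq hpq
    refine ⟨convex_convexHull ℝ _ hu hw hp hq hpq, fun ε ε0 => ?_⟩
    obtain rfl : p = 1 - q := by linarith
    filter_upwards [lu _ (half_pos ε0), lw _ (half_pos ε0), ld hc
      (H2X.seg hu hw fun w hw => H2X.mem_II h h0 hst hw) ⟨hq, by linarith⟩ _ (half_pos ε0)]
      with ξ h2 h3 h4
    rw [smul_comm (1 - q), smul_comm q, ← smul_add] at h4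
    rcases min_le_iff.1 h4 with h5 | h5 <;> linarith

end Vale.Agent.P234
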