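import Vale.Agent.P234.H2

open scoped ContDiff Manifold Topology
open Set Filter

noncomputable section

namespace Vale.Agent.P234

open Vale.Agent.P255

variable {E : Type} [NormedAddCommGroup E] [NormedSpace ℝ E] [FiniteDimensional ℝ E]
variable {M : Type} [TopologicalSpace M] [ChartedSpace E M] [IsManifold 𝓘(ℝ, E) ∞ M] [T2Space M]
  [CompactSpace M] [ConnectedSpace M]
variable {g : RMetric E M} {e e' : OpenPartialHomeomorph M E}

variable {a : Bool → ℝ} {y : Bool → M}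


theorem nf_DD (hc : CCp g) {t : ℝ} (h : PP g a y t) (h0 : 0 < t) (h1 : t < 1) {x : M} {v : E}
    (hv : v ∈ DD g a y x) : NF g x (t • v) := by
  refine (convexHull_min (t := {v | v ∈ DD g a y x ∧ NF g x (t • v)}) ?_ ?_ hv).2
  · exact fun w hw => ⟨subset_convexHull ℝ _ hw, nf_of_II (II_smul hw.1 h0.le h1)⟩
  · rintro u ⟨hu, lu⟩ w ⟨hw, lw⟩ p q hp hq hpq
    refine ⟨convex_convexHull ℝ _ hu hw hp hq hpq,
      aa hc (H2X.seg hu hw fun w hw => h.Ib h0 hw) lu lw _ ⟨p, q, hp, hq, hpq, ?_⟩⟩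
    rw [smul_comm p, smul_comm q, ← smul_add]

theorem ubd (hc : CCp g) {t : ℝ} (h : PP g a y t) (h0 : 0 < t) (h1 : t < 1) :
    ∃ C > 0, ∃ s₁ < t, ∀ s, 0 < s → s₁ ≤ s → s < t → ∀ x, ∀ v ∈ DD g a y x,
      BDp g C (x, s • v) := by
  by_contra H
  push Not at H
  choose s s0 s1 s2 x v hv hn using fun n : ℕ =>
    H (n + 1) (by positivity) (t - 1 / (n + 1)) (sub_lt_self _ Nat.one_div_pos_of_nat)
  obtain ⟨R, -, hR⟩ := DD_bdd g
  obtain ⟨⟨x₀, v₀⟩, φ, hφ, hu⟩ := seq_cpt g (u := fun n => (x n, v n))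
    fun n => hR a y _ _ (hv n)
  have hs : Tendsto s atTop (𝓝 t) :=
    tendsto_of_tendsto_of_tendsto_of_le_of_le
      (by simpa using (tendsto_one_div_add_atTop_nhds_zero_nat (𝕜 := ℝ)).const_sub t)
      tendsto_const_nhds s1 fun n => (s2 n).le
  have h2 : v₀ ∈ DD g a y x₀ := SubX.sub h0 fun x' => by
    refine le_of_tendsto_of_tendsto' (b := atTop) ?_ ?_ fun n => h (x (φ n)) (v (φ n)) (hv _) x'
    · exact ((phi_cont.tendsto x₀).comp ((tendsto_base _).comp hu)).add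
        ((((tendsto_N g _).comp hu).const_mul t).div_const 2)
    · exact (((((H1X.dst_cont' g continuous_const continuous_id).tendsto _).comp
        ((tendsto_ex g _).comp (tendsto_smul tendsto_const_nhds hu))).pow 2).div_const _).const_add _
  obtain ⟨C, hC⟩ := bd (s₀ := (x₀, t • v₀)) (nf_DD hc h h0 h1 h2)
  obtain ⟨n, h3, h4⟩ := (((tendsto_smul (hs.comp hφ.tendsto_atTop) hu).eventually hC).and
    ((tendsto_natCast_atTop_atTop.comp hφ.tendsto_atTop).eventually_ge_atTop C)).exists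
  exact hn _ ((h3 (H2X.mem_II h (s0 _) (s2 _) (hv _))).mono
    (le_trans h4 (le_add_of_nonneg_right zero_le_one)))

end Vale.Agent.P234
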