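import Vale.Agent.P234.Sub

open scoped ContDiff Manifold Topology
open Set Filter

noncomputable section

namespace Vale.Agent.P234

open Vale.Agent.P255

variable {E : Type} [NormedAddCommGroup E] [NormedSpace ℝ E] [FiniteDimensional ℝ E]
variable {M : Type} [TopologicalSpace M] [ChartedSpace E M] [IsManifold 𝓘(ℝ, E) ∞ M] [T2Space M]
  [CompactSpace M] [ConnectedSpace M]
variable {g : RMetric E M} {e e' : OpenPartialHomeomorph M E}

variable {a : Bool → ℝ} {y : Bool → M}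


/-- local paraboloid -/
theorem lpar {s δ δ' C : ℝ} (h0 : 0 < s) (hδ : 0 < δ) (hδ' : 0 < δ') (hC : 0 < C) {x : M} {v : E}
    (h1 : LG g a y s δ x v) (h2 : BDp g C (x, s • v))
    (h3 : ∀ x', phi g a y x + s * g.inner x v v / 2 + δ' * dst g x x' ^ 2 ≤
      phi g a y x' + dst g x' (ex g x (s • v)) ^ 2 / (2 * s)) :
    ∀ᶠ ζ in 𝓝 (0 : E), Par g a y s (C ^ 2 / (2 * δ * s ^ 2) + C / s) x v ζ := by
  unfold BDp at h2
  rw [Phi_smul, mul_one, nhds_prod_eq] at h2
  obtain ⟨pa, ha, pb, hb, h2⟩ := eventually_prod_iff.1 h2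
  obtain ⟨η, η0, hη⟩ := ball_sub g x (ha.and (h1 (s * δ / 2) (by positivity)))
  obtain ⟨R, R0, hR⟩ := dst_bdd g
  unfold Par
  rw [ex_smul] at h3
  generalize (Phi g s (x, v)).1 = z at *
  generalize (Phi g s (x, v)).2 = p at *
  have k : ∀ᶠ ζ in 𝓝 (0 : E), g.inner z p ζ + R * √(g.inner z ζ ζ) / s < δ' * η ^ 2 :=
    ContinuousAt.eventually_lt (f := fun ζ => g.inner z p ζ + R * √(g.inner z ζ ζ) / s)
      (by fun_prop) continuousAt_const (by simp; positivity)
  filter_upwards [hb, k] with ζ hζ k x'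
  have n0 := N_nonneg g z ζ
  rcases le_total (dst g x x') η with hd | hd
  · obtain ⟨ξ, hξ, rfl⟩ := hr g x x'
    obtain ⟨a1, a2⟩ := hη ξ (hξ ▸ pow_le_pow_left₀ (dst_nonneg g _ _) hd 2)
    have a3 := (h2 a1 hζ).1
    have a4 : C * √(g.inner x ξ ξ) * √(g.inner z ζ ζ) ≤
        s * δ / 2 * g.inner x ξ ξ + C ^ 2 / (2 * δ * s) * g.inner z ζ ζ := by
      rw [← sub_nonneg, show s * δ / 2 * g.inner x ξ ξ + C ^ 2 / (2 * δ * s) * g.inner z ζ ζ -
        C * √(g.inner x ξ ξ) * √(g.inner z ζ ζ) =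
        (s * δ * √(g.inner x ξ ξ) - C * √(g.inner z ζ ζ)) ^ 2 / (2 * δ * s) by
          rw [sub_sq, mul_pow, mul_pow _ (√_), Real.sq_sqrt n0, Real.sq_sqrt (N_nonneg g x ξ)]
          field_simp; ring]
      positivity
    simp only [map_smul, smul_apply, smul_eq_mul] at a2 a3
    rw [← sub_le_iff_le_add', le_div_iff₀ (by positivity),
      show ∀ A B n : ℝ, (A - (C ^ 2 / (2 * δ * s ^ 2) + C / s) * n - B) * (2 * s) =
        2 * (s * (A - B) - C ^ 2 / (2 * δ * s) * n - C * n) from fun A B n => by field_simp; ring]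
    linarith
  · have a1 := h3 x'
    have a2 := dst_tri g x' (ex g z ζ) z
    have a3 := dst_ex_le g z ζ
    rw [dst_symm] at a3
    have a4 : dst g x' z ^ 2 ≤ dst g x' (ex g z ζ) ^ 2 + 2 * (R * √(g.inner z ζ ζ)) := by
      nlinarith [mul_le_mul (show dst g x' z - dst g x' (ex g z ζ) ≤ √(g.inner z ζ ζ) by linarith)
        (add_le_add (hR x' z) (hR x' (ex g z ζ)))
        (add_nonneg (dst_nonneg g _ _) (dst_nonneg g _ _)) (Real.sqrt_nonneg _)]
    have a5 := div_le_div_of_nonneg_right a4 (show 0 ≤ 2 * s by positivity)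
    rw [add_div, mul_div_mul_left _ _ two_ne_zero] at a5
    have a6 := mul_le_mul_of_nonneg_left (pow_le_pow_left₀ η0.le hd 2) hδ'.le
    have a7 : 0 ≤ (C ^ 2 / (2 * δ * s ^ 2) + C / s) * g.inner z ζ ζ := by positivity
    linarith

end Vale.Agent.P234
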