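import Vale.Agent.P234.H3
import Vale.Agent.P234.Dini

open scoped ContDiff Manifold Topology
open Set Filter

noncomputable section

namespace Vale.Agent.P234

open Vale.Agent.P255

variable {E : Type} [NormedAddCommGroup E] [NormedSpace ℝ E] [FiniteDimensional ℝ E]
variable {M : Type} [TopologicalSpace M] [ChartedSpace E M] [IsManifold 𝓘(ℝ, E) ∞ M] [T2Space M]
  [CompactSpace M] [ConnectedSpace M]
variable {g : RMetric E M} {e e' : OpenPartialHomeomorph M E}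

variable {a : Bool → ℝ} {y : Bool → M}


namespace H3bX

theorem psi (s : ℝ) (x : M) : ∃ ψ : M → ℝ, Continuous ψ ∧
    (∀ z x', ψ z ≤ phi g a y x' + dst g x' z ^ 2 / (2 * s)) ∧
    ∀ z, ∃ x₁, ψ z = phi g a y x₁ + dst g x₁ z ^ 2 / (2 * s) := by
  obtain ⟨F, hF⟩ : ∃ F : M → M → ℝ, F = fun z x' => phi g a y x' + dst g x' z ^ 2 / (2 * s) :=
    ⟨_, rfl⟩
  have Fc : Continuous ↿F := by
    have h1 : Continuous fun q : M × M => dst g q.2 q.1 := (dst_cont g).comp continuous_swap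
    rw [hF]
    exact (phi_cont.comp continuous_snd).add ((h1.pow 2).div_const _)
  have Fc' : ∀ z, Continuous (F z) := fun z => Fc.comp (Continuous.prodMk_right z)
  have e : ∀ z x', phi g a y x' + dst g x' z ^ 2 / (2 * s) = F z x' := fun z x' => by rw [hF]
  simp only [e]
  refine ⟨fun z => sInf (F z '' univ), isCompact_univ.continuous_sInf Fc, fun z x' =>
    csInf_le (isCompact_univ.image (Fc' z)).bddBelow ⟨x', trivial, rfl⟩, fun z => ?_⟩
  obtain ⟨x₁, -, h⟩ := (isCompact_univ.image (Fc' z)).sInf_mem ⟨_, x, trivial, rfl⟩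
  exact ⟨x₁, h.symm⟩

theorem tl (w : E) : Tendsto (fun σ : ℝ => σ • w) (𝓝 0) (𝓝 0) :=
  (continuous_id.smul continuous_const).tendsto' 0 0 (zero_smul _ _)

theorem inner_pt {s K : ℝ} (h0 : 0 < s)
    (h : ∀ x, ∀ v ∈ DD g a y x, ∀ᶠ ζ in 𝓝 (0 : E), Par g a y s K x v ζ) {z x₁ : M} {ζ : E}
    {t : ℝ} (hm : ∀ x', phi g a y x₁ + dst g x₁ (ex g z (t • ζ)) ^ 2 / (2 * s) ≤
      phi g a y x' + dst g x' (ex g z (t • ζ)) ^ 2 / (2 * s)) :
    ∃ c : ℝ, ∀ᶠ σ in 𝓝 (0 : ℝ), ∀ x', phi g a y x₁ + dst g x₁ (ex g z (t • ζ)) ^ 2 / (2 * s)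
      + σ * c - K * (σ ^ 2 * g.inner z ζ ζ) ≤
        phi g a y x' + dst g x' (ex g z ((t + σ) • ζ)) ^ 2 / (2 * s) := by
  obtain ⟨w, hw, he⟩ := hr g x₁ (ex g z (t • ζ))
  have e1 : s • s⁻¹ • w = w := smul_inv_smul₀ h0.ne' w
  have hw' : dst g x₁ (ex g x₁ w) ^ 2 = g.inner x₁ w w := hw
  have e2 : s * g.inner x₁ (s⁻¹ • w) (s⁻¹ • w) / 2
      = dst g x₁ (ex g z (t • ζ)) ^ 2 / (2 * s) := by
    rw [N_smul, ← hw', he]
    field_simp
  have hD : s⁻¹ • w ∈ DD g a y x₁ := sub_DD h0 (by rw [e1]; exact hw) fun x' => by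
    rw [e2, e1, he]
    exact hm x'
  have e3 : (Phi g s (x₁, s⁻¹ • w)).1 = (Phi g t (z, ζ)).1 := by
    rw [← ex_smul, e1, he, ex_smul]
  refine ⟨g.inner (Phi g t (z, ζ)).1 (Phi g s (x₁, s⁻¹ • w)).2 (Phi g t (z, ζ)).2, ?_⟩
  filter_upwards [(tl (Phi g t (z, ζ)).2).eventually (h x₁ _ hD)] with σ hσ
  unfold Par at hσ
  rw [e2, e3, ex_Phi, N_smul, Phi_energy, map_smul, smul_eq_mul] at hσ
  exact hσ

end H3bX

/-- globalisation -/
theorem gpar {s K : ℝ} (h0 : 0 < s) (hP : PP g a y s)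
    (h : ∀ x, ∀ v ∈ DD g a y x, ∀ᶠ ζ in 𝓝 (0 : E), Par g a y s K x v ζ) :
    ∀ x, ∀ v ∈ DD g a y x, ∀ ζ, Par g a y s K x v ζ := by
  intro x v hv ζ
  obtain ⟨ψ, ψc, ψle, ψeq⟩ := H3bX.psi (g := g) (a := a) (y := y) s x
  have ψge : ∀ z c, (∀ x', c ≤ phi g a y x' + dst g x' z ^ 2 / (2 * s)) → c ≤ ψ z :=
    fun z c hc => by
      obtain ⟨x₁, h1⟩ := ψeq z
      rw [h1]
      exact hc x₁
  have hx := h x v hv
  have hP' := hP x v hv
  have h4 := pow_le_pow_left₀ (dst_nonneg g _ _) (dst_ex_le g x (s • v)) 2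
  rw [Real.sq_sqrt (N_nonneg g _ _), N_smul, ex_smul] at h4
  rw [ex_smul] at hP'
  unfold Par at hx ⊢
  generalize (Phi g s (x, v)).1 = z at *
  generalize (Phi g s (x, v)).2 = p at *
  have key := glob1 (k := fun τ => ψ (ex g z (τ • ζ)) + K * g.inner z ζ ζ * τ ^ 2)
    (a₀ := g.inner z p ζ) ?_ ?_ ?_
  · intro x'
    have h1 := ψge _ _ hP'
    have h2 := ψle (ex g z ζ) x'
    simp only [zero_smul, ex_zero, one_smul] at key
    linarith
  · have h1 : Continuous fun τ : ℝ => ex g z (τ • ζ) :=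
      (ex_cont g z).comp (continuous_id.smul continuous_const)
    exact ((ψc.comp h1).add (continuous_const.mul (continuous_pow 2))).continuousOn
  · intro t _
    obtain ⟨x₁, h1⟩ := ψeq (ex g z (t • ζ))
    obtain ⟨c, hc⟩ := H3bX.inner_pt h0 h (z := z) (x₁ := x₁) (ζ := ζ) (t := t) fun x' =>
      h1.symm.trans_le (ψle _ x')
    refine ⟨c + 2 * K * g.inner z ζ ζ * t, ?_⟩
    filter_upwards [hc] with σ hσ
    have h2 := ψge _ _ hσ
    linarith
  · filter_upwards [nhdsWithin_le_nhds ((H3bX.tl ζ).eventually hx)] with σ hσ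
    rw [N_smul, map_smul, smul_eq_mul] at hσ
    have h1 := ψge _ _ hσ
    have h2 := ψle z x
    have h3 : dst g x z ^ 2 / (2 * s) ≤ s * g.inner x v v / 2 := by
      rw [div_le_iff₀ (by positivity)]
      linarith
    simp only [zero_smul, ex_zero]
    linarith

theorem pstep (K : ℝ) : ∃ ε > 0, ∀ s, 0 < s →
    (∀ x, ∀ v ∈ DD g a y x, ∀ ζ, Par g a y s K x v ζ) → PP g a y (s + ε) := by
  obtain ⟨R, -, hR⟩ := DD_bdd g
  obtain ⟨ε, hε, h⟩ := st g K R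
  refine ⟨ε, hε, fun s hs hP x v hv x' => ?_⟩
  have h1 : 0 < s + ε := by positivity
  obtain ⟨m, m1, m2⟩ := mid g x' (ex g x ((s + ε) • v)) (θ := s / (s + ε)) (by positivity)
    (div_le_one_of_le₀ (by linarith) h1.le)
  obtain ⟨ζ, e, hζ⟩ := h ε hε le_rfl (Phi g s (x, v)).1 (Phi g s (x, v)).2 m
    (by rw [Phi_energy]; exact hR a y x v hv)
  have h2 := hP x v hv ζ x'
  rw [ex_Phi, Phi_energy, m2] at hζ
  rw [e, m1] at h2
  have h3 : (s / (s + ε) * dst g x' (ex g x ((s + ε) • v))) ^ 2 / (2 * s)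
      + ((1 - s / (s + ε)) * dst g x' (ex g x ((s + ε) • v))) ^ 2 / (2 * ε)
      = dst g x' (ex g x ((s + ε) • v)) ^ 2 / (2 * (s + ε)) := by
    field_simp
    ring
  dsimp only at hζ
  linarith

end Vale.Agent.P234
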