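import Vale.Agent.P234.Dst

open scoped ContDiff Manifold Topology
open Set Filter

noncomputable section

namespace Vale.Agent.P234

open Vale.Agent.P255

variable {E : Type} [NormedAddCommGroup E] [NormedSpace ℝ E] [FiniteDimensional ℝ E]
variable {M : Type} [TopologicalSpace M] [ChartedSpace E M] [IsManifold 𝓘(ℝ, E) ∞ M] [T2Space M]
  [CompactSpace M] [ConnectedSpace M]
variable {g : RMetric E M} {e e' : OpenPartialHomeomorph M E}

namespace MidX

theorem claim {x y : M} {L : ℝ} (h : Reach g x y L) :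
    ∀ t, 0 ≤ t → t ≤ dst g x y → ∃ m, dst g x m = t ∧ t + dst g m y ≤ L := by
  induction h with
  | refl =>
    intro t h0 h1
    rw [dst_self] at h1
    exact ⟨x, by rw [dst_self]; linarith, by rw [dst_self]; linarith⟩
  | step L σ a b hr hab hσ ih =>
    intro t h0 h1
    by_cases hc : t ≤ dst g x (σ a)
    · obtain ⟨m, hm, hm'⟩ := ih t h0 hc
      refine ⟨m, hm, ?_⟩
      have h2 := dst_le (Reach.single (g := g) hab hσ)
      have h3 := dst_tri g m (σ a) (σ b)
      linarith
    · have hcont : ContinuousOn (fun s => dst g x (σ s)) (Icc a b) := fun s hs =>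
        (((dst_cont g).continuousAt (x := (x, σ s))).comp_of_eq
          (continuousAt_const.prodMk (hσ s hs).continuousAt) rfl).continuousWithinAt
      obtain ⟨s, hs, hst⟩ := intermediate_value_Icc hab hcont ⟨(not_le.1 hc).le, h1⟩
      refine ⟨σ s, hst, ?_⟩
      have h2 := dst_le (Reach.single (g := g) hs.2 fun u hu => hσ u ⟨hs.1.trans hu.1, hu.2⟩)
      have h3 := dst_le (hr.trans
        (Reach.single (g := g) hs.1 fun u hu => hσ u ⟨hu.1, hu.2.trans hs.2⟩))
      have h4 : ContinuousOn (spd g σ) (Icc a b) := fun u hu =>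
        (spd_cont g (hσ u hu)).continuousWithinAt
      have h5 := intervalIntegral.integral_add_adjacent_intervals (μ := MeasureTheory.volume)
        ((h4.mono (Icc_subset_Icc le_rfl hs.2)).intervalIntegrable_of_Icc hs.1)
        ((h4.mono (Icc_subset_Icc hs.1 le_rfl)).intervalIntegrable_of_Icc hs.2)
      have hst' : dst g x (σ s) = t := hst
      linarith

end MidX

theorem mid (g : RMetric E M) (x y : M) {θ : ℝ} (h0 : 0 ≤ θ) (h1 : θ ≤ 1) :
    ∃ m, dst g x m = θ * dst g x y ∧ dst g m y = (1 - θ) * dst g x y := by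
  have hd := dst_nonneg g x y
  have ht0 : 0 ≤ θ * dst g x y := mul_nonneg h0 hd
  have ht1 : θ * dst g x y ≤ dst g x y := by nlinarith
  have hK : IsCompact {m | dst g x m = θ * dst g x y} :=
    (isClosed_eq ((dst_cont g).comp (continuous_const.prodMk continuous_id))
      continuous_const).isCompact
  obtain ⟨L₀, hL₀⟩ := reach_all g x y
  obtain ⟨m₀, hm₀, -⟩ := MidX.claim hL₀ _ ht0 ht1
  obtain ⟨m, hm, hmin⟩ := hK.exists_isMinOn ⟨m₀, hm₀⟩ (f := fun m => dst g m y)
    ((dst_cont g).comp (continuous_id.prodMk continuous_const)).continuousOn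
  have hm' : dst g x m = θ * dst g x y := hm
  refine ⟨m, hm', le_antisymm ?_ ?_⟩
  · refine le_of_forall_pos_le_add fun ε hε => ?_
    obtain ⟨L, hL, hr⟩ := exists_reach_lt (g := g) (x := x) (y := y) (L := dst g x y + ε)
      (by linarith)
    obtain ⟨m', h2, h3⟩ := MidX.claim hr _ ht0 ht1
    have h4 : dst g m y ≤ dst g m' y := hmin h2
    linarith
  · have := dst_tri g x m y
    linarith

end Vale.Agent.P234
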