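import Vale.Agent.P234.UP
import Vale.Agent.P234.Mid

open scoped ContDiff Manifold Topology
open Set Filter

noncomputable section

namespace Vale.Agent.P234

open Vale.Agent.P255

variable {E : Type} [NormedAddCommGroup E] [NormedSpace ℝ E] [FiniteDimensional ℝ E]
variable {M : Type} [TopologicalSpace M] [ChartedSpace E M] [IsManifold 𝓘(ℝ, E) ∞ M] [T2Space M]
  [CompactSpace M] [ConnectedSpace M]
variable {g : RMetric E M} {e e' : OpenPartialHomeomorph M E}

namespace HRX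

theorem join {x y : M} {ϖ b : E} (hϖ : ϖ ∈ Ib g x) (h0 : ϖ ≠ 0) (hb : b ∈ Ib g (ex g x ϖ))
    (hy : ex g (ex g x ϖ) b = y) (hd : dst g x (ex g x ϖ) + dst g (ex g x ϖ) y ≤ dst g x y) :
    (1 + dst g (ex g x ϖ) y / dst g x (ex g x ϖ)) • ϖ ∈ Ib g x ∧
      ex g x ((1 + dst g (ex g x ϖ) y / dst g x (ex g x ϖ)) • ϖ) = y := by
  have a := mem_Ib.1 hϖ
  have b' := mem_Ib.1 hb
  rw [hy] at b'
  have c := nc' (g := g) (b := b) h0 (by rw [hy, ← a, ← b']; exact hd)
  rw [hy, ← a, ← b'] at c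
  refine ⟨mem_Ib.2 (le_antisymm (dst_ex_le g x _) ?_), c⟩
  have p : 0 < dst g x (ex g x ϖ) := by
    rw [a]; exact Real.sqrt_pos.2 (g.pos x ϖ h0)
  have q := dst_nonneg g (ex g x ϖ) y
  rw [c, sqrt_smul, ← a, abs_of_nonneg (by positivity), add_mul, div_mul_cancel₀ _ p.ne', one_mul]
  exact hd

end HRX

/-- Hopf-Rinow -/
theorem hr (g : RMetric E M) (x y : M) : ∃ v ∈ Ib g x, ex g x v = y := by
  obtain ⟨r, hr, hs⟩ := short g
  have key : ∀ n : ℕ, ∀ x y, dst g x y ≤ n * (r / 2) → ∃ v ∈ Ib g x, ex g x v = y := by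
    intro n
    induction n with
    | zero => exact fun x y h => (hs x).2 y (by simp at h; linarith)
    | succ n ih =>
      intro x y h
      by_cases h1 : dst g x y < r
      · exact (hs x).2 y h1
      push_cast at h
      have n0 : (0 : ℝ) ≤ n := n.cast_nonneg
      have n1 : (0 : ℝ) < n := by
        by_contra h2
        have : (n : ℝ) = 0 := le_antisymm (not_lt.1 h2) n0
        rw [this] at h
        linarith [not_lt.1 h1]
      obtain ⟨m, m1, m2⟩ := mid g x y (θ := n / (n + 1)) (by positivity)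
        (by rw [div_le_one (by positivity)]; linarith)
      obtain ⟨ϖ, w1, rfl⟩ := ih x m (by
        rw [m1, div_mul_eq_mul_div, div_le_iff₀ (by positivity)]
        nlinarith)
      have e1 : (1 : ℝ) - n / (n + 1) = 1 / (n + 1) := by field_simp; ring
      obtain ⟨b, b1, b2⟩ := (hs (ex g x ϖ)).2 y (by
        rw [m2, e1, div_mul_eq_mul_div, div_lt_iff₀ (by positivity)]
        nlinarith)
      refine ⟨_, HRX.join w1 ?_ b1 b2 (by rw [m1, m2]; linarith)⟩
      rintro rfl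
      rw [ex_zero, dst_self] at m1
      have : 0 < n / (n + 1) * dst g x y := mul_pos (by positivity) (by linarith [not_lt.1 h1])
      linarith
  obtain ⟨n, hn⟩ := exists_nat_ge (dst g x y / (r / 2))
  exact key n x y (by rwa [div_le_iff₀ (half_pos hr)] at hn)

theorem ext_min {x y : M} {ϖ : E} (hϖ : ϖ ∈ Ib g x) {τ : ℝ} (h0 : 0 < τ) (h1 : τ ≤ 1)
    (ha : dst g x (ex g x ϖ) = τ * dst g x y) (hb : dst g (ex g x ϖ) y = (1 - τ) * dst g x y) :
    τ⁻¹ • ϖ ∈ Ib g x ∧ ex g x (τ⁻¹ • ϖ) = y := by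
  by_cases hz : ϖ = 0
  · subst hz
    rw [ex_zero, dst_self] at ha
    have : dst g x y = 0 := by
      rcases mul_eq_zero.1 ha.symm with h | h
      · exact absurd h h0.ne'
      · exact h
    rw [smul_zero, ex_zero]
    exact ⟨hϖ, eq_of_dst this⟩
  obtain ⟨b, b1, b2⟩ := hr g (ex g x ϖ) y
  have h := HRX.join hϖ hz b1 b2 (by rw [ha, hb]; linarith)
  have p : 0 < dst g x (ex g x ϖ) := by
    rw [mem_Ib.1 hϖ]; exact Real.sqrt_pos.2 (g.pos x ϖ hz)
  have q : dst g x y ≠ 0 := fun h => by rw [ha, h] at p; simp at p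
  have e1 : 1 + dst g (ex g x ϖ) y / dst g x (ex g x ϖ) = τ⁻¹ := by
    rw [ha, hb]; field_simp; ring
  rwa [e1] at h

theorem um_of_II {x : M} {u : E} (h : u ∈ II g x) : UM g x u := by
  have hu := II_sub h
  refine ⟨hu, fun v hv hvu => ?_, Eventually.of_forall fun q => hr g q.1 q.2⟩
  obtain ⟨a, ha, hau⟩ := h
  have n1 : g.inner x v v = g.inner x u u := by
    rw [← show dst g x (ex g x v) ^ 2 = _ from hv, hvu]; exact hu
  by_cases hz : u = 0
  · subst hz
    exact N_eq_zero (g := g) (x := x) (by rw [n1]; simp)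
  have p : 0 < √(g.inner x u u) := Real.sqrt_pos.2 (g.pos x u hz)
  have e0 : (Phi g 1 (x, v)).1 = (Phi g 1 (x, u)).1 := hvu
  have e1 := (Ib_back hv).2
  have e2 := ex_Phi g x u 1 (a - 1)
  have e3 := Phi_energy g (x, v) 1
  have e4 := Phi_energy g (x, u) 1
  rw [e0] at e1 e3
  have s1 : √(g.inner (Phi g 1 (x, u)).1 (-(Phi g 1 (x, v)).2) (-(Phi g 1 (x, v)).2)) =
      √(g.inner x u u) := by
    simp only [map_neg, ContinuousLinearMap.neg_apply, neg_neg, e3, n1]
  have s2 : √(g.inner (Phi g 1 (x, u)).1 ((a - 1) • (Phi g 1 (x, u)).2)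
      ((a - 1) • (Phi g 1 (x, u)).2)) = (a - 1) * √(g.inner x u u) := by
    rw [sqrt_smul, e4, abs_of_pos (by linarith)]
  have k := nc (g := g) (z := (Phi g 1 (x, u)).1) (a := -(Phi g 1 (x, v)).2)
    (b := (a - 1) • (Phi g 1 (x, u)).2) (by
      rw [s1, s2, e1, e2, add_sub_cancel, mem_Ib.1 hau, sqrt_smul, abs_of_pos (by linarith)]
      linarith)
  rw [s1, s2, smul_smul, smul_neg, neg_neg, mul_comm] at k
  have k2 : (Phi g 1 (x, u)).2 = (Phi g 1 (x, v)).2 :=
    smul_right_injective E (mul_pos (by linarith) p).ne' k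
  have k3 : Phi g 1 (x, v) = Phi g 1 (x, u) := Prod.ext e0 k2.symm
  have k4 := congrArg (Phi g (-1)) k3
  rw [← Phi_add, ← Phi_add, neg_add_cancel, Phi_zero, Phi_zero] at k4
  exact congrArg Prod.snd k4

end Vale.Agent.P234
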