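import Vale.Agent.P255.Loc

open scoped ContDiff Manifold Topology
open Set Filter

noncomputable section

namespace Vale.Agent.P234

open Vale.Agent.P255

variable {E : Type} [NormedAddCommGroup E] [NormedSpace ℝ E] [FiniteDimensional ℝ E]

namespace HullX

omit [FiniteDimensional ℝ E] in
theorem step {V : Set E} (h : IsCompact V) (m : ℕ) : ∃ K, IsCompact K ∧ K ⊆ convexHull ℝ V ∧
    ∀ t : Finset E, (t : Set E) ⊆ V → t.card ≤ m + 1 → convexHull ℝ (t : Set E) ⊆ K := by
  classical
  induction m with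
  | zero =>
    refine ⟨V, h, subset_convexHull ℝ V, fun t ht hc => ?_⟩
    rcases Finset.card_le_one_iff_subset_singleton.1 hc with ⟨x, hx⟩
    rcases Finset.subset_singleton_iff.1 hx with rfl | rfl
    · simp
    · simpa using ht
  | succ m ih =>
    obtain ⟨K, hK, hKV, hKt⟩ := ih
    refine ⟨K ∪ (fun p : ℝ × E × E => (1 - p.1) • p.2.1 + p.1 • p.2.2) '' (Icc 0 1 ×ˢ V ×ˢ K),
      hK.union ((isCompact_Icc.prod (h.prod hK)).image (by fun_prop)), union_subset hKV ?_,
      fun t ht hc => ?_⟩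
    · rintro _ ⟨⟨a, v, k⟩, ⟨ha, hv, hk⟩, rfl⟩
      exact convex_convexHull ℝ V (subset_convexHull ℝ V hv) (hKV hk) (sub_nonneg.2 ha.2) ha.1
        (by ring)
    · rcases hc.eq_or_lt with h1 | h1
      · obtain ⟨x, s, hx, rfl, hs⟩ := Finset.card_eq_succ.1 h1
        have hne : (s : Set E).Nonempty := Finset.coe_nonempty.2 (Finset.card_pos.1 (by omega))
        rw [Finset.coe_insert] at ht ⊢
        rw [convexHull_insert hne]
        intro z hz
        obtain ⟨x', hx', y, hy, hz⟩ := mem_convexJoin.1 hz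
        rw [mem_singleton_iff.1 hx', segment_eq_image] at hz
        obtain ⟨a, ha, rfl⟩ := hz
        exact Or.inr ⟨(a, x, y), ⟨ha, ht (mem_insert _ _),
          hKt s ((subset_insert _ _).trans ht) hs.le hy⟩, rfl⟩
      · exact (hKt t ht (by omega)).trans subset_union_left

end HullX

theorem hull_cpt {V : Set E} (h : IsCompact V) : IsCompact (convexHull ℝ V) := by
  obtain ⟨K, hK, hKV, hKt⟩ := HullX.step h (Module.finrank ℝ E)
  have : convexHull ℝ V = K := by
    refine subset_antisymm (fun x hx => ?_) hKV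
    rw [convexHull_eq_union] at hx
    simp only [exists_prop, mem_iUnion] at hx
    obtain ⟨t, ht, hi, hx⟩ := hx
    refine hKt t ht ?_ hx
    have h1 := hi.card_le_finrank_succ
    rw [Fintype.card_coe] at h1
    exact h1.trans (Nat.add_le_add_right (Submodule.finrank_le _) 1)
  rwa [this]

theorem sep_hull (B : E →L[ℝ] E →L[ℝ] ℝ) (hs : ∀ a b, B a b = B b a)
    (hp : ∀ a, a ≠ 0 → 0 < B a a) {V : Set E} (hV : IsCompact V) {v : E}
    (hv : v ∉ convexHull ℝ V) : ∃ (ξ : E) (l : ℝ), (∀ w ∈ V, B w ξ < l) ∧ l < B v ξ := by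
  obtain ⟨f, l, h1, h2⟩ := geometric_hahn_banach_closed_point (convex_convexHull ℝ V)
    (hull_cpt hV).isClosed hv
  have h3 : B (B.inverse f) = f := (LocX.inv_of_pos B hp).self_apply_inverse f
  refine ⟨B.inverse f, l, fun w hw => ?_, ?_⟩
  · rw [hs, h3]; exact h1 w (subset_convexHull ℝ V hw)
  · rw [hs, h3]; exact h2

end Vale.Agent.P234
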