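import Vale.Agent.P234.EH
import Vale.Agent.P234.GP

open scoped ContDiff Manifold Topology
open Set Filter

noncomputable section

namespace Vale.Agent.P234

open Vale.Agent.P255

variable {E : Type} [NormedAddCommGroup E] [NormedSpace ℝ E] [FiniteDimensional ℝ E]
variable {M : Type} [TopologicalSpace M] [ChartedSpace E M] [IsManifold 𝓘(ℝ, E) ∞ M] [T2Space M]
  [CompactSpace M] [ConnectedSpace M]
variable {g : RMetric E M} {e e' : OpenPartialHomeomorph M E}

theorem ker_down {x : M} {u w : E} {τ : ℝ} (hu : u ∈ II g x) (h0 : 0 < τ) (h1 : τ < 1)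
    (h : EHp g x τ u w) : Ker g x ((1 - τ) • u) ((1 - τ) • w) := by
  obtain ⟨a, ha, hau⟩ := id hu
  have hT : 0 < a - 1 + τ := by linarith
  have hs1 : τ / (a - 1 + τ) < 1 := by rw [div_lt_one hT]; linarith
  have nu := N_nonneg g x u
  obtain ⟨δ, hδ, hg⟩ := gp g ((a - 1 + τ) * √(g.inner x u u)) hs1
  have eN : g.inner (Phi g (1 - τ) (x, u)).1 ((a - 1 + τ) • (Phi g (1 - τ) (x, u)).2)
      ((a - 1 + τ) • (Phi g (1 - τ) (x, u)).2) = (a - 1 + τ) ^ 2 * g.inner x u u := by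
    rw [N_smul, Phi_energy]
  have hg' := hg (Phi g (1 - τ) (x, u)).1 ((a - 1 + τ) • (Phi g (1 - τ) (x, u)).2)
    (by rw [eN, mul_pow, Real.sq_sqrt nu]) _ (div_pos h0 hT) le_rfl
  rw [smul_smul, div_mul_cancel₀ _ hT.ne', ex_Phi, ex_Phi, eN, ← ex_smul,
    show 1 - τ + (a - 1 + τ) = a by ring, sub_add_cancel, one_smul] at hg'
  intro ε hε
  have h2 := (hh_tay h0 h1 (II_sub hu) h.1.self_of_nhds).2 (δ * ε ^ 2 / (a - 1 + τ))
    (by positivity)
  filter_upwards [h2] with σ h3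
  rw [h.2.2, ff] at h3
  rw [smul_comm σ, ← smul_add]
  set x' := ex g x ((1 - τ) • (u + σ • w))
  have a1 := hg' x'
  have a2 := wtri g x x' (ex g x (a • u)) (sub_pos.2 h1) hT
  have a3 : dst g x (ex g x (a • u)) ^ 2 = a ^ 2 * g.inner x u u := by
    rw [← N_smul]; exact hau
  have a4 : dst g x x' ^ 2 / (1 - τ) ≤ (1 - τ) * g.inner x (u + σ • w) (u + σ • w) := by
    have b1 := pow_le_pow_left₀ (dst_nonneg _ _ _) (dst_ex_le g x ((1 - τ) • (u + σ • w))) 2
    rw [Real.sq_sqrt (N_nonneg _ _ _), N_smul] at b1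
    rw [div_le_iff₀ (sub_pos.2 h1)]
    linarith
  rw [a3, show 1 - τ + (a - 1 + τ) = a by ring,
    show a ^ 2 * g.inner x u u / a = a * g.inner x u u by field_simp] at a2
  have a5 : dst g x' (ex g x (a • u)) ^ 2 / (a - 1 + τ) / 2 ≤ dst g x' (ex g x u) ^ 2 / (2 * τ)
      + (a - 1) * g.inner x u u / 2
      - δ / (a - 1 + τ) * dst g (ex g x ((1 - τ) • u)) x' ^ 2 := by
    have b1 := div_le_div_of_nonneg_right a1 hT.le
    refine le_trans (le_of_eq (by ring)) (b1.trans (le_of_eq ?_))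
    field_simp
    ring
  have a6 : δ / (a - 1 + τ) * dst g (ex g x ((1 - τ) • u)) x' ^ 2
      ≤ δ / (a - 1 + τ) * (ε * |σ|) ^ 2 := by
    rw [mul_pow, sq_abs, show δ / (a - 1 + τ) * (ε ^ 2 * σ ^ 2) =
      δ * ε ^ 2 / (a - 1 + τ) * σ ^ 2 by ring]
    linarith
  rw [dst_symm]
  exact (pow_le_pow_iff_left₀ (dst_nonneg _ _ _) (by positivity) two_ne_zero).1
    (le_of_mul_le_mul_left a6 (div_pos hδ hT))

theorem nf_of_II {x : M} {u : E} (hu : u ∈ II g x) : NF g x u := by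
  obtain ⟨r, hr, he⟩ := eh g
  obtain ⟨r', hr', hn⟩ := nf_short g
  have nu := N_nonneg g x u
  obtain ⟨τ, h0, h1, h2⟩ : ∃ τ : ℝ, 0 < τ ∧ τ < 1 ∧ τ ^ 2 * g.inner x u u ≤ r ^ 2 := by
    refine ⟨min (1 / 2) (r / (√(g.inner x u u) + 1)), by positivity,
      (min_le_left _ _).trans_lt (by norm_num), ?_⟩
    nth_rewrite 2 [← Real.sq_sqrt nu]
    rw [← mul_pow]
    refine pow_le_pow_left₀ (by positivity) ?_ 2
    have h3 : r / (√(g.inner x u u) + 1) * √(g.inner x u u) ≤ r := by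
      rw [div_mul_eq_mul_div, div_le_iff₀ (by positivity)]
      nlinarith
    exact (mul_le_mul_of_nonneg_right (min_le_right _ _) (Real.sqrt_nonneg _)).trans h3
  rw [nf_iff]
  intro w hw
  have hp : ∀ k : ℕ, ((1 - τ) ^ k) ^ 2 ≤ (1 - τ) ^ k := fun k => by
    have b1 : (1 - τ) ^ k ≤ 1 := pow_le_one₀ (by linarith) (by linarith)
    nlinarith [pow_pos (sub_pos.2 h1) k]
  have key : ∀ k : ℕ, (1 - τ) ^ k • u ∈ II g x ∧ Ker g x ((1 - τ) ^ k • u) ((1 - τ) ^ k • w) := by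
    intro k
    induction k with
    | zero => simpa using ⟨hu, hw⟩
    | succ k ih =>
      rw [pow_succ', mul_smul, mul_smul]
      refine ⟨II_smul (II_sub ih.1) (by linarith) (by linarith),
        ker_down ih.1 h0 h1 (he _ _ _ _ h0 h1 ?_ ih.2)⟩
      rw [N_smul]
      have b1 : (1 - τ) ^ k ≤ 1 := pow_le_one₀ (by linarith) (by linarith)
      exact (mul_le_mul_of_nonneg_left (mul_le_of_le_one_left nu ((hp k).trans b1))
        (sq_nonneg _)).trans h2
  obtain ⟨k, hk⟩ := exists_pow_lt_of_lt_one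
    (show 0 < r' ^ 2 / (g.inner x u u + 1) by positivity) (show 1 - τ < 1 by linarith)
  have h3 := nf_iff.1 (hn x ((1 - τ) ^ k • u) (by
    rw [N_smul]
    rw [lt_div_iff₀ (by positivity)] at hk
    nlinarith [mul_le_mul_of_nonneg_right (hp k) nu, pow_pos (sub_pos.2 h1) k])) _ (key k).2
  exact (smul_eq_zero.1 h3).resolve_left (pow_pos (sub_pos.2 h1) k).ne'

theorem sm4 {x : M} {u : E} (hu : u ∈ II g x) :
    ContDiffAt ℝ 4 (fun p : E × E => GG g x p.2 p.1) (0, u) :=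
  (sm_ex (nf_of_II hu) (um_of_II hu)).div_const 2

end Vale.Agent.P234
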