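import Vale.Agent.P255.Loc

open scoped ContDiff Manifold Topology
open Set Filter

noncomputable section

namespace Vale.Agent.P234

open Vale.Agent.P255

variable {E : Type} [NormedAddCommGroup E] [NormedSpace ℝ E] [FiniteDimensional ℝ E]

namespace LD0X

theorem quad (B T : E →L[ℝ] E →L[ℝ] ℝ) (hs : ∀ a b, B a b = B b a)
    (hp : ∀ a, a ≠ 0 → 0 < B a a) (η : E) (hc : ∀ ξ, B ξ η = 0 → T ξ ξ ≤ 0) {ε : ℝ}
    (hε : 0 < ε) : ∃ A : ℝ, 0 ≤ A ∧ ∀ ξ, T ξ ξ ≤ ε * B ξ ξ + A * B η ξ ^ 2 := by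
  obtain ⟨c₀, hc₀, hco⟩ := exists_coercive B hp
  have hn : ∀ a, 0 ≤ B a a := fun a => le_trans (by positivity) (hco a)
  by_cases hη : η = 0
  · refine ⟨0, le_rfl, fun ξ => ?_⟩
    have h1 := hc ξ (by simp [hη])
    have h2 := mul_nonneg hε.le (hn ξ)
    linarith
  have hηη := hp η hη
  obtain ⟨K, hK⟩ : ∃ K : ℝ, K = ‖T‖ * ‖η‖ := ⟨_, rfl⟩
  have hK0 : 0 ≤ K := by rw [hK]; positivity
  refine ⟨(K ^ 2 / (ε * c₀) + |T η η|) / B η η ^ 2, by positivity, fun ξ => ?_⟩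
  obtain ⟨c, hcd⟩ : ∃ c : ℝ, c = B η ξ / B η η := ⟨_, rfl⟩
  have h1 := hc (ξ - c • η) (by
    simp only [map_sub, map_smul, sub_apply, smul_apply, smul_eq_mul, hs ξ η]
    rw [hcd]; field_simp; ring)
  simp only [map_sub, map_smul, sub_apply, smul_apply, smul_eq_mul] at h1
  have h2 : |T ξ η| ≤ K * ‖ξ‖ := by
    have := T.le_opNorm₂ ξ η
    rw [Real.norm_eq_abs] at this
    rw [hK]; linarith [mul_right_comm ‖T‖ ‖ξ‖ ‖η‖]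
  have h3 : |T η ξ| ≤ K * ‖ξ‖ := by
    have := T.le_opNorm₂ η ξ
    rw [Real.norm_eq_abs] at this
    rw [hK]; exact this
  have h4 : c * (T ξ η + T η ξ) ≤ 2 * |c| * (K * ‖ξ‖) := by
    calc c * (T ξ η + T η ξ) ≤ |c * (T ξ η + T η ξ)| := le_abs_self _
      _ = |c| * |T ξ η + T η ξ| := abs_mul _ _
      _ ≤ |c| * (K * ‖ξ‖ + K * ‖ξ‖) :=
          mul_le_mul_of_nonneg_left ((abs_add_le _ _).trans (add_le_add h2 h3)) (abs_nonneg _)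
      _ = _ := by ring
  have h5 : 2 * |c| * (K * ‖ξ‖) ≤ ε * c₀ * ‖ξ‖ ^ 2 + K ^ 2 / (ε * c₀) * c ^ 2 := by
    have hec : 0 < ε * c₀ := by positivity
    have h6 : 0 ≤ (ε * c₀ * ‖ξ‖ - K * |c|) ^ 2 / (ε * c₀) := by positivity
    have h7 : (ε * c₀ * ‖ξ‖ - K * |c|) ^ 2 / (ε * c₀)
        = ε * c₀ * ‖ξ‖ ^ 2 + K ^ 2 / (ε * c₀) * |c| ^ 2 - 2 * |c| * (K * ‖ξ‖) := by
      field_simp; ring
    rw [sq_abs] at h7
    linarith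
  have h8 : -(c ^ 2 * T η η) ≤ |T η η| * c ^ 2 := by
    have := neg_abs_le (T η η)
    nlinarith [sq_nonneg c]
  have h9 : (K ^ 2 / (ε * c₀) + |T η η|) / B η η ^ 2 * B η ξ ^ 2
      = K ^ 2 / (ε * c₀) * c ^ 2 + |T η η| * c ^ 2 := by
    rw [hcd]; field_simp
  have h10 : ε * c₀ * ‖ξ‖ ^ 2 ≤ ε * B ξ ξ := by
    rw [mul_assoc]; exact mul_le_mul_of_nonneg_left (hco ξ) hε.le
  rw [h9]
  nlinarith

end LD0X

theorem ld0 (B : E →L[ℝ] E →L[ℝ] ℝ) (hs : ∀ a b, B a b = B b a) (hp : ∀ a, a ≠ 0 → 0 < B a a)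
    {Ga Gb Gu : E → ℝ} {Sa Sb Su : E →L[ℝ] E →L[ℝ] ℝ} {a b : E} {θ : ℝ}
    (hθ : θ ∈ Icc (0 : ℝ) 1)
    (ha : ∀ ε > 0, ∀ᶠ ξ in 𝓝 (0 : E), |Ga ξ + B a ξ - Sa ξ ξ / 2| ≤ ε * B ξ ξ)
    (hb : ∀ ε > 0, ∀ᶠ ξ in 𝓝 (0 : E), |Gb ξ + B b ξ - Sb ξ ξ / 2| ≤ ε * B ξ ξ)
    (hu : ∀ ε > 0, ∀ᶠ ξ in 𝓝 (0 : E),
      |Gu ξ + B ((1 - θ) • a + θ • b) ξ - Su ξ ξ / 2| ≤ ε * B ξ ξ)
    (h0 : θ = 0 → Su = Sa) (h1 : θ = 1 → Su = Sb)
    (hc : ∀ ξ, B ξ (b - a) = 0 → (1 - θ) * Sa ξ ξ + θ * Sb ξ ξ ≤ Su ξ ξ) :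
    ∀ ε > 0, ∀ᶠ ξ in 𝓝 (0 : E), min (Ga ξ) (Gb ξ) ≤ Gu ξ + ε * B ξ ξ := by
  intro ε hε
  obtain ⟨c₀, hc₀, hco⟩ := exists_coercive B hp
  have hn : ∀ a, 0 ≤ B a a := fun a => le_trans (by positivity) (hco a)
  have hε4 : 0 < ε / 4 := by positivity
  rcases hθ.1.eq_or_lt with hθ0 | hθ0
  · have hS := h0 hθ0.symm
    filter_upwards [ha _ hε4, hu _ hε4] with ξ h2 h3
    rw [← hθ0, hS] at h3
    simp only [sub_zero, one_smul, zero_smul, add_zero] at h3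
    have h4 := abs_le.1 h2
    have h5 := abs_le.1 h3
    have h6 := mul_nonneg hε.le (hn ξ)
    have h7 := min_le_left (Ga ξ) (Gb ξ)
    linarith [h4.2, h5.1]
  rcases hθ.2.eq_or_lt with hθ1 | hθ1
  · have hS := h1 hθ1
    filter_upwards [hb _ hε4, hu _ hε4] with ξ h2 h3
    rw [hθ1, hS] at h3
    simp only [sub_self, one_smul, zero_smul, zero_add] at h3
    have h4 := abs_le.1 h2
    have h5 := abs_le.1 h3
    have h6 := mul_nonneg hε.le (hn ξ)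
    have h7 := min_le_right (Ga ξ) (Gb ξ)
    linarith [h4.2, h5.1]
  obtain ⟨A, hA0, hA⟩ := LD0X.quad B ((1 - θ) • Sa + θ • Sb - Su) hs hp (b - a)
    (fun ξ h => by
      have := hc ξ h
      simp only [sub_apply, add_apply, smul_apply, smul_eq_mul]
      linarith) hε4
  obtain ⟨K, hK⟩ : ∃ K : ℝ, K = ‖Sb - Sa‖ := ⟨_, rfl⟩
  have hK0 : 0 ≤ K := by rw [hK]; positivity
  have hcont : Tendsto (fun ξ : E => A * B (b - a) ξ / 2) (𝓝 0) (𝓝 0) := by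
    have h2 : Continuous fun ξ : E => A * B (b - a) ξ / 2 := by fun_prop
    simpa using h2.tendsto 0
  have hm : 0 < min (min θ (1 - θ)) (ε * c₀ / (4 * (K + 1))) :=
    lt_min (lt_min hθ0 (by linarith)) (by positivity)
  have hev : ∀ᶠ ξ in 𝓝 (0 : E), |A * B (b - a) ξ / 2|
      < min (min θ (1 - θ)) (ε * c₀ / (4 * (K + 1))) := by
    have h2 := (Metric.tendsto_nhds.1 hcont) _ hm
    filter_upwards [h2] with ξ h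
    rwa [Real.dist_eq, sub_zero] at h
  filter_upwards [ha _ hε4, hb _ hε4, hu _ hε4, hev] with ξ h2 h3 h4 h5
  have hT := hA ξ
  simp only [sub_apply, add_apply, smul_apply, smul_eq_mul, map_add, map_smul, map_sub] at hT h4 h5
  obtain ⟨δ, hδ⟩ : ∃ δ : ℝ, δ = A * (B b ξ - B a ξ) / 2 := ⟨_, rfl⟩
  rw [← hδ] at h5
  have h51 : |δ| < θ := h5.trans_le ((min_le_left _ _).trans (min_le_left _ _))
  have h52 : |δ| < 1 - θ := h5.trans_le ((min_le_left _ _).trans (min_le_right _ _))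
  have h53 : |δ| < ε * c₀ / (4 * (K + 1)) := h5.trans_le (min_le_right _ _)
  have hl : 0 ≤ θ + δ := by linarith [neg_abs_le δ]
  have hr : 0 ≤ 1 - (θ + δ) := by linarith [le_abs_self δ]
  have hmin : min (Ga ξ) (Gb ξ) ≤ (1 - (θ + δ)) * Ga ξ + (θ + δ) * Gb ξ := by
    have e1 := mul_le_mul_of_nonneg_left (min_le_left (Ga ξ) (Gb ξ)) hr
    have e2 := mul_le_mul_of_nonneg_left (min_le_right (Ga ξ) (Gb ξ)) hl
    linarith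
  have hGa : Ga ξ ≤ -B a ξ + Sa ξ ξ / 2 + ε / 4 * B ξ ξ := by linarith [(abs_le.1 h2).2]
  have hGb : Gb ξ ≤ -B b ξ + Sb ξ ξ / 2 + ε / 4 * B ξ ξ := by linarith [(abs_le.1 h3).2]
  have hGu := (abs_le.1 h4).1
  have e1 := mul_le_mul_of_nonneg_left hGa hr
  have e2 := mul_le_mul_of_nonneg_left hGb hl
  have hS : |Sb ξ ξ - Sa ξ ξ| ≤ K * ‖ξ‖ ^ 2 := by
    have := (Sb - Sa).le_opNorm₂ ξ ξ
    simp only [sub_apply, Real.norm_eq_abs] at this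
    rw [hK]; linarith [sq ‖ξ‖, mul_assoc ‖Sb - Sa‖ ‖ξ‖ ‖ξ‖, this, (by rw [sq] :
      ‖Sb - Sa‖ * ‖ξ‖ ^ 2 = ‖Sb - Sa‖ * (‖ξ‖ * ‖ξ‖))]
  have hδS : δ * (Sb ξ ξ - Sa ξ ξ) ≤ ε / 4 * B ξ ξ := by
    have f1 : δ * (Sb ξ ξ - Sa ξ ξ) ≤ |δ| * (K * ‖ξ‖ ^ 2) := by
      calc δ * (Sb ξ ξ - Sa ξ ξ) ≤ |δ * (Sb ξ ξ - Sa ξ ξ)| := le_abs_self _
        _ = |δ| * |Sb ξ ξ - Sa ξ ξ| := abs_mul _ _
        _ ≤ _ := mul_le_mul_of_nonneg_left hS (abs_nonneg _)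
    have f2 : |δ| * K ≤ ε / 4 * c₀ := by
      have g1 : |δ| * (4 * (K + 1)) < ε * c₀ := by
        rwa [lt_div_iff₀ (by positivity)] at h53
      nlinarith [abs_nonneg δ]
    have f3 : |δ| * K * ‖ξ‖ ^ 2 ≤ ε / 4 * c₀ * ‖ξ‖ ^ 2 :=
      mul_le_mul_of_nonneg_right f2 (by positivity)
    have f4 := mul_le_mul_of_nonneg_left (hco ξ) hε4.le
    linarith [mul_assoc |δ| K (‖ξ‖ ^ 2), mul_assoc (ε / 4) c₀ (‖ξ‖ ^ 2)]
  have hδl : δ * (B b ξ - B a ξ) = A * (B b ξ - B a ξ) ^ 2 / 2 := by rw [hδ]; ring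
  have hB := mul_nonneg hε.le (hn ξ)
  nlinarith

end Vale.Agent.P234
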