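import Vale.Agent.P234.Gauss

open scoped ContDiff Manifold Topology
open Set Filter

noncomputable section

namespace Vale.Agent.P234

open Vale.Agent.P255

variable {E : Type} [NormedAddCommGroup E] [NormedSpace ℝ E] [FiniteDimensional ℝ E]
variable {M : Type} [TopologicalSpace M] [ChartedSpace E M] [IsManifold 𝓘(ℝ, E) ∞ M] [T2Space M]
  [CompactSpace M] [ConnectedSpace M]
variable {g : RMetric E M} {e e' : OpenPartialHomeomorph M E}

theorem linv (g : RMetric E M) {s : M × E} (he : e ∈ atlas E M) (he' : e' ∈ atlas E M)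
    (hs : s.1 ∈ e.source) (hs' : ex g s.1 s.2 ∈ e'.source)
    (hinj : Function.Injective (fderiv ℝ (e' ∘ ex g s.1) s.2)) :
    ∃ Ψ, Inv g e e' Ψ ∧ Lam e s ∈ Ψ.source := by
  have hz : (Lam e s).1 ∈ e.target := e.map_source hs
  have h0 : exL g e (Lam e s) = ex g s.1 s.2 := exL_Lam g he hs s.2
  obtain ⟨hc, hd⟩ := exL_sm g he he' hz (h0 ▸ hs')
  have hF : ContDiffAt ℝ 4 (fun z : E × E => (z.1, e' (exL g e z))) (Lam e s) :=
    contDiffAt_fst.prodMk hd
  have d1 := (hd.differentiableAt (by simp)).hasFDerivAt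
  have d2 := (hasFDerivAt_fst (𝕜 := ℝ) (p := Lam e s)).prodMk d1
  have d3 : ∀ b, fderiv ℝ (fun z' => e' (exL g e z')) (Lam e s) (0, toChart e s.1 b) =
      fderiv ℝ (e' ∘ ex g s.1) s.2 b := fun b => by
    have h1 := d1.comp s.2 ((hasFDerivAt_const (e s.1) s.2).prodMk (toChart e s.1).hasFDerivAt)
    have h2 : (fun z' => e' (exL g e z')) ∘ (fun v => (e s.1, toChart e s.1 v)) = e' ∘ ex g s.1 :=
      funext fun v => congrArg e' (exL_Lam g he hs v)
    rw [h2] at h1
    rw [h1.fderiv]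
    rfl
  have hi : Function.Injective ((ContinuousLinearMap.fst ℝ E E).prod
      (fderiv ℝ (fun z' => e' (exL g e z')) (Lam e s))) := by
    rw [injective_iff_map_eq_zero]
    rintro ⟨a, b⟩ h
    obtain rfl : a = 0 := congrArg Prod.fst h
    have h1 := toChart_ofChart he hz b
    rw [show e.symm (Lam e s).1 = s.1 from e.left_inv hs] at h1
    have h2 := (d3 _).symm.trans (h1.symm ▸ congrArg Prod.snd h)
    rw [hinj (h2.trans (map_zero _).symm), map_zero] at h1
    rw [← h1]
    rfl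
  let L : (E × E) ≃L[ℝ] (E × E) := (LinearEquiv.ofInjectiveEndo (((ContinuousLinearMap.fst ℝ E E).prod
    (fderiv ℝ (fun z' => e' (exL g e z')) (Lam e s))) : E × E →ₗ[ℝ] E × E) hi).toContinuousLinearEquiv
  have d4 : HasFDerivAt (fun z : E × E => (z.1, e' (exL g e z))) (L : E × E →L[ℝ] E × E)
      (Lam e s) := d2
  let Φ := hF.toOpenPartialHomeomorph _ d4 (by simp)
  have hΦ : Lam e s ∈ Φ.source := hF.mem_toOpenPartialHomeomorph_source d4 (by simp)
  have hinv : ContDiffAt ℝ 4 Φ.symm (Φ (Lam e s)) := hF.to_localInverse d4 (by simp)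
  obtain ⟨U, hU, oU, mU⟩ := _root_.eventually_nhds_iff.1
    (((hF.eventually (by simp)).and (continuousAt_fst.eventually (e.open_target.mem_nhds hz))).and
      (hc.eventually (e'.open_source.mem_nhds (h0 ▸ hs'))))
  obtain ⟨V, hV, oV, mV⟩ := _root_.eventually_nhds_iff.1 (hinv.eventually (by simp))
  refine ⟨((Φ.restrOpen U oU).symm.restrOpen V oV).symm, ⟨fun z hz => (hU z hz.1.2).1.2,
    fun z hz => (hU z hz.1.2).2, fun z _ => rfl, fun z hz => (hU z hz.1.2).1.1.contDiffWithinAt,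
    fun z hz => (hV z hz.2).contDiffWithinAt⟩, ⟨hΦ, mU⟩, mV⟩

end Vale.Agent.P234
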