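import Vale.Agent.P234.H2b
import Vale.Agent.P234.H3b
import Vale.Agent.P234.Exp

open scoped ContDiff Manifold Topology
open Set Filter

noncomputable section

namespace Vale.Agent.P234

open Vale.Agent.P255

variable {E : Type} [NormedAddCommGroup E] [NormedSpace ℝ E] [FiniteDimensional ℝ E]
variable {M : Type} [TopologicalSpace M] [ChartedSpace E M] [IsManifold 𝓘(ℝ, E) ∞ M] [T2Space M]
  [CompactSpace M] [ConnectedSpace M]
variable {g : RMetric E M} {e e' : OpenPartialHomeomorph M E}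

variable {a : Bool → ℝ} {y : Bool → M}


theorem pp_step (hc : CCp g) {t : ℝ} (h : PP g a y t) (h0 : 0 < t) (h1 : t < 1) :
    ∃ t' > t, PP g a y t' := by
  obtain ⟨δ, hδ, hl⟩ := lgap hc h h1
  obtain ⟨C, hC, s₁, hs₁, hb⟩ := ubd hc h h0 h1
  obtain ⟨ε, hε, hs⟩ := pstep (g := g) (a := a) (y := y) (2 * C ^ 2 / (δ * t ^ 2) + 2 * C / t)
  obtain ⟨s, s0, s1, s2, s3⟩ : ∃ s, t / 2 ≤ s ∧ s₁ ≤ s ∧ t - ε / 2 ≤ s ∧ s < t :=
    ⟨max (t / 2) (max s₁ (t - ε / 2)), le_max_left _ _, (le_max_left _ _).trans (le_max_right _ _),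
      (le_max_right _ _).trans (le_max_right _ _), max_lt (by linarith) (max_lt hs₁ (by linarith))⟩
  have sp : 0 < s := by linarith
  obtain ⟨δ', hδ', hg⟩ := ggap h sp s3
  refine ⟨s + ε, by linarith, hs s sp (gpar sp (h.mono sp s3.le) fun x v hv => ?_)⟩
  filter_upwards [lpar sp hδ hδ' hC (hl s sp s3 x v hv) (hb s sp s1 s3 x v hv) (hg x v hv)]
    with ζ hζ x'
  refine le_trans ?_ (hζ x')
  have k1 : C ^ 2 / (2 * δ * s ^ 2) ≤ 2 * C ^ 2 / (δ * t ^ 2) := by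
    rw [div_le_div_iff₀ (by positivity) (by positivity)]
    have : t ^ 2 ≤ 4 * s ^ 2 := by nlinarith
    have h3 : 0 ≤ C ^ 2 * δ := by positivity
    nlinarith
  have k2 : C / s ≤ 2 * C / t := by
    rw [div_le_div_iff₀ sp h0]
    nlinarith
  have k3 := mul_le_mul_of_nonneg_right (add_le_add k1 k2) (N_nonneg g (Phi g s (x, v)).1 ζ)
  linarith

theorem pp_all (hc : CCp g) {t : ℝ} (h0 : 0 < t) (h1 : t < 1) : PP g a y t := by
  by_contra hn
  obtain ⟨t₀, p0, p1⟩ := pp_init (g := g) (a := a) (y := y)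
  have hb : ∀ s ∈ {s | 0 < s ∧ PP g a y s}, s ≤ t := fun s hs =>
    le_of_not_gt fun hlt => hn (hs.2.mono h0 hlt.le)
  have hne : {s | 0 < s ∧ PP g a y s}.Nonempty := ⟨t₀, p0, p1⟩
  have h2 : t₀ ≤ sSup {s | 0 < s ∧ PP g a y s} := le_csSup ⟨t, hb⟩ ⟨p0, p1⟩
  have h3 : sSup {s | 0 < s ∧ PP g a y s} ≤ t := csSup_le hne hb
  have h4 : PP g a y (sSup {s | 0 < s ∧ PP g a y s}) := by
    refine PP.closed (p0.trans_le h2) fun s s0 s1 => ?_
    obtain ⟨u, hu, hsu⟩ := exists_lt_of_lt_csSup hne s1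
    exact hu.2.mono s0 hsu.le
  obtain ⟨t', q0, q1⟩ := pp_step hc h4 (p0.trans_le h2) (h3.trans_lt h1)
  exact absurd (le_csSup ⟨t, hb⟩ ⟨(p0.trans_le h2).trans q0, q1⟩) (not_le.2 q0)

theorem convex_II (hc : CCp g) (x : M) : Convex ℝ (II g x) := by
  rintro v₀ ⟨c₀, hc₀, h₀⟩ v₁ ⟨c₁, hc₁, h₁⟩ α β hα hβ hαβ
  have hc1 : 1 < min c₀ c₁ := lt_min hc₀ hc₁
  set c := min c₀ c₁ with hcd
  have key : ∀ (v : E) (c' : ℝ), c ≤ c' → c' • v ∈ Ib g x → c • v ∈ Ib g x := fun v c' h1 h2 => by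
    have := Ib_smul h2 (t := c / c') (by apply div_nonneg <;> linarith)
      (by rw [div_le_one (by linarith)]; exact h1)
    rwa [smul_smul, div_mul_cancel₀ _ (by linarith : c' ≠ 0)] at this
  have u0 := key v₀ c₀ (min_le_left _ _) h₀
  have u1 := key v₁ c₁ (min_le_right _ _) h₁
  let y : Bool → M := fun i => ex g x (c • (cond i v₁ v₀))
  let a : Bool → ℝ := fun i => dst g x (y i) ^ 2 / 2
  have hφ : phi g a y x = 0 := by simp [phi, a]
  have m0 : c • v₀ ∈ DD g a y x := subset_convexHull ℝ _ ⟨u0, false, rfl, by simp [hφ, a]⟩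
  have m1 : c • v₁ ∈ DD g a y x := subset_convexHull ℝ _ ⟨u1, true, rfl, by simp [hφ, a]⟩
  have m := convex_convexHull ℝ _ m0 m1 hα hβ hαβ
  have ht0 : 0 < (1 + c⁻¹) / 2 := by positivity
  have hi : c⁻¹ < 1 := inv_lt_one_of_one_lt₀ hc1
  have := (pp_all (a := a) (y := y) hc ht0 (by linarith)).Ib ht0 m
  refine ⟨(1 + c⁻¹) / 2 * c, ?_, ?_⟩
  · have : (1 + c⁻¹) / 2 * c = (c + 1) / 2 := by field_simp
    rw [this]; linarith
  · convert this using 1
    simp only [smul_add, smul_smul]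
    congr 1 <;> congr 1 <;> ring

theorem main (h : WeakMTW g) (x : M) : Convex ℝ (injDom g x) := by
  rw [injDom_eq]
  exact convex_II (ccp_of (wm_of h)) x

end Vale.Agent.P234
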