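import Vale.Agent.P234.Arc

open scoped ContDiff Manifold Topology
open Set Filter

noncomputable section

namespace Vale.Agent.P234

open Vale.Agent.P255

variable {E : Type} [NormedAddCommGroup E] [NormedSpace ℝ E] [FiniteDimensional ℝ E]
variable {M : Type} [TopologicalSpace M] [ChartedSpace E M] [IsManifold 𝓘(ℝ, E) ∞ M] [T2Space M]
  [CompactSpace M] [ConnectedSpace M]
variable {g : RMetric E M} {e e' : OpenPartialHomeomorph M E}

theorem Reach.nonneg {x y : M} {L : ℝ} (h : Reach g x y L) : 0 ≤ L := by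
  induction h with
  | refl => exact le_rfl
  | step L σ a b _ hab _ ih =>
    exact add_nonneg ih (intervalIntegral.integral_nonneg hab fun t _ => Real.sqrt_nonneg _)

theorem Reach.trans {x y z : M} {L L' : ℝ} (h : Reach g x y L) (h' : Reach g y z L') :
    Reach g x z (L + L') := by
  induction h' with
  | refl => simpa using h
  | step L' σ a b _ hab hσ ih =>
    rw [← add_assoc]
    exact Reach.step _ σ a b ih hab hσ

theorem Reach.single {σ : ℝ → M} {a b : ℝ} (hab : a ≤ b)
    (h : ∀ t ∈ Icc a b, ContMDiffAt 𝓘(ℝ, ℝ) 𝓘(ℝ, E) 1 σ t) :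
    Reach g (σ a) (σ b) (∫ t in a..b, spd g σ t) := by
  simpa using Reach.step 0 σ a b Reach.refl hab h

theorem Reach.symm {x y : M} {L : ℝ} (h : Reach g x y L) : Reach g y x L := by
  induction h with
  | refl => exact Reach.refl
  | step L σ a b _ hab hσ ih =>
    have h1 : ∀ t ∈ Icc a b, ContMDiffAt 𝓘(ℝ, ℝ) 𝓘(ℝ, E) 1 (fun t => σ (a + b - t)) t := by
      intro t ht
      have h2 : ContMDiffAt 𝓘(ℝ, ℝ) 𝓘(ℝ, ℝ) 1 (fun t : ℝ => a + b - t) t :=
        (contDiff_const.sub contDiff_id).contMDiff t
      exact (hσ (a + b - t) ⟨by linarith [ht.2], by linarith [ht.1]⟩).comp t h2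
    have h2 := Reach.single (g := g) hab h1
    have h3 : ∀ t, spd g (fun t => σ (a + b - t)) t = spd g σ (a + b - t) := by
      intro t
      have h4 : vel E (fun t => σ (a + b - t)) t = -vel E σ (a + b - t) :=
        deriv_comp_const_sub (chartAt E (σ (a + b - t)) ∘ σ) (a + b) t
      simp [spd, h4]
    simp only [h3, intervalIntegral.integral_comp_sub_left, add_sub_cancel_left,
      add_sub_cancel_right] at h2
    rw [add_comm]
    exact h2.trans ih

theorem dst_le {x y : M} {L : ℝ} (h : Reach g x y L) : dst g x y ≤ L :=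
  csInf_le ⟨0, fun _ h' => Reach.nonneg h'⟩ h

theorem dst_nonneg (g : RMetric E M) (x y : M) : 0 ≤ dst g x y :=
  Real.sInf_nonneg fun _ h' => Reach.nonneg h'

theorem dst_self (g : RMetric E M) (x : M) : dst g x x = 0 :=
  le_antisymm (dst_le Reach.refl) (dst_nonneg g x x)

theorem dst_symm (g : RMetric E M) (x y : M) : dst g x y = dst g y x := by
  have : {L | Reach g x y L} = {L | Reach g y x L} := Set.ext fun _ => ⟨Reach.symm, Reach.symm⟩
  rw [dst, dst, this]

end Vale.Agent.P234
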