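import Vale.Agent.P234.TM

open scoped ContDiff Manifold Topology
open Set Filter

noncomputable section

namespace Vale.Agent.P234

open Vale.Agent.P255

variable {E : Type} [NormedAddCommGroup E] [NormedSpace ℝ E] [FiniteDimensional ℝ E]
variable {M : Type} [TopologicalSpace M] [ChartedSpace E M] [IsManifold 𝓘(ℝ, E) ∞ M] [T2Space M]
  [CompactSpace M] [ConnectedSpace M]
variable {g : RMetric E M} {e e' : OpenPartialHomeomorph M E}

theorem seq_cpt (g : RMetric E M) {u : ℕ → M × E} {R : ℝ}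
    (h : ∀ n, g.inner (u n).1 (u n).2 (u n).2 ≤ R) :
    ∃ (s : M × E) (φ : ℕ → ℕ), StrictMono φ ∧ Tendsto (fun n => u (φ n)) atTop (nhT s) := by
  haveI : ProperSpace E := FiniteDimensional.proper_real E
  haveI : SecondCountableTopology M := ChartedSpace.secondCountable_of_sigmaCompact E M
  obtain ⟨x, -, φ, hφ, hx⟩ := isCompact_univ.tendsto_subseq (x := fun n => (u n).1)
    fun n => mem_univ _
  have he := chart_mem_atlas E x
  have hs := mem_chart_source E x
  obtain ⟨C, hC, hl⟩ := loc_coer g he hs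
  obtain ⟨N, hN⟩ := eventually_atTop.1 ((hx.eventually ((chartAt E x).open_source.mem_nhds hs)).and
    ((((chartAt E x).continuousAt hs).tendsto.comp hx).eventually hl))
  obtain ⟨w, -, ψ, hψ, hw⟩ := (isCompact_closedBall (0 : E) (C * R + 1)).tendsto_subseq
    (x := fun n => toChart (chartAt E x) (u (φ (n + N))).1 (u (φ (n + N))).2) fun n => by
      obtain ⟨a, b⟩ := hN (n + N) (Nat.le_add_left _ _)
      have c := (b.2 (toChart (chartAt E x) (u (φ (n + N))).1 (u (φ (n + N))).2)).2
      simp only [Function.comp_apply] at a c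
      rw [loc_toChart g.inner he a] at c
      have d := c.trans (mul_le_mul_of_nonneg_left (h _) hC.le)
      rw [mem_closedBall_zero_iff]
      nlinarith [sq_nonneg (‖toChart (chartAt E x) (u (φ (n + N))).1 (u (φ (n + N))).2‖ - 1)]
  have hm : StrictMono fun n => ψ n + N := fun a b hab => Nat.add_lt_add_right (hψ hab) N
  have t := hx.comp hm.tendsto_atTop
  refine ⟨(x, w), fun n => φ (ψ n + N), hφ.comp hm, (tendsto_nhT (s := (x, w)) he hs).2 ⟨t, ?_⟩⟩
  have : Lam (chartAt E x) (x, w) = (chartAt E x x, w) := by simp [Lam, toChart_self]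
  rw [this]
  exact (((chartAt E x).continuousAt hs).tendsto.comp t).prodMk_nhds hw

theorem unif (g : RMetric E M) {P : ℝ → M × E → Prop} {R : ℝ}
    (mono : ∀ C C' s, C ≤ C' → P C s → P C' s)
    (h : ∀ s : M × E, g.inner s.1 s.2 s.2 ≤ R → ∃ C, ∀ᶠ s' in nhT s, P C s') :
    ∃ C > 0, ∀ s : M × E, g.inner s.1 s.2 s.2 ≤ R → P C s := by
  by_contra hn
  push_neg at hn
  choose u hu hu' using fun n : ℕ => hn (n + 1) (by positivity)
  obtain ⟨s, φ, hφ, hl⟩ := seq_cpt g hu
  obtain ⟨C, hC⟩ := h s (le_of_tendsto' ((tendsto_N g s).comp hl) fun n => hu _)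
  have t : Tendsto (fun n => (φ n : ℝ) + 1) atTop atTop :=
    tendsto_atTop_add_const_right _ _ (tendsto_natCast_atTop_atTop.comp hφ.tendsto_atTop)
  obtain ⟨n, a, b⟩ := ((hl.eventually hC).and (t.eventually_ge_atTop C)).exists
  exact hu' (φ n) (mono _ _ _ b a)

end Vale.Agent.P234
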