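import Vale.Agent.P234.HR

open scoped ContDiff Manifold Topology
open Set Filter

noncomputable section

namespace Vale.Agent.P234

open Vale.Agent.P255

variable {E : Type} [NormedAddCommGroup E] [NormedSpace ℝ E] [FiniteDimensional ℝ E]
variable {M : Type} [TopologicalSpace M] [ChartedSpace E M] [IsManifold 𝓘(ℝ, E) ∞ M] [T2Space M]
  [CompactSpace M] [ConnectedSpace M]
variable {g : RMetric E M} {e e' : OpenPartialHomeomorph M E}

theorem st (g : RMetric E M) (K R : ℝ) : ∃ ε₀ > 0, ∀ ε, 0 < ε → ε ≤ ε₀ → ∀ z p z',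
    g.inner z p p ≤ R ^ 2 → ∃ ζ, ex g z ζ = z' ∧ ε * g.inner z p p / 2 ≤
      g.inner z p ζ - K * g.inner z ζ ζ + dst g z' (ex g z (ε • p)) ^ 2 / (2 * ε) := by
  obtain ⟨r, hr0, hlc⟩ := lc g
  have hR1 : 0 < |R| + 1 := by positivity
  have hK1 : 0 < |K| + 1 := by positivity
  refine ⟨min (r / (8 * (|R| + 1))) (1 / (4 * (|K| + 1))), by positivity, ?_⟩
  intro ε hε hε0 z p z' hp
  have h1 : ε * (8 * (|R| + 1)) ≤ r := by
    have := hε0.trans (min_le_left _ _)
    rwa [le_div_iff₀ (by positivity)] at this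
  have h2 : ε * (4 * (|K| + 1)) ≤ 1 := by
    have := hε0.trans (min_le_right _ _)
    rwa [le_div_iff₀ (by positivity)] at this
  obtain ⟨ζ, hζ, hz⟩ := hr g z z'
  refine ⟨ζ, hz, ?_⟩
  have hNp := N_nonneg g z p
  have hNζ := N_nonneg g z ζ
  have hKa : K ≤ |K| := le_abs_self K
  have hR0 : 0 ≤ |R| := abs_nonneg R
  have hK0 : 0 ≤ |K| := abs_nonneg K
  have hP : √(g.inner z p p) ≤ |R| := by
    rw [← Real.sqrt_sq_eq_abs]; exact Real.sqrt_le_sqrt hp
  have hP0 : 0 ≤ √(g.inner z p p) := Real.sqrt_nonneg _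
  have hPP : √(g.inner z p p) ^ 2 = g.inner z p p := Real.sq_sqrt hNp
  have hεP : ε * √(g.inner z p p) ≤ r / 8 := by nlinarith
  have key : ε * (ε * g.inner z p p) - 2 * ε * g.inner z p ζ + 2 * ε * K * g.inner z ζ ζ ≤
      dst g z' (ex g z (ε • p)) ^ 2 := by
    by_cases hc : g.inner z ζ ζ ≤ r ^ 2
    · have h3 : g.inner z (ε • p) (ε • p) ≤ r ^ 2 := by
        rw [N_smul, ← hPP, ← mul_pow]
        exact pow_le_pow_left₀ (by positivity) (by linarith) 2
      have h4 := (abs_le.1 (hlc z ζ (ε • p) hc h3).1).1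
      rw [N_sub, N_smul, hz] at h4
      simp only [map_smul, ContinuousLinearMap.smul_apply, smul_eq_mul] at h4
      have h5 : 2 * ε * K ≤ 1 / 2 := by nlinarith
      nlinarith [mul_le_mul_of_nonneg_right h5 hNζ]
    · push Not at hc
      have hA : r ≤ √(g.inner z ζ ζ) := Real.le_sqrt_of_sq_le hc.le
      have hAA : √(g.inner z ζ ζ) ^ 2 = g.inner z ζ ζ := Real.sq_sqrt hNζ
      have hd : dst g z z' = √(g.inner z ζ ζ) := by rw [← hz]; exact mem_Ib.1 hζ
      have h3 := dst_ex_le g z (ε • p)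
      rw [sqrt_smul, abs_of_pos hε] at h3
      have h4 := dst_tri g z (ex g z (ε • p)) z'
      rw [dst_symm g (ex g z (ε • p)) z', hd] at h4
      have h5 : √(g.inner z ζ ζ) - ε * √(g.inner z p p) ≤ dst g z' (ex g z (ε • p)) := by
        linarith
      have h6 := pow_le_pow_left₀ (by linarith) h5 2
      have h7 := (abs_le.1 (cs_abs g z p ζ)).1
      set A := √(g.inner z ζ ζ)
      set P := √(g.inner z p p)
      rw [← hPP, ← hAA]
      have hA0 : 0 ≤ A := by linarith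
      have h8 : 2 * ε * K ≤ 1 / 2 := by nlinarith
      have h9 : 2 * ε * K * A ^ 2 ≤ 1 / 2 * A ^ 2 :=
        mul_le_mul_of_nonneg_right h8 (sq_nonneg A)
      have h10 : ε * P * A ≤ A / 8 * A := mul_le_mul_of_nonneg_right (by linarith) hA0
      have h11 : ε * (-(P * A)) ≤ ε * g.inner z p ζ := mul_le_mul_of_nonneg_left h7 hε.le
      nlinarith
  have h3 : (ε * (ε * g.inner z p p) - 2 * ε * g.inner z p ζ + 2 * ε * K * g.inner z ζ ζ) / (2 * ε)
      ≤ dst g z' (ex g z (ε • p)) ^ 2 / (2 * ε) :=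
    div_le_div_of_nonneg_right key (by positivity)
  have h4 : (ε * (ε * g.inner z p p) - 2 * ε * g.inner z p ζ + 2 * ε * K * g.inner z ζ ζ) / (2 * ε)
      = ε * g.inner z p p / 2 - g.inner z p ζ + K * g.inner z ζ ζ := by
    field_simp
  linarith

end Vale.Agent.P234
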