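import Vale.Agent.P234.INF
import Vale.Agent.P234.BD
import Vale.Agent.P234.LD0
import Vale.Agent.P234.CC0

open scoped ContDiff Manifold Topology
open Set Filter

noncomputable section

namespace Vale.Agent.P234

open Vale.Agent.P255

variable {E : Type} [NormedAddCommGroup E] [NormedSpace ℝ E] [FiniteDimensional ℝ E]
variable {M : Type} [TopologicalSpace M] [ChartedSpace E M] [IsManifold 𝓘(ℝ, E) ∞ M] [T2Space M]
  [CompactSpace M] [ConnectedSpace M]
variable {g : RMetric E M} {e e' : OpenPartialHomeomorph M E}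

namespace SecX

theorem sm {x : M} {q : E} (hq : q ∈ II g x) : ContDiffAt ℝ 2 (GG g x q) 0 :=
  (ContDiffAt.comp (f := fun ξ : E => (ξ, q)) 0 (sm4 hq) (by fun_prop)).of_le (by norm_num)

theorem eq2 (g : RMetric E M) (x : M) (q : E) :
    (fun ξ => dst g (ex g x ξ) (ex g x q) ^ 2) = (2 : ℝ) • GG g x q := by
  funext ξ
  simp only [GG, Pi.smul_apply, smul_eq_mul]
  ring

theorem sm' {x : M} {q : E} (hq : q ∈ II g x) :
    ContDiffAt ℝ 2 (fun ξ => dst g (ex g x ξ) (ex g x q) ^ 2) 0 := by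
  rw [eq2]
  exact (sm hq).const_smul (2 : ℝ)

end SecX

theorem gg_peano {x : M} {q : E} (hq : q ∈ II g x) : ∀ ε > 0, ∀ᶠ ξ in 𝓝 (0 : E),
    |GG g x q ξ - g.inner x q q / 2 + g.inner x q ξ - SS g x q ξ ξ / 2| ≤ ε * g.inner x ξ ξ := by
  intro ε hε
  obtain ⟨C, hC, hN⟩ := N_le_norm g x
  have h1 := gr0 (II_sub hq) ((SecX.sm' hq).of_le (by norm_num))
  rw [SecX.eq2, fderiv_const_smul_of_field] at h1
  have h2 : GG g x q 0 = g.inner x q q / 2 := by
    rw [GG, ex_zero, show dst g x (ex g x q) ^ 2 = _ from II_sub hq]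
  filter_upwards [peano (SecX.sm hq) (div_pos hε hC)] with ξ hξ
  have h3 := congrArg (fun L : E →L[ℝ] ℝ => L ξ) h1
  simp only [Pi.smul_apply, ContinuousLinearMap.smul_apply, smul_eq_mul] at h3
  have h4 : fderiv ℝ (GG g x q) 0 ξ = -g.inner x q ξ := by linarith
  rw [zero_add, h2, h4, sub_neg_eq_add] at hξ
  refine hξ.trans ?_
  rw [div_mul_eq_mul_div, div_le_iff₀ hC]
  nlinarith [(hN ξ).2]

theorem ss_symm {x : M} {q : E} (hq : q ∈ II g x) (a b : E) : SS g x q a b = SS g x q b a := ((SecX.sm hq).isSymmSndFDerivAt (by simp)).eq a b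

theorem ss_rad {x : M} {q : E} (hq : q ∈ II g x) (ξ : E) : SS g x q q ξ = g.inner x q ξ := by
  have h1 := gr2 (II_sub hq) (SecX.sm' hq) ξ
  have h2 : DifferentiableAt ℝ (fderiv ℝ (GG g x q)) 0 :=
    ((SecX.sm hq).fderiv_right (m := 1) (by norm_num)).differentiableAt one_ne_zero
  have h3 := (h2.hasFDerivAt.const_smul (2 : ℝ)).fderiv
  rw [SecX.eq2, fderiv_const_smul_of_field, h3] at h1
  simp only [ContinuousLinearMap.smul_apply, smul_eq_mul] at h1
  unfold SS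
  linarith

theorem ccp_of (h : WM g) : CCp g := by
  intro x a b ξ hs hξ θ hθ
  have m : ∀ σ ∈ Icc (0 : ℝ) 1, a + σ • (b - a) ∈ II g x := fun σ hσ =>
    hs (by rw [segment_eq_image']; exact ⟨σ, hσ, rfl⟩)
  have h1 := cc0 (F := fun p : E × E => GG g x p.2 p.1) (a := a) (η := b - a) (ξ := ξ)
    (fun σ hσ => sm4 (m σ hσ)) (fun σ hσ => h x _ (m σ hσ) ξ _ hξ)
  have h2 := h1.2 (left_mem_Icc.2 zero_le_one) (right_mem_Icc.2 zero_le_one)
    (sub_nonneg.2 hθ.2) hθ.1 (sub_add_cancel 1 θ)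
  have e1 : a + θ • (b - a) = (1 - θ) • a + θ • b := by module
  simp only [smul_eq_mul, mul_zero, mul_one, zero_add, zero_smul, add_zero, one_smul,
    add_sub_cancel, e1] at h2
  exact h2

theorem ld (hc : CCp g) {x : M} {a b : E} (hs : segment ℝ a b ⊆ II g x) {θ : ℝ}
    (hθ : θ ∈ Icc (0 : ℝ) 1) : ∀ ε > 0, ∀ᶠ ξ in 𝓝 (0 : E),
      min (GG g x a ξ - g.inner x a a / 2) (GG g x b ξ - g.inner x b b / 2) ≤
        GG g x ((1 - θ) • a + θ • b) ξ
          - g.inner x ((1 - θ) • a + θ • b) ((1 - θ) • a + θ • b) / 2 + ε * g.inner x ξ ξ := by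
  have m : (1 - θ) • a + θ • b ∈ II g x := hs ⟨1 - θ, θ, sub_nonneg.2 hθ.2, hθ.1, by ring, rfl⟩
  exact ld0 (g.inner x) (g.symm x) (g.pos x) (Ga := fun ξ => GG g x a ξ - g.inner x a a / 2)
    (Gb := fun ξ => GG g x b ξ - g.inner x b b / 2)
    (Gu := fun ξ => GG g x ((1 - θ) • a + θ • b) ξ
      - g.inner x ((1 - θ) • a + θ • b) ((1 - θ) • a + θ • b) / 2) hθ
    (gg_peano (hs (left_mem_segment ℝ a b))) (gg_peano (hs (right_mem_segment ℝ a b)))
    (gg_peano m) (by rintro rfl; simp) (by rintro rfl; simp) fun ξ hξ => hc x a b ξ hs hξ θ hθ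

end Vale.Agent.P234
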