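import Vale.Agent.P234.GInv
import Vale.Agent.P234.Cut
import Vale.Agent.P234.Geo

open scoped ContDiff Manifold Topology
open Set Filter

noncomputable section

namespace Vale.Agent.P234

open Vale.Agent.P255

variable {E : Type} [NormedAddCommGroup E] [NormedSpace ℝ E] [FiniteDimensional ℝ E]
variable {M : Type} [TopologicalSpace M] [ChartedSpace E M] [IsManifold 𝓘(ℝ, E) ∞ M] [T2Space M]
  [CompactSpace M] [ConnectedSpace M]
variable {g : RMetric E M} {e e' : OpenPartialHomeomorph M E}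

namespace ShortX

omit [FiniteDimensional ℝ E] in
theorem pl_of {B : E →L[ℝ] E →L[ℝ] ℝ} {φ : E → ℝ} {L : E →L[ℝ] ℝ} {y : E}
    (h : HasFDerivAt φ L y) (hL : ∀ a, |L a| ≤ √(B a a)) : PL B φ y := by
  intro ε hε
  filter_upwards [h.isLittleO.def hε] with y' hy
  rw [Real.norm_eq_abs] at hy
  have h1 := abs_add_le (φ y' - φ y - L (y' - y)) (L (y' - y))
  rw [sub_add_cancel] at h1
  linarith [hL (y' - y)]

theorem key (g : RMetric E M) (he : e ∈ atlas E M)
    {Ψ : OpenPartialHomeomorph (E × E) (E × E)} (h : Inv g e e Ψ) {x : M} (hx : x ∈ e.source)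
    {r : ℝ} (r0 : 0 < r) (hr : ∀ a, loc g.inner e (e x) a a ≤ r ^ 2 → (e x, a) ∈ Ψ.source) :
    (∀ v, g.inner x v v ≤ r ^ 2 → v ∈ Ib g x) ∧
    ∀ y, dst g x y < r → ∃ v ∈ Ib g x, ex g x v = y := by
  set W : Set E := {y | (e x, y) ∈ Ψ.target} with hW
  set c : E → ℝ := fun y => loc g.inner e (e x) (Ψ.symm (e x, y)).2 (Ψ.symm (e x, y)).2 with hc
  have oW : IsOpen W := Ψ.open_target.preimage (by fun_prop)
  have f1 : ∀ v, g.inner x v v ≤ r ^ 2 → (e x, toChart e x v) ∈ Ψ.source ∧ ex g x v ∈ e.source ∧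
      Ψ (e x, toChart e x v) = (e x, e (ex g x v)) := fun v hv => by
    have a := hr (toChart e x v) (by rwa [loc_toChart g.inner he hx])
    have b := h.src _ a
    have d := h.eq _ a
    rw [exL_Lam g he hx] at b d
    exact ⟨a, b, d⟩
  have f2 : ∀ v, g.inner x v v ≤ r ^ 2 → e (ex g x v) ∈ W ∧ c (e (ex g x v)) = g.inner x v v :=
    fun v hv => by
      obtain ⟨a, -, d⟩ := f1 v hv
      refine ⟨show _ ∈ Ψ.target from d ▸ Ψ.map_source a, ?_⟩
      simp only [hc]
      rw [← d, Ψ.left_inv a, loc_toChart g.inner he hx]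
  have f3 : ∀ y ∈ W, Ψ.symm (e x, y) ∈ Ψ.source ∧ (Ψ.symm (e x, y)).1 = e x ∧ y ∈ e.target ∧
      ∃ v, g.inner x v v = c y ∧ ex g x v = e.symm y := fun y hy => by
    have a := Ψ.map_target hy
    have b := h.eq _ a
    rw [Ψ.right_inv hy] at b
    have b1 : e x = (Ψ.symm (e x, y)).1 := congrArg Prod.fst b
    have b2 : y = e (exL g e (Ψ.symm (e x, y))) := congrArg Prod.snd b
    refine ⟨a, b1.symm, b2 ▸ e.map_source (h.src _ a), ofChart e (e x) (Ψ.symm (e x, y)).2, ?_, ?_⟩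
    · rw [← loc_toChart g.inner he hx]
      have := toChart_ofChart he (e.map_source hx) (Ψ.symm (e x, y)).2
      rw [e.left_inv hx] at this
      rw [this]
    · conv_rhs => rw [b2, e.left_inv (h.src _ a)]
      simp only [exL, Lami, ← b1, e.left_inv hx]
  have cK : IsCompact ((fun v => e (ex g x v)) '' {v | g.inner x v v ≤ r ^ 2}) :=
    (cpt_ball g x _).image_of_continuousOn
      (e.continuousOn.comp (ex_cont g x).continuousOn fun v hv => (f1 v hv).2.1)
  have c0 : ∀ y ∈ W, 0 ≤ c y := fun y hy => by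
    obtain ⟨-, -, -, v, hv, -⟩ := f3 y hy
    exact hv ▸ N_nonneg g x v
  have x0 : e x ∈ W ∧ c (e x) = 0 := by
    have := f2 0 (by simp; positivity)
    rw [ex_zero] at this
    simpa using this
  have main : ∀ ε > 0, (∀ y ∈ W, min r √(c y) ≤ dst g x (e.symm y) + ε) ∧
      ∀ q, q ∉ e.symm '' W → r ≤ dst g x q + ε := by
    intro ε hε
    have hcut := cut (g := g) he oW (fun y hy => (f3 y hy).2.2.1) cK
      (by rintro _ ⟨v, hv, rfl⟩; exact (f2 v hv).1) (φ := fun y => √(c y + ε ^ 2)) (r := r)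
      (fun y hy hK => by
        obtain ⟨-, -, a, v, hv, hv'⟩ := f3 y hy
        refine Real.le_sqrt_of_sq_le ?_
        by_contra hlt
        refine hK ⟨v, show g.inner x v v ≤ r ^ 2 by nlinarith [sq_nonneg ε], ?_⟩
        simp only [hv', e.right_inv a])
      (fun y hy => by
        obtain ⟨a, b, d, -⟩ := f3 y hy
        obtain ⟨p, p1, p2⟩ := grad_inv he he h a
        rw [Ψ.right_inv hy, b] at p1 p2
        have pos : 0 < c y + ε ^ 2 := by have := c0 y hy; positivity
        refine pl_of ((p2.add_const (ε ^ 2)).sqrt pos.ne') fun a => ?_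
        have cs := cauchy_schwarz _ ((lm_loc g he).symm y d) ((lm_loc g he).pos y d) p a
        have n0 : 0 ≤ loc g.inner e y a a := RauchX.nonneg _ ((lm_loc g he).pos y d) a
        have s0 : 0 < √(c y + ε ^ 2) := Real.sqrt_pos.2 pos
        change |(1 / (2 * √(c y + ε ^ 2))) * (2 * loc g.inner e y p a)| ≤ _
        have e1 : (1 / (2 * √(c y + ε ^ 2))) * (2 * loc g.inner e y p a) =
            loc g.inner e y p a / √(c y + ε ^ 2) := by field_simp
        rw [e1, abs_div, abs_of_pos s0, div_le_iff₀ s0, ← Real.sqrt_mul n0]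
        refine Real.abs_le_sqrt ?_
        have p1' : loc g.inner e y p p = c y := p1
        rw [p1'] at cs
        nlinarith [sq_nonneg ε])
      x0.1
    rw [e.left_inv hx, x0.2, zero_add, Real.sqrt_sq hε.le] at hcut
    refine ⟨fun y hy => ?_, fun q hq => ?_⟩
    · have h1 := hcut.1 y hy
      have h2 : min r √(c y) ≤ min r √(c y + ε ^ 2) :=
        min_le_min le_rfl (Real.sqrt_le_sqrt (by nlinarith))
      linarith [min_le_right r ε]
    · linarith [hcut.2 q hq, min_le_right r ε]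
  have m1 : ∀ y ∈ W, min r √(c y) ≤ dst g x (e.symm y) := fun y hy =>
    le_of_forall_pos_le_add fun ε hε => (main ε hε).1 y hy
  have m2 : ∀ q, q ∉ e.symm '' W → r ≤ dst g x q := fun q hq =>
    le_of_forall_pos_le_add fun ε hε => (main ε hε).2 q hq
  refine ⟨fun v hv => ?_, fun q hq => ?_⟩
  · have h1 := m1 _ (f2 v hv).1
    rw [(f2 v hv).2, e.left_inv (f1 v hv).2.1, min_eq_right (Real.sqrt_le_iff.2 ⟨r0.le, hv⟩)] at h1
    exact mem_Ib.2 (le_antisymm (dst_ex_le g x v) h1)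
  · obtain ⟨y, hy, rfl⟩ : q ∈ e.symm '' W := by
      by_contra hn
      exact absurd (m2 q hn) (not_le.2 hq)
    obtain ⟨-, -, -, v, hv, hv'⟩ := f3 y hy
    have h1 := m1 y hy
    have h2 : √(c y) ≤ dst g x (e.symm y) := by
      rcases min_le_iff.1 h1 with h3 | h3
      · exact absurd h3 (not_le.2 hq)
      · exact h3
    refine ⟨v, mem_Ib.2 (le_antisymm (dst_ex_le g x v) ?_), hv'⟩
    rwa [hv, hv']

end ShortX

theorem short (g : RMetric E M) : ∃ r > 0, ∀ x,
    (∀ v, g.inner x v v ≤ r ^ 2 → v ∈ Ib g x) ∧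
    ∀ y, dst g x y < r → ∃ v ∈ Ib g x, ex g x v = y := by
  refine unifM (P := fun r x => (∀ v, g.inner x v v ≤ r ^ 2 → v ∈ Ib g x) ∧
    ∀ y, dst g x y < r → ∃ v ∈ Ib g x, ex g x v = y) ?_ fun x₀ => ?_
  · intro r r' x h0 h1 h
    exact ⟨fun v hv => h.1 v (hv.trans (by gcongr)), fun y hy => h.2 y (hy.trans_le h1)⟩
  have he := chart_mem_atlas E x₀
  have hx := mem_chart_source E x₀
  obtain ⟨Ψ, hΨ, h0⟩ := linv g (s := (x₀, 0)) he he hx (by rwa [ex_zero]) (by
    rw [(dex_zero g he hx).fderiv, toChart_self]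
    exact fun _ _ h => h)
  generalize chartAt E x₀ = e at he hx hΨ h0
  simp only [Lam, map_zero] at h0
  obtain ⟨ρ, hρ, hb⟩ := Metric.isOpen_iff.1 Ψ.open_source _ h0
  obtain ⟨C, hC, hl⟩ := loc_coer g he hx
  refine ⟨ρ / (C + 1), by positivity, ?_⟩
  filter_upwards [e.open_source.mem_nhds hx, (e.continuousAt hx).eventually hl,
    (e.continuousAt hx).eventually (Metric.ball_mem_nhds _ hρ)] with x a b d
  refine ShortX.key g he hΨ a (by positivity) fun w hw => hb ?_
  rw [← ball_prod_same]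
  refine ⟨d, mem_ball_zero_iff.2 (lt_of_pow_lt_pow_left₀ 2 hρ.le ?_)⟩
  refine ((b.2 w).2.trans (mul_le_mul_of_nonneg_left hw hC.le)).trans_lt ?_
  rw [div_pow, ← mul_div_assoc, div_lt_iff₀ (by positivity)]
  have : 0 < ρ ^ 2 := by positivity
  nlinarith [sq_nonneg C]

theorem eq_of_dst {x y : M} (h : dst g x y = 0) : x = y := by
  obtain ⟨r, hr, hs⟩ := short g
  obtain ⟨v, hv, rfl⟩ := (hs x).2 y (by rwa [h])
  have h1 : dst g x (ex g x v) ^ 2 = g.inner x v v := hv
  rw [h] at h1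
  rw [N_eq_zero (g := g) (x := x) (v := v) (by rw [← h1]; norm_num), ex_zero]

theorem um_zero (g : RMetric E M) (x : M) : UM g x 0 := by
  obtain ⟨r, hr, hs⟩ := short g
  refine ⟨(hs x).1 0 (by simp; positivity), fun v hv h => ?_, ?_⟩
  · have h1 : dst g x (ex g x v) ^ 2 = g.inner x v v := hv
    rw [h, ex_zero, dst_self] at h1
    exact N_eq_zero (g := g) (x := x) (by rw [← h1]; norm_num)
  · rw [ex_zero]
    have h1 : dst g (x, x).1 (x, x).2 < r := by rwa [dst_self]
    filter_upwards [(dst_cont g).continuousAt.eventually (gt_mem_nhds h1)] with q hq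
    exact (hs q.1).2 q.2 hq

end Vale.Agent.P234
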