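import Vale.Agent.P234.H1
import Vale.Agent.P234.ST
import Vale.Agent.P234.DDer
import Vale.Agent.P234.Hull

open scoped ContDiff Manifold Topology
open Set Filter

noncomputable section

namespace Vale.Agent.P234

open Vale.Agent.P255

variable {E : Type} [NormedAddCommGroup E] [NormedSpace ℝ E] [FiniteDimensional ℝ E]
variable {M : Type} [TopologicalSpace M] [ChartedSpace E M] [IsManifold 𝓘(ℝ, E) ∞ M] [T2Space M]
  [CompactSpace M] [ConnectedSpace M]
variable {g : RMetric E M} {e e' : OpenPartialHomeomorph M E}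

variable {a : Bool → ℝ} {y : Bool → M}


theorem pp_init : ∃ t > 0, PP g a y t := by
  obtain ⟨R, -, hR⟩ := Ib_bdd g
  obtain ⟨C, -, hC⟩ := up g R
  obtain ⟨R', -, hR'⟩ := DD_bdd g
  obtain ⟨ε, ε0, hε⟩ := st g (C / 2) R'
  refine ⟨ε, ε0, fun x v hv x' => ?_⟩
  obtain ⟨ζ, rfl, h⟩ := hε ε ε0 le_rfl x v x' (hR' a y x v hv)
  have key : DD g a y x ⊆ {v | g.inner x ζ v ≤
      phi g a y (ex g x ζ) - phi g a y x + C / 2 * g.inner x ζ ζ} := by
    refine convexHull_min ?_ (convex_halfSpace_le (g.inner x ζ).isLinear _)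
    rintro w ⟨hw, i, h1, h2⟩
    have h3 := hC x w ζ (hR x w hw)
    have h4 := phi_ge (g := g) (a := a) (y := y) i (ex g x ζ)
    have h5 : dst g x (ex g x w) ^ 2 = g.inner x w w := hw
    rw [h1] at h3 h5
    rw [mem_ofPred_eq, g.symm x ζ w]
    linarith
  have h6 : g.inner x ζ v ≤ _ := key hv
  rw [g.symm x ζ v] at h6
  linarith

theorem SubX.sub {s : ℝ} (h0 : 0 < s) {x : M} {v : E}
    (h : ∀ x', phi g a y x + s * g.inner x v v / 2 ≤
      phi g a y x' + dst g x' (ex g x (s • v)) ^ 2 / (2 * s)) : v ∈ DD g a y x := by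
  by_contra hv
  obtain ⟨ξ, l, h1, h2⟩ := sep_hull (g.inner x) (g.symm x) (g.pos x) (VV_cpt x) hv
  have hc : Continuous fun t : ℝ => ex g x (t • ξ) :=
    (H1X.ex_cont g x).comp (continuous_id.smul continuous_const)
  have k1 : ∀ i, ∀ᶠ t in 𝓝[>] (0 : ℝ),
      a i - dst g (ex g x (t • ξ)) (y i) ^ 2 / 2 ≤ phi g a y x + t * l := fun i => by
    rcases (phi_ge (g := g) (a := a) (y := y) i x).eq_or_lt with hi | hi
    · filter_upwards [dder (y := y i) fun w hw e => h1 w ⟨hw, i, e, hi.symm⟩] with t ht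
      linarith
    · refine Eventually.filter_mono nhdsWithin_le_nhds (Eventually.mono
        (ContinuousAt.eventually_lt (f := fun t : ℝ => a i - dst g (ex g x (t • ξ)) (y i) ^ 2 / 2)
          (g := fun t : ℝ => phi g a y x + t * l) (continuous_const.sub
            (((H1X.dst_cont' g hc continuous_const).pow 2).div_const 2)).continuousAt
          (by fun_prop) ?_) fun t ht => ht.le)
      simpa [ex_zero] using hi
  obtain ⟨C, C0, hC⟩ := up g √(g.inner x (s • v) (s • v))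
  have k2 : ∀ᶠ t in 𝓝[>] (0 : ℝ), t * (C * g.inner x ξ ξ) < 2 * s * (g.inner x v ξ - l) :=
    Eventually.filter_mono nhdsWithin_le_nhds (ContinuousAt.eventually_lt
      (f := fun t : ℝ => t * (C * g.inner x ξ ξ)) (by fun_prop) continuousAt_const
      (by simpa using mul_pos (mul_pos two_pos h0) (sub_pos.2 h2)))
  obtain ⟨t, ⟨⟨a1, a2⟩, a3⟩, a4⟩ :=
    ((((k1 false).and (k1 true)).and k2).and self_mem_nhdsWithin).exists
  have b1 : phi g a y (ex g x (t • ξ)) ≤ phi g a y x + t * l := max_le a1 a2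
  have b2 := hC x (s • v) (t • ξ) (Real.sq_sqrt (N_nonneg g x _)).ge
  have b3 := h (ex g x (t • ξ))
  rw [N_smul, N_smul] at b2
  simp only [map_smul, smul_apply, smul_eq_mul] at b2
  rw [← sub_le_iff_le_add', le_div_iff₀ (by positivity)] at b3
  nlinarith [mul_le_mul_of_nonneg_left b1 h0.le, mul_lt_mul_of_pos_left a3 (mem_Ioi.1 a4)]

theorem sub_DD {s : ℝ} (h0 : 0 < s) {x : M} {v : E} (hv : s • v ∈ Ib g x)
    (h : ∀ x', phi g a y x + s * g.inner x v v / 2 ≤
      phi g a y x' + dst g x' (ex g x (s • v)) ^ 2 / (2 * s)) : v ∈ DD g a y x :=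
  SubX.sub h0 h

end Vale.Agent.P234
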