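import Vale.Agent.P234.Coer

open scoped ContDiff Manifold Topology
open Set Filter

noncomputable section

namespace Vale.Agent.P234

open Vale.Agent.P255

variable {E : Type} [NormedAddCommGroup E] [NormedSpace ℝ E] [FiniteDimensional ℝ E]
variable {M : Type} [TopologicalSpace M] [ChartedSpace E M] [IsManifold 𝓘(ℝ, E) ∞ M] [T2Space M]
  [CompactSpace M] [ConnectedSpace M]
variable {g : RMetric E M} {e e' : OpenPartialHomeomorph M E}

theorem tendsto_nhT {α : Type*} {l : Filter α} {u : α → M × E} {s : M × E} (he : e ∈ atlas E M)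
    (hs : s.1 ∈ e.source) : Tendsto u l (nhT s) ↔
      Tendsto (fun a => (u a).1) l (𝓝 s.1) ∧ Tendsto (fun a => Lam e (u a)) l (𝓝 (Lam e s)) := by
  have key : ∀ {e₁ e₂ : OpenPartialHomeomorph M E}, e₁ ∈ atlas E M → e₂ ∈ atlas E M →
      s.1 ∈ e₁.source → s.1 ∈ e₂.source → Tendsto (fun a => (u a).1) l (𝓝 s.1) →
      Tendsto (fun a => Lam e₁ (u a)) l (𝓝 (Lam e₁ s)) →
      Tendsto (fun a => Lam e₂ (u a)) l (𝓝 (Lam e₂ s)) := by
    intro e₁ e₂ h1 h2 s1 s2 a b
    have := (contDiffAt_tmap_trans h1 h2 (Lam_mem_trans s1 s2)).continuousAt.tendsto.comp b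
    rw [← Lam_trans h1 h2 s1 s2] at this
    refine this.congr' ?_
    filter_upwards [a.eventually (e₁.open_source.mem_nhds s1),
      a.eventually (e₂.open_source.mem_nhds s2)] with n c d
    exact (Lam_trans h1 h2 c d).symm
  rw [nhT, tendsto_inf, tendsto_comap_iff, tendsto_comap_iff]
  exact ⟨fun h => ⟨h.1, key (chart_mem_atlas E _) he (mem_chart_source E _) hs h.1 h.2⟩,
    fun h => ⟨h.1, key he (chart_mem_atlas E _) hs (mem_chart_source E _) h.1 h.2⟩⟩

theorem nhT_self {s : M × E} {p : M × E → Prop} (h : ∀ᶠ s' in nhT s, p s') : p s := by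
  have : Tendsto (fun _ : Unit => s) ⊤ (nhT s) :=
    (tendsto_nhT (chart_mem_atlas E s.1) (mem_chart_source E _)).2
      ⟨tendsto_const_nhds, tendsto_const_nhds⟩
  exact (this.eventually h).exists.elim fun _ h => h

theorem ev_of_chart {s : M × E} (he : e ∈ atlas E M) (hs : s.1 ∈ e.source) {p : M × E → Prop}
    (h : ∀ᶠ z in 𝓝 (Lam e s), p (Lami e z)) : ∀ᶠ s' in nhT s, p s' := by
  have t := (tendsto_nhT (u := id) he hs).1 (tendsto_id (x := nhT s))
  filter_upwards [t.1.eventually (e.open_source.mem_nhds hs), t.2.eventually h] with s' a b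
  rwa [id, Lami_Lam (s := s') he a] at b

theorem tendsto_fiber (x : M) (v : E) : Tendsto (fun w : E => (x, w)) (𝓝 v) (nhT (x, v)) := (tendsto_nhT (chart_mem_atlas E x) (mem_chart_source E x)).2 ⟨tendsto_const_nhds,
    (by fun_prop : Continuous fun w : E => (chartAt E x x, toChart (chartAt E x) x w)).tendsto v⟩

theorem tendsto_smul {α : Type*} {l : Filter α} {u : α → M × E} {s : M × E} {c : α → ℝ} {c₀ : ℝ}
    (hc : Tendsto c l (𝓝 c₀)) (hu : Tendsto u l (nhT s)) :
    Tendsto (fun a => ((u a).1, c a • (u a).2)) l (nhT (s.1, c₀ • s.2)) := by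
  have he := chart_mem_atlas E s.1
  have hs := mem_chart_source E s.1
  obtain ⟨a, b⟩ := (tendsto_nhT he hs).1 hu
  refine (tendsto_nhT (s := (s.1, c₀ • s.2)) he hs).2 ⟨a, ?_⟩
  simp only [Lam, map_smul]
  exact ((continuous_fst.tendsto _).comp b).prodMk_nhds
    (hc.smul ((continuous_snd.tendsto _).comp b))

theorem tendsto_base (s : M × E) : Tendsto (fun s' : M × E => s'.1) (nhT s) (𝓝 s.1) := ((tendsto_nhT (u := id) (chart_mem_atlas E s.1) (mem_chart_source E _)).1 tendsto_id).1

theorem tendsto_N (g : RMetric E M) (s : M × E) :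
    Tendsto (fun s' : M × E => g.inner s'.1 s'.2 s'.2) (nhT s) (𝓝 (g.inner s.1 s.2 s.2)) := by
  have he := chart_mem_atlas E s.1
  have hs := mem_chart_source E s.1
  generalize chartAt E s.1 = e at he hs
  obtain ⟨a, b⟩ := (tendsto_nhT (u := id) he hs).1 (tendsto_id (x := nhT s))
  have h1 : ContinuousAt (loc g.inner e) (Lam e s).1 :=
    (lm_loc g he).sm.continuousOn.continuousAt (e.open_target.mem_nhds (e.map_source hs))
  have h2 : ContinuousAt (fun z : E × E => loc g.inner e z.1 z.2 z.2) (Lam e s) :=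
    ((ContinuousAt.comp (f := Prod.fst) h1 continuousAt_fst).clm_apply continuousAt_snd).clm_apply
      continuousAt_snd
  have h3 := h2.tendsto.comp b
  rw [← loc_toChart g.inner he hs]
  refine h3.congr' ?_
  filter_upwards [a.eventually (e.open_source.mem_nhds hs)] with s' h'
  exact loc_toChart g.inner he h' _ _

theorem tendsto_ex (g : RMetric E M) (s : M × E) :
    Tendsto (fun s' : M × E => ex g s'.1 s'.2) (nhT s) (𝓝 (ex g s.1 s.2)) := by
  have he := chart_mem_atlas E s.1
  have hs := mem_chart_source E s.1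
  generalize chartAt E s.1 = e at he hs
  obtain ⟨a, b⟩ := (tendsto_nhT (u := id) he hs).1 (tendsto_id (x := nhT s))
  have h3 := (Phi_smooth4 g s 1 he hs).1.tendsto.comp (tendsto_const_nhds.prodMk_nhds b)
  simp only [Lami_Lam he hs] at h3
  refine h3.congr' ?_
  filter_upwards [a.eventually (e.open_source.mem_nhds hs)] with s' h'
  simp only [Function.comp_apply, id, Lami_Lam (s := s') he h']
  rfl

end Vale.Agent.P234
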