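import Vale.Agent.P255.Loc

open scoped ContDiff Manifold Topology
open Set Filter

noncomputable section

namespace Vale.Agent.P234

open Vale.Agent.P255

variable {E : Type} [NormedAddCommGroup E] [NormedSpace ℝ E] [FiniteDimensional ℝ E]

theorem peano {G : E → ℝ} {x : E} (h : ContDiffAt ℝ 2 G x) {ε : ℝ} (hε : 0 < ε) :
    ∀ᶠ ξ in 𝓝 (0 : E), |G (x + ξ) - G x - fderiv ℝ G x ξ - fderiv ℝ (fderiv ℝ G) x ξ ξ / 2|
      ≤ ε * ‖ξ‖ ^ 2 := by
  have h1 : ContDiffAt ℝ 1 (fderiv ℝ G) x := h.fderiv_right (by norm_num)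
  have hsym : ∀ a b, fderiv ℝ (fderiv ℝ G) x a b = fderiv ℝ (fderiv ℝ G) x b a :=
    (h.isSymmSndFDerivAt (by simp)).eq
  have hd : HasFDerivAt (fderiv ℝ G) (fderiv ℝ (fderiv ℝ G) x) x :=
    (h1.differentiableAt (by norm_num)).hasFDerivAt
  obtain ⟨S, hS⟩ : ∃ S, S = fderiv ℝ (fderiv ℝ G) x := ⟨_, rfl⟩
  rw [← hS] at hsym hd ⊢
  have h2 : ∀ᶠ ξ in 𝓝 (0 : E), ‖fderiv ℝ G (x + ξ) - fderiv ℝ G x - S ξ‖ ≤ ε * ‖ξ‖ :=
    (hasFDerivAt_iff_isLittleO_nhds_zero.1 hd).def hε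
  have hc : Tendsto (fun ξ : E => x + ξ) (𝓝 0) (𝓝 x) := by
    simpa using (by fun_prop : Continuous fun ξ : E => x + ξ).tendsto 0
  have h3 : ∀ᶠ ξ in 𝓝 (0 : E), DifferentiableAt ℝ G (x + ξ) :=
    hc.eventually ((h.eventually (by simp)).mono fun q hq => hq.differentiableAt (by norm_num))
  obtain ⟨r, hr, hb⟩ := Metric.mem_nhds_iff.1 (h2.and h3)
  filter_upwards [Metric.ball_mem_nhds _ hr] with ξ hξ
  have hn : ∀ t ∈ Icc (0 : ℝ) 1, ‖t • ξ‖ ≤ ‖ξ‖ := fun t ht => by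
    rw [norm_smul, Real.norm_eq_abs, abs_of_nonneg ht.1]
    exact mul_le_of_le_one_left (norm_nonneg _) ht.2
  have hm : ∀ t ∈ Icc (0 : ℝ) 1, t • ξ ∈ Metric.ball (0 : E) r := fun t ht => by
    rw [mem_ball_zero_iff] at hξ ⊢
    exact (hn t ht).trans_lt hξ
  have k1 : ∀ t ∈ Icc (0 : ℝ) 1, HasDerivWithinAt
      (fun t : ℝ => G (x + t • ξ) - t * fderiv ℝ G x ξ - t ^ 2 * (S ξ ξ / 2))
      ((fderiv ℝ G (x + t • ξ) - fderiv ℝ G x - S (t • ξ)) ξ) (Icc 0 1) t := by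
    intro t ht
    have e1 : HasDerivAt (fun t : ℝ => x + t • ξ) ξ t := by
      simpa using ((hasDerivAt_id t).smul_const ξ).const_add x
    have e2 := (hb (hm t ht)).2.hasFDerivAt.comp_hasDerivAt t e1
    have e3 : HasDerivAt (fun t : ℝ => t * fderiv ℝ G x ξ) (fderiv ℝ G x ξ) t := by
      simpa using (hasDerivAt_id t).mul_const (fderiv ℝ G x ξ)
    have e4 : HasDerivAt (fun t : ℝ => t ^ 2 * (S ξ ξ / 2)) (t * S ξ ξ) t := by
      have := (hasDerivAt_pow 2 t).mul_const (S ξ ξ / 2)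
      refine this.congr_deriv ?_
      simp only [Nat.cast_ofNat, Nat.add_one_sub_one, pow_one]; ring
    have e5 := (e2.sub e3).sub e4
    have e6 : (fderiv ℝ G (x + t • ξ) - fderiv ℝ G x - S (t • ξ)) ξ
        = fderiv ℝ G (x + t • ξ) ξ - fderiv ℝ G x ξ - t * S ξ ξ := by simp
    rw [e6]
    exact e5.hasDerivWithinAt
  have k2 := norm_image_sub_le_of_norm_deriv_le_segment_01' (C := ε * ‖ξ‖ ^ 2) k1
    (fun t ht => by
      have ht' := Ico_subset_Icc_self ht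
      refine (ContinuousLinearMap.le_opNorm _ _).trans ?_
      have e1 := (hb (hm t ht')).1
      have e2 := hn t ht'
      rw [sq, ← mul_assoc]
      refine mul_le_mul_of_nonneg_right (e1.trans ?_) (norm_nonneg _)
      exact mul_le_mul_of_nonneg_left e2 hε.le)
  simp only [one_smul, one_mul, zero_smul, add_zero, zero_mul, sub_zero, Real.norm_eq_abs,
    one_pow, ne_eq, OfNat.ofNat_ne_zero, not_false_eq_true, zero_pow] at k2
  have e : G (x + ξ) - G x - fderiv ℝ G x ξ - S ξ ξ / 2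
      = G (x + ξ) - fderiv ℝ G x ξ - S ξ ξ / 2 - G x := by ring
  rw [e]; exact k2

theorem iter_line' {G : E → ℝ} {x : E} (h : ContDiffAt ℝ 2 G x) (ξ : E) :
    iteratedDeriv 2 (fun t : ℝ => G (x + t • ξ)) 0 = fderiv ℝ (fderiv ℝ G) x ξ ξ := by
  have h1 : ContDiffAt ℝ 1 (fderiv ℝ G) x := h.fderiv_right (by norm_num)
  have e1 : ∀ t : ℝ, HasDerivAt (fun t : ℝ => x + t • ξ) ξ t := fun t => by
    simpa using ((hasDerivAt_id t).smul_const ξ).const_add x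
  have hc : Tendsto (fun t : ℝ => x + t • ξ) (𝓝 0) (𝓝 x) := by
    simpa using (e1 0).continuousAt.tendsto
  have h3 : ∀ᶠ t : ℝ in 𝓝 0, DifferentiableAt ℝ G (x + t • ξ) :=
    hc.eventually ((h.eventually (by simp)).mono fun q hq => hq.differentiableAt (by norm_num))
  have h4 : deriv (fun t : ℝ => G (x + t • ξ)) =ᶠ[𝓝 0] fun t => fderiv ℝ G (x + t • ξ) ξ := by
    filter_upwards [h3] with t ht
    exact (ht.hasFDerivAt.comp_hasDerivAt t (e1 t)).deriv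
  rw [iteratedDeriv_succ, iteratedDeriv_one, h4.deriv_eq]
  have hd : HasFDerivAt (fderiv ℝ G) (fderiv ℝ (fderiv ℝ G) x) x :=
    (h1.differentiableAt (by norm_num)).hasFDerivAt
  have h5 : HasDerivAt (fun t : ℝ => fderiv ℝ G (x + t • ξ)) (fderiv ℝ (fderiv ℝ G) x ξ) 0 :=
    HasFDerivAt.comp_hasDerivAt_of_eq (0 : ℝ) hd (e1 0) (by simp)
  have h6 := h5.clm_apply (hasDerivAt_const (0 : ℝ) ξ)
  rw [map_zero, add_zero] at h6
  exact h6.deriv

theorem tay1 {k : ℝ → ℝ} (h : ContDiffAt ℝ 2 k 0) {ε : ℝ} (hε : 0 < ε) :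
    ∀ᶠ t in 𝓝 (0 : ℝ), |k t - k 0 - deriv k 0 * t - iteratedDeriv 2 k 0 * t ^ 2 / 2|
      ≤ ε * t ^ 2 := by
  have h1 := iter_line' h (1 : ℝ)
  simp only [zero_add, smul_eq_mul, mul_one] at h1
  filter_upwards [peano h hε] with t ht
  have e1 : fderiv ℝ k 0 t = deriv k 0 * t := by
    rw [← fderiv_apply_one_eq_deriv, mul_comm, ← smul_eq_mul, ← map_smul]; simp
  have e2 : fderiv ℝ (fderiv ℝ k) 0 t t = iteratedDeriv 2 k 0 * t ^ 2 := by
    have h1' : iteratedDeriv 2 k 0 = fderiv ℝ (fderiv ℝ k) 0 1 1 := h1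
    have h2 : fderiv ℝ (fderiv ℝ k) 0 (t • (1 : ℝ)) (t • (1 : ℝ))
        = fderiv ℝ (fderiv ℝ k) 0 1 1 * t ^ 2 := by
      rw [map_smul, map_smul, ContinuousLinearMap.smul_apply, smul_eq_mul, smul_eq_mul]
      ring
    rw [h1', ← h2, smul_eq_mul, mul_one]
  rw [zero_add, e1, e2, Real.norm_eq_abs, sq_abs] at ht
  exact ht

theorem min_second {k : ℝ → ℝ} (h : ContDiffAt ℝ 2 k 0) (hm : ∀ᶠ t in 𝓝 (0 : ℝ), k 0 ≤ k t) :
    deriv k 0 = 0 ∧ 0 ≤ iteratedDeriv 2 k 0 := by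
  have h0 : deriv k 0 = 0 := IsLocalMin.deriv_eq_zero hm
  refine ⟨h0, ?_⟩
  by_contra hneg
  push Not at hneg
  have hε : 0 < -iteratedDeriv 2 k 0 / 4 := by linarith
  have h1 := ((tay1 h hε).and hm).filter_mono (nhdsWithin_le_nhds (s := Ioi (0 : ℝ)))
  obtain ⟨t, ⟨ht1, ht2⟩, ht3⟩ := (h1.and self_mem_nhdsWithin).exists
  have ht : 0 < t ^ 2 := pow_pos ht3 2
  rw [h0] at ht1
  have := (abs_le.1 ht1).2
  nlinarith

theorem iter_line {G : E → ℝ} {x : E} (h : ContDiffAt ℝ 2 G x) (ξ : E) :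
    iteratedDeriv 2 (fun t : ℝ => G (x + t • ξ)) 0 = fderiv ℝ (fderiv ℝ G) x ξ ξ :=
  iter_line' h ξ

end Vale.Agent.P234
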