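import Vale.Agent.P234.LC

open scoped ContDiff Manifold Topology
open Set Filter

noncomputable section

namespace Vale.Agent.P234

open Vale.Agent.P255

variable {E : Type} [NormedAddCommGroup E] [NormedSpace ℝ E] [FiniteDimensional ℝ E]
variable {M : Type} [TopologicalSpace M] [ChartedSpace E M] [IsManifold 𝓘(ℝ, E) ∞ M] [T2Space M]
  [CompactSpace M] [ConnectedSpace M]
variable {g : RMetric E M} {e e' : OpenPartialHomeomorph M E}

theorem up (g : RMetric E M) (R : ℝ) : ∃ C > 0, ∀ z a ζ, g.inner z a a ≤ R ^ 2 →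
    dst g (ex g z ζ) (ex g z a) ^ 2 ≤ g.inner z a a - 2 * g.inner z a ζ + C * g.inner z ζ ζ := by
  obtain ⟨r, hr, h⟩ := lc g
  obtain ⟨τ, h0, h1, h2⟩ : ∃ τ : ℝ, 0 < τ ∧ τ < 1 ∧ τ ^ 2 * R ^ 2 ≤ r ^ 2 := by
    refine ⟨min (1 / 2) (r / (|R| + 1)), by positivity,
      (min_le_left _ _).trans_lt (by norm_num), ?_⟩
    rw [← sq_abs R, ← mul_pow]
    refine pow_le_pow_left₀ (by positivity) ?_ 2
    have h3 : r / (|R| + 1) * |R| ≤ r := by
      rw [div_mul_eq_mul_div, div_le_iff₀ (by positivity)]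
      nlinarith
    exact (mul_le_mul_of_nonneg_right (min_le_right _ _) (abs_nonneg _)).trans h3
  refine ⟨3 / (2 * τ) + 3 + 2 * R ^ 2 / r ^ 2, by positivity, fun z a ζ ha => ?_⟩
  have n1 := N_nonneg g z ζ
  have n2 := N_nonneg g z a
  have p1 : 0 ≤ 3 / (2 * τ) * g.inner z ζ ζ := by positivity
  have p2 : 0 ≤ 2 * R ^ 2 / r ^ 2 * g.inner z ζ ζ := by positivity
  rcases le_total (g.inner z ζ ζ) (r ^ 2) with hz | hz
  · have a1 := (abs_le.1 (h z ζ (τ • a) hz (by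
      rw [N_smul]; exact (mul_le_mul_of_nonneg_left ha (sq_nonneg _)).trans h2)).1).2
    rw [N_sub, N_smul, map_smul, ContinuousLinearMap.smul_apply, smul_eq_mul] at a1
    have a2 := wtri g (ex g z ζ) (ex g z (τ • a)) (ex g z a) h0 (sub_pos.2 h1)
    have a3 := dst_ex g z a τ 1
    rw [one_smul, abs_of_pos (sub_pos.2 h1)] at a3
    have a4 := pow_le_pow_left₀ (dst_nonneg _ _ _) a3 2
    rw [mul_pow, Real.sq_sqrt n2] at a4
    have a5 : dst g (ex g z (τ • a)) (ex g z a) ^ 2 / (1 - τ) ≤ (1 - τ) * g.inner z a a := by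
      rw [div_le_iff₀ (sub_pos.2 h1)]; linarith
    have a6 : dst g (ex g z ζ) (ex g z (τ • a)) ^ 2 / τ ≤
        τ * g.inner z a a - 2 * g.inner z a ζ + 3 / (2 * τ) * g.inner z ζ ζ := by
      rw [div_le_iff₀ h0]
      have : 3 / (2 * τ) * g.inner z ζ ζ * τ = 3 / 2 * g.inner z ζ ζ := by field_simp
      linarith
    rw [add_sub_cancel, div_one] at a2
    linarith
  · have a1 := dst_tri g (ex g z ζ) z (ex g z a)
    have a2 := dst_ex_le g z ζ
    have a3 := dst_ex_le g z a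
    rw [dst_symm] at a2
    have a4 := pow_le_pow_left₀ (dst_nonneg _ _ _) (a1.trans (add_le_add a2 a3)) 2
    have a5 := N_nonneg g z (a - ζ)
    rw [N_sub] at a5
    have a6 : 2 * R ^ 2 ≤ 2 * R ^ 2 / r ^ 2 * g.inner z ζ ζ := by
      have := mul_le_mul_of_nonneg_left hz (show 0 ≤ 2 * R ^ 2 / r ^ 2 by positivity)
      rwa [div_mul_cancel₀ _ (by positivity)] at this
    nlinarith [Real.sq_sqrt n1, Real.sq_sqrt n2,
      sq_nonneg (√(g.inner z ζ ζ) - √(g.inner z a a))]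

/-- no corner -/
theorem nc {z : M} {a b : E}
    (h : √(g.inner z a a) + √(g.inner z b b) ≤ dst g (ex g z a) (ex g z b)) :
    √(g.inner z a a) • b = -(√(g.inner z b b) • a) := by
  have n1 := N_nonneg g z b
  have n2 := N_nonneg g z a
  obtain ⟨C, hC, h1⟩ := up g √(g.inner z a a)
  refine cs_eq (le_of_forall_pos_le_add fun ε hε => ?_)
  obtain ⟨σ, h0, h2, h3⟩ : ∃ σ : ℝ, 0 < σ ∧ σ ≤ 1 ∧ σ * (C * g.inner z b b) ≤ ε := by
    refine ⟨min 1 (ε / (C * g.inner z b b + 1)), by positivity, min_le_left _ _, ?_⟩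
    refine (mul_le_mul_of_nonneg_right (min_le_right _ _) (by positivity)).trans ?_
    rw [div_mul_eq_mul_div, div_le_iff₀ (by positivity)]
    nlinarith
  have a1 := h1 z a (σ • b) (Real.sq_sqrt n2).ge
  rw [N_smul, map_smul, smul_eq_mul] at a1
  have a2 := dst_tri g (ex g z a) (ex g z (σ • b)) (ex g z b)
  have a3 := dst_ex g z b σ 1
  rw [one_smul, abs_of_nonneg (sub_nonneg.2 h2)] at a3
  rw [dst_symm g (ex g z a) (ex g z (σ • b))] at a2
  have a4 : √(g.inner z a a) + σ * √(g.inner z b b) ≤ dst g (ex g z (σ • b)) (ex g z a) := by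
    linarith
  have a5 := (pow_le_pow_left₀ (by positivity) a4 2).trans a1
  refine le_of_mul_le_mul_left ?_ h0
  have a6 := mul_le_mul_of_nonneg_left h3 h0.le
  nlinarith [Real.sq_sqrt n2, sq_nonneg (σ * √(g.inner z b b)), mul_pos h0 hε]

theorem nc' {x : M} {ϖ b : E} (h0 : ϖ ≠ 0)
    (h : √(g.inner x ϖ ϖ) + √(g.inner (ex g x ϖ) b b) ≤ dst g x (ex g (ex g x ϖ) b)) :
    ex g x ((1 + √(g.inner (ex g x ϖ) b b) / √(g.inner x ϖ ϖ)) • ϖ) = ex g (ex g x ϖ) b := by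
  have e1 : ex g (ex g x ϖ) (-(Phi g 1 (x, ϖ)).2) = x := by
    have := ex_Phi g x ϖ 1 (-1)
    rwa [neg_one_smul, add_neg_cancel, zero_smul, ex_zero] at this
  have e2 : g.inner (ex g x ϖ) (-(Phi g 1 (x, ϖ)).2) (-(Phi g 1 (x, ϖ)).2) = g.inner x ϖ ϖ := by
    simp only [map_neg, ContinuousLinearMap.neg_apply, neg_neg]
    exact Phi_energy g (x, ϖ) 1
  have h1 := nc (z := ex g x ϖ) (a := -(Phi g 1 (x, ϖ)).2) (b := b) (by rwa [e1, e2])
  have h2 : 0 < √(g.inner x ϖ ϖ) := Real.sqrt_pos.2 (g.pos x ϖ h0)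
  rw [e2, smul_neg, neg_neg] at h1
  have h3 : (√(g.inner (ex g x ϖ) b b) / √(g.inner x ϖ ϖ)) • (Phi g 1 (x, ϖ)).2 = b := by
    rw [div_eq_inv_mul, mul_smul, ← h1, inv_smul_smul₀ h2.ne']
  rw [← ex_Phi, h3]
  rfl

end Vale.Agent.P234
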